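import Claimed.Agent.Lib.BD.Abs

/-!
# Box DZ, file Abs: abstract inequalities for `ℝ≥0∞`-valued functions (PAPER-FREE, Mathlib only).      CONTRACT (architect helper3)
Every `sorry` is a leaf `L-DZ-ABS*`.  Statements are frozen; put auxiliary lemmas (prefix `dza_`) directly above your theorem.
-/

set_option autoImplicit false
open MeasureTheory Set
open scoped ENNReal NNReal

namespace Claimed.Agent.DZ

variable {α β : Type*} [MeasurableSpace α] [MeasurableSpace β]

theorem dza_rpow_iSup {θ : ℝ} (h0 : 0 ≤ θ) (a : ℕ → ℝ≥0∞) : (⨆ n, a n) ^ θ = ⨆ n, a n ^ θ :=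
  Monotone.map_ciSup_of_continuousAt (f := fun x : ℝ≥0∞ => x ^ θ)
    (ENNReal.continuous_rpow_const.continuousAt) (ENNReal.monotone_rpow_of_nonneg h0)

theorem dza_mink_core (μ : Measure α) (ν : Measure β) [SFinite μ] [SFinite ν] {s : ℝ} (hs : 1 < s)
    (f : α → β → ℝ≥0∞) (hf : Measurable (Function.uncurry f)) (h : β → ℝ≥0∞) (hh : Measurable h)
    (hle : ∀ b, h b ≤ ∫⁻ a, f a b ∂μ) (hfin : ∫⁻ b, h b ^ s ∂ν ≠ ⊤) :
    (∫⁻ b, h b ^ s ∂ν) ^ (1 / s) ≤ ∫⁻ a, (∫⁻ b, f a b ^ s ∂ν) ^ (1 / s) ∂μ := by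
  have hs0 : 0 < s := by linarith
  have hs1 : 0 < s - 1 := by linarith
  set J := ∫⁻ b, h b ^ s ∂ν with hJ
  set N := ∫⁻ a, (∫⁻ b, f a b ^ s ∂ν) ^ (1 / s) ∂μ with hN
  by_cases hJ0 : J = 0
  · rw [hJ0, ENNReal.zero_rpow_of_pos (by positivity)]; exact zero_le
  have hconj : s.HolderConjugate (s / (s - 1)) := Real.HolderConjugate.conjExponent hs
  have hfa : ∀ a, Measurable fun b => f a b := fun a => hf.comp measurable_prodMk_left
  have hfb : ∀ b, Measurable fun a => f a b := fun b => hf.comp measurable_prodMk_right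
  have key : J ≤ N * J ^ (1 / (s / (s - 1))) := by
    calc J = ∫⁻ b, h b ^ (s - 1) * h b ∂ν := by
          rw [hJ]; refine lintegral_congr fun b => ?_
          conv_lhs => rw [show s = (s - 1) + 1 by ring]
          rw [ENNReal.rpow_add_of_nonneg _ _ hs1.le zero_le_one, ENNReal.rpow_one]
      _ ≤ ∫⁻ b, h b ^ (s - 1) * ∫⁻ a, f a b ∂μ ∂ν := lintegral_mono fun b => by gcongr; exact hle b
      _ = ∫⁻ b, ∫⁻ a, f a b * h b ^ (s - 1) ∂μ ∂ν := by
          refine lintegral_congr fun b => ?_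
          rw [lintegral_mul_const _ (hfb b), mul_comm]
      _ = ∫⁻ a, ∫⁻ b, f a b * h b ^ (s - 1) ∂ν ∂μ := by
          rw [lintegral_lintegral_swap]
          exact ((hf.comp measurable_swap).mul ((hh.comp measurable_fst).pow_const _)).aemeasurable
      _ ≤ ∫⁻ a, (∫⁻ b, f a b ^ s ∂ν) ^ (1 / s) * J ^ (1 / (s / (s - 1))) ∂μ := by
          refine lintegral_mono fun a => ?_
          have := ENNReal.lintegral_mul_le_Lp_mul_Lq ν hconj (f := fun b => f a b)
            (g := fun b => h b ^ (s - 1)) (hfa a).aemeasurable (hh.pow_const _).aemeasurable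
          refine this.trans (le_of_eq ?_)
          congr 2
          rw [hJ]
          refine lintegral_congr fun b => ?_
          rw [← ENNReal.rpow_mul]; congr 1; field_simp
      _ = N * J ^ (1 / (s / (s - 1))) := by
          rw [lintegral_mul_const]
          exact (Measurable.lintegral_prod_right' (f := fun z : α × β => f z.1 z.2 ^ s)
            (hf.pow_const _)).pow_const _
  have e : (1 / s : ℝ) = 1 - 1 / (s / (s - 1)) := by field_simp; ring
  rw [e, ENNReal.rpow_sub _ _ hJ0 hfin, ENNReal.rpow_one]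
  refine (ENNReal.div_le_iff_le_mul (Or.inl ?_) (Or.inl ?_)).2 key
  · exact (ENNReal.rpow_pos (pos_iff_ne_zero.2 hJ0) hfin).ne'
  · exact ENNReal.rpow_ne_top_of_nonneg (by positivity) hfin
/-- **LEAF L-DZ-ABS1: Minkowski's integral inequality** `‖∫ f(a,·) da‖_{L^s(ν)} ≤ ∫ ‖f(a,·)‖_{L^s(ν)} da`.
PLAN.  `s = 1`: Tonelli (`lintegral_lintegral_swap`).  `s > 1`, `s' = s/(s-1)`, `G b = ∫ f(a,b) da`, `N = ∫ ‖f(a,·)‖_s da`.
If `I = ∫ G^s` is finite and non zero: `I = ∫_b G^(s-1) ∫_a f = ∫_a ∫_b f G^(s-1) ≤ ∫_a ‖f(a,·)‖_s (∫ G^s)^(1/s') = N I^(1-1/s)` (`ENNReal.lintegral_mul_le_Lp_mul_Lq`), divide.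
General case: apply this to `f_n = min f n` restricted to `A_n ×ˢ B_n` (`spanningSets`, finite measure), for which `I_n ≤ (n μ A_n)^s ν B_n < ∞`, and let `n → ∞` (monotone convergence `lintegral_iSup`, twice; the right side only increases). -/
theorem dz_minkowski_int (μ : Measure α) (ν : Measure β) [SFinite μ] [SigmaFinite μ] [SigmaFinite ν] {s : ℝ} (hs : 1 ≤ s)
    (f : α → β → ℝ≥0∞) (hf : Measurable (Function.uncurry f)) :
    (∫⁻ b, (∫⁻ a, f a b ∂μ) ^ s ∂ν) ^ (1 / s) ≤ ∫⁻ a, (∫⁻ b, f a b ^ s ∂ν) ^ (1 / s) ∂μ := by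
  rcases hs.eq_or_lt with rfl | hs1
  · simp only [ENNReal.rpow_one, div_one]
    rw [lintegral_lintegral_swap hf.aemeasurable]
  have hs0 : 0 < s := by linarith
  set G : β → ℝ≥0∞ := fun b => ∫⁻ a, f a b ∂μ with hG
  have hGm : Measurable G := Measurable.lintegral_prod_left' (f := Function.uncurry f) hf
  set k : ℕ → β → ℝ≥0∞ := fun n => (spanningSets ν n).indicator (fun b => min (G b) n) with hk
  have hkm : ∀ n, Measurable (k n) := fun n =>
    (hGm.min measurable_const).indicator (measurableSet_spanningSets ν n)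
  have hkle : ∀ n b, k n b ≤ G b := fun n b => by
    simp only [hk]
    exact (indicator_le_self _ _ b).trans (min_le_left _ _)
  have hkfin : ∀ n, ∫⁻ b, k n b ^ s ∂ν ≠ ⊤ := by
    intro n
    have : ∫⁻ b, k n b ^ s ∂ν ≤ ∫⁻ b, (spanningSets ν n).indicator (fun _ => (n : ℝ≥0∞) ^ s) b ∂ν := by
      refine lintegral_mono fun b => ?_
      simp only [hk, indicator]
      split_ifs
      · gcongr; exact min_le_right _ _
      · simp [ENNReal.zero_rpow_of_pos hs0]
    refine (this.trans_lt ?_).ne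
    rw [lintegral_indicator_const (measurableSet_spanningSets ν n)]
    exact ENNReal.mul_lt_top (ENNReal.rpow_lt_top_of_nonneg hs0.le (ENNReal.natCast_ne_top n))
      (measure_spanningSets_lt_top ν n)
  have hmono : ∀ b, Monotone fun n => k n b := by
    intro b m n hmn
    simp only [hk, indicator]
    have hsub := monotone_spanningSets ν hmn
    split_ifs with h1 h2 h2
    · gcongr
    · exact absurd (hsub h1) h2
    · exact zero_le
    · exact le_rfl
  have htend : ∀ b, Filter.Tendsto (fun n => k n b) Filter.atTop (nhds (G b)) := by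
    intro b
    have h1 : Filter.Tendsto (fun n : ℕ => min (G b) (n : ℝ≥0∞)) Filter.atTop (nhds (min (G b) ⊤)) :=
      tendsto_const_nhds.min ENNReal.tendsto_nat_nhds_top
    rw [min_eq_left le_top] at h1
    refine h1.congr' ?_
    filter_upwards [Filter.eventually_ge_atTop (spanningSetsIndex ν b)] with n hn
    simp only [hk]
    rw [indicator_of_mem (monotone_spanningSets ν hn (mem_spanningSetsIndex ν b))]
  have hlim : Filter.Tendsto (fun n => ∫⁻ b, k n b ^ s ∂ν) Filter.atTop (nhds (∫⁻ b, G b ^ s ∂ν)) :=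
    lintegral_tendsto_of_tendsto_of_monotone (fun n => ((hkm n).pow_const s).aemeasurable)
      (Filter.Eventually.of_forall fun b m n hmn => by
        dsimp only
        gcongr
        exact hmono b hmn)
      (Filter.Eventually.of_forall fun b =>
        ((ENNReal.continuous_rpow_const (y := s)).tendsto (G b)).comp (htend b))
  have hlim2 := ((ENNReal.continuous_rpow_const (y := 1 / s)).tendsto _).comp hlim
  exact le_of_tendsto' hlim2 fun n => dza_mink_core μ ν hs1 f hf (k n) (hkm n) (hkle n) (hkfin n)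

/-- **LEAF L-DZ-ABS2: countable triangle inequality in `L^p`.**
PLAN.  `∑' i, f i x = ⨆ n, ∑ i ∈ range n, f i x` (`ENNReal.tsum_eq_iSup_nat`), monotone convergence (`lintegral_iSup`; `ENNReal.rpow` is continuous and monotone: `ENNReal.iSup_rpow`-type lemma or `Monotone.map_iSup_of_continuousAt`), `BD.abs_minkowski` for the finite sums, `ENNReal.sum_le_tsum`. -/
theorem dz_minkowski_tsum (μ : Measure α) {p : ℝ} (hp : 1 ≤ p) (f : ℕ → α → ℝ≥0∞) (hf : ∀ i, AEMeasurable (f i) μ) :
    (∫⁻ x, (∑' i, f i x) ^ p ∂μ) ^ (1 / p) ≤ ∑' i, (∫⁻ x, f i x ^ p ∂μ) ^ (1 / p) := by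
  have hp0 : 0 < p := by linarith
  have e1 : ∀ x, (∑' i, f i x) ^ p = ⨆ n : ℕ, (∑ i ∈ Finset.range n, f i x) ^ p := by
    intro x
    rw [ENNReal.tsum_eq_iSup_nat, dza_rpow_iSup hp0.le]
  simp_rw [e1]
  rw [lintegral_iSup' (fun n => (Finset.aemeasurable_fun_sum _ fun i _ => hf i).pow_const p)
    (Filter.Eventually.of_forall fun x => fun m n hmn => by
      dsimp only
      gcongr), dza_rpow_iSup (by positivity)]
  exact iSup_le fun n => (BD.abs_minkowski hp _ _ fun j _ => hf j).trans (ENNReal.sum_le_tsum _)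

/-- **LEAF L-DZ-ABS3: subadditivity of `x ↦ x^θ`, `θ ≤ 1`, for series.**   (finite sums by induction from `ENNReal.rpow_add_le_add_rpow`; then `ENNReal.tsum_eq_iSup_nat` and continuity of `rpow`.) -/
theorem dz_rpow_tsum_le {θ : ℝ} (h0 : 0 ≤ θ) (h1 : θ ≤ 1) (x : ℕ → ℝ≥0∞) : (∑' i, x i) ^ θ ≤ ∑' i, x i ^ θ := by
  rcases h0.eq_or_lt with rfl | h0'
  · simp
  have hfin : ∀ n : ℕ, (∑ i ∈ Finset.range n, x i) ^ θ ≤ ∑ i ∈ Finset.range n, x i ^ θ := by
    intro n
    induction n with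
    | zero => simp [ENNReal.zero_rpow_of_pos h0']
    | succ n ih =>
      rw [Finset.sum_range_succ, Finset.sum_range_succ]
      exact (ENNReal.rpow_add_le_add_rpow _ _ h0 h1).trans (by gcongr)
  rw [ENNReal.tsum_eq_iSup_nat, dza_rpow_iSup h0]
  exact iSup_le fun n => (hfin n).trans (ENNReal.sum_le_tsum _)

end Claimed.Agent.DZ
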