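import Claimed.Agent.Lib.MR.Defs

/-!
# Box DZ (row 257): LOCAL refined Strichartz `RSL` and multilinear refined Strichartz `MRS*` (replace Du-Zhang / DGLZ).     DEFINITIONS     (captain helper3; exponents: report 862 of helper198; REDESIGNED as below)

Language of `Lib/BD` : `V` abstract, `k = finrank V ≥ 1`, `d = k + 1`, space-time `V × ℝ` (sup norm), paraboloid `τ = |ξ|²`, character `ch (pr z w)`, no `2π`.   `q = qq V = 2(k+2)/k`.

* FROM `Lib/MR/Defs` (helper13; API in `Lib/MR/Fam`, sorry-free):  `MR.ext g z = ∫ ch (⟪x,ξ⟫ + t |ξ|²) g ξ dξ`   EXACT field with datum `g`,   `MR.l2 g = ∫ |g|²`,  `MR.gam ξ = (ξ, |ξ|²)`,  `MR.lm`, `MR.Cells`, `MR.Tr`.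
* NO GRIDS, NO WAVE PACKETS, NO ERROR TERMS, NO PIGEONHOLING.   A "cube of side `ρ`" is a sup-norm ball, every sum over cubes is an integral over the CENTRE `z` (`∑_Q ≈ ρ^(-d) ∫ dz`).
  `lqw q W F z = ∫ |F y|^q W (y - z) dy`  (`q`-th power of the local norm with weight `W`);  `bw ρ` = indicator of the ball, `wt E ρ` (`Lib/BD`) `= (1 + |y|/ρ)^(-E)`, `pw a b` = indicator of a plate.
* `rsg q ρ Ω W F = ρ⁻¹ ∫ dt (ρ^(-k) ∫ dx Ω(x,t) (lqw q W F (x,t))^(2/q))^(q/2)`         (`≈ ∑_{slabs s} (∑_{Q ⊆ s} Ω(Q) ‖F‖²_{L^q(Q)})^(q/2)`;  `Ω` = weight on the centres).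
* LOCAL `L²` MASS instead of wave packets:  `MR.lm E R g a = R⁻¹ ∫ |ext g y|² (1 + |y - a|/R)^(-E) dy`.
* `Cl C₀ δ s c G` : the data `G j`, `j ∈ s`, live in the balls `B(c j, δ)`, the centres are `δ`-separated and lie in the ball `C₀`.
* **`RSL`** = `RslPow V` :  for a family of cells at scale `δ = ρ⁻¹`, `R = ρ²`:   `rsg q ρ (1_{B(a,R)}) (1_{B(0,ρ)}) (∑_j ext (G j)) ≤ C ρ^ε (∑_j lm E R (G j) a)^(q/2)`.     (PARAMETER = the cube radius `ρ`; no square roots.)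
  The right side is EXACTLY self-similar: with `ρ = r²`, the parabolic rescaling of a cluster of radius `σ = r⁻¹` maps cells at scale `r⁻²` to cells at scale `r⁻¹`, and the masses of `B(a,r⁴)` are sums of masses of balls of
  radius `r²` in the new coordinates (`dz_lm_cover`).  No orthogonality and no localisation of the data is ever needed.   The weight exponent `E` drops along a FINITE ladder (`J(ε)` steps, polynomial bound at the bottom).
* weights are handled by TRANSLATES (`Wl.lean`).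
-/

set_option autoImplicit false
open MeasureTheory Set Metric
open scoped ENNReal NNReal RealInnerProductSpace

namespace Claimed.Agent.DZ

open Claimed.Agent.BD

noncomputable section

variable {V : Type} [NormedAddCommGroup V] [InnerProductSpace ℝ V] [FiniteDimensional ℝ V] [MeasurableSpace V] [BorelSpace V]

variable (V) in
/-- the Strichartz / critical decoupling exponent `2(k+2)/k`. -/
def qq : ℝ := 2 * ((Module.finrank ℝ V : ℝ) + 2) / (Module.finrank ℝ V : ℝ)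

/-- the datum of the parabolic rescaling about `v`: `ext g z = ch (pr z (gam v)) σ^(k/2) ext (rsc v σ g) (Lam v σ σ² z)`. -/
def rsc (v : V) (σ : ℝ) (g : V → ℂ) (ξ : V) : ℂ := ((σ ^ ((Module.finrank ℝ V : ℝ) / 2) : ℝ) : ℂ) * g (v + σ • ξ)

/-- `∫ |F y|^q W (y - z) dy`. -/
def lqw (q : ℝ) (W : V × ℝ → ℝ≥0∞) (F : V × ℝ → ℂ) (z : V × ℝ) : ℝ≥0∞ := ∫⁻ y, ‖F y‖ₑ ^ q * W (y - z)

/-- the sharp weight: indicator of the (sup norm) ball of radius `ρ`. -/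
def bw (ρ : ℝ) : V × ℝ → ℝ≥0∞ := (closedBall (0 : V × ℝ) ρ).indicator 1

/-- the plate weight: indicator of `{|x| ≤ a, |t| ≤ b}`. -/
def pw (a b : ℝ) : V × ℝ → ℝ≥0∞ := {y : V × ℝ | ‖y.1‖ ≤ a ∧ |y.2| ≤ b}.indicator 1

/-- the polynomial plate weight `(1 + max (|x|/a) (|t|/b))^(-E)`. -/
def pwt (E a b : ℝ) (y : V × ℝ) : ℝ≥0∞ := ENNReal.ofReal ((1 + max (‖y.1‖ / a) (|y.2| / b)) ^ (-E))

/-- the weight `(1 + |x|/R)^(-E)` on `V`. -/
def wv (E R : ℝ) (x : V) : ℝ≥0∞ := ENNReal.ofReal ((1 + ‖x‖ / R) ^ (-E))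

/-- the refined Strichartz functional (`q`-th power): `Ω` = weight on the centres, `W` = weight of the cubes. -/
def rsg (q ρ : ℝ) (Ω W : V × ℝ → ℝ≥0∞) (F : V × ℝ → ℂ) : ℝ≥0∞ :=
  ENNReal.ofReal ρ⁻¹ * ∫⁻ t : ℝ, (ENNReal.ofReal (ρ ^ (-(Module.finrank ℝ V : ℝ))) * ∫⁻ x : V, Ω (x, t) * lqw q W F (x, t) ^ (2 / q)) ^ (q / 2)

/-- a family of cells at scale `δ`. -/
structure Cl (C₀ δ : ℝ) {ι : Type} (s : Finset ι) (c : ι → V) (G : ι → V → ℂ) : Prop where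
  bdd : ∀ j ∈ s, ‖c j‖ ≤ C₀
  sep : ∀ j ∈ s, ∀ j' ∈ s, j ≠ j' → δ ≤ ‖c j - c j'‖
  meas : ∀ j ∈ s, Measurable (G j)
  supp : ∀ j ∈ s, ∀ ξ, δ < ‖ξ - c j‖ → G j ξ = 0
  fin : ∀ j ∈ s, MR.l2 (G j) < ⊤

variable (V) in
/-- `A` is a constant for `RSL` at the cube radius `ρ`, i.e. at the radius `R = ρ²` (mass exponent `E`, centres in the ball `C₀`, cells at scale `ρ⁻¹ = R^(-1/2)`). -/
def RslLe (C₀ E ρ : ℝ) (A : ℝ≥0∞) : Prop :=
  ∀ (ι : Type) (s : Finset ι) (c : ι → V) (G : ι → V → ℂ), Cl C₀ ρ⁻¹ s c G → ∀ a : V × ℝ,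
    rsg (qq V) ρ (fun z => bw (ρ ^ 2) (z - a)) (bw ρ) (fun y => ∑ j ∈ s, MR.ext (G j) y) ≤ A * (∑ j ∈ s, MR.lm E (ρ ^ 2) (G j) a) ^ (qq V / 2)

variable (V) in
/-- **`RSL`**. -/
def RslPow : Prop := ∀ C₀ E ε : ℝ, 0 ≤ C₀ → 0 ≤ E → 0 < ε → ∃ C : ℝ, ∀ ρ : ℝ, 1 ≤ ρ → RslLe V C₀ E ρ (ENNReal.ofReal (C * ρ ^ ε))

/-- Stores the on-demand equation lemmas of the definitions above in THIS module (rule 6 hygiene). -/
theorem dz_defs_forced : True := by
  have := @qq.eq_1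
  have := @rsc.eq_1
  have := @lqw.eq_1
  have := @bw.eq_1
  have := @pw.eq_1
  have := @pwt.eq_1
  have := @wv.eq_1
  have := @rsg.eq_1
  have := @RslLe.eq_1
  have := @RslPow.eq_1
  trivial

end

end Claimed.Agent.DZ
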