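import Claimed.Agent.Lib.DZ.Defs
import Claimed.Agent.Lib.MR.Fam
import Claimed.Agent.R257.Frac.Curve
import Claimed.Agent.R257.Infra.Str.L2

/-!
# Box DZ, file Ex: calculus of exact fields `MR.ext g`.      CONTRACT (captain helper3)
PAPER-FREE.  Every `sorry` is a leaf `L-DZ-EX*`.  Statements are frozen (tell helper3 at once if one looks false or awkward); auxiliary lemmas (prefix `dze_`) directly above your theorem; edit only your block.
AVAILABLE (sorry-free): `Lib/MR/Fam` (`MR.ext_continuous`, `MR.ext_sum`, `MR.ext_translate`, `MR.norm_ext_le`, `MR.ext_mul_FS`, `MR.exists_cells`, `MR.Cells.sum_indicator`, `MR.Cells.sum_l2_le`, `MR.mr_int_ch`),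
`Lib/BD/{Fs,FSApi,Wt,Loc,Ker}`, `R257/Frac/{SdLoc,Curve}` (`BD.Mfs`, `BD.fc_mfs_curve`), `R257/Infra/Str/L2` (`R257.inf_str_pl_plancherel`: Plancherel for `L¹ ∩ L²`, any `V`).
-/

set_option autoImplicit false
open MeasureTheory Set Metric
open scoped ENNReal NNReal RealInnerProductSpace

namespace Claimed.Agent.DZ

open Claimed.Agent.BD

variable {V : Type} [NormedAddCommGroup V] [InnerProductSpace ℝ V] [FiniteDimensional ℝ V] [MeasurableSpace V] [BorelSpace V]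

/-- finite `l2` = `MemLp 2`. -/
theorem dze_memLp {g : V → ℂ} (hm : AEStronglyMeasurable g volume) (hf : MR.l2 g < ⊤) : MemLp g 2 volume := by
  refine ⟨hm, ?_⟩
  rw [eLpNorm_eq_lintegral_rpow_enorm_toReal (by norm_num) (by norm_num)]
  simp only [ENNReal.toReal_ofNat]
  exact ENNReal.rpow_lt_top_of_nonneg (by norm_num) hf.ne

/-- **LEAF L-DZ-EX1.**  `L²` + bounded support ⟹ `L¹`  (`g` is `MemLp 2` for `volume.restrict (closedBall v a)`, a finite measure: `MemLp.mono_exponent` / `MemLp.integrable`; `g = 0` outside: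
`integrableOn_iff_integrable_of_support_subset`;  `MR.l2 g < ⊤` ⟹ `eLpNorm g 2 < ⊤`: `eLpNorm_eq_lintegral_rpow_enorm`). -/
theorem dz_integrable {g : V → ℂ} (hm : Measurable g) (v : V) (a : ℝ) (hs : ∀ ξ, a < ‖ξ - v‖ → g ξ = 0) (hf : MR.l2 g < ⊤) : Integrable g := by
  have h2 : MemLp g 2 volume := dze_memLp hm.aestronglyMeasurable hf
  have hfin : IsFiniteMeasure (volume.restrict (closedBall v a)) :=
    ⟨by rw [Measure.restrict_apply_univ]; exact (isCompact_closedBall v a).measure_lt_top⟩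
  have h3 : IntegrableOn g (closedBall v a) := (h2.restrict _).integrable (by norm_num)
  refine (integrableOn_iff_integrable_of_support_subset ?_).1 h3
  intro ξ hξ
  rw [mem_closedBall, dist_eq_norm]
  by_contra hcon
  exact hξ (hs ξ (not_le.1 hcon))

theorem Cl.integrable {C₀ δ : ℝ} {ι : Type} {s : Finset ι} {c : ι → V} {G : ι → V → ℂ} (h : Cl C₀ δ s c G) {j : ι} (hj : j ∈ s) : Integrable (G j) :=
  dz_integrable (h.meas j hj) (c j) δ (h.supp j hj) (h.fin j hj)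

theorem Cl.subset {C₀ δ : ℝ} {ι : Type} {s t : Finset ι} {c : ι → V} {G : ι → V → ℂ} (h : Cl C₀ δ s c G) (hts : t ⊆ s) : Cl C₀ δ t c G :=
  ⟨fun j hj => h.bdd j (hts hj), fun j hj j' hj' => h.sep j (hts hj) j' (hts hj'), fun j hj => h.meas j (hts hj), fun j hj => h.supp j (hts hj), fun j hj => h.fin j (hts hj)⟩

/-- exact fields are `Mfs` fields of the cap (thickness `0`). -/
theorem dz_ext_mfs {g : V → ℂ} (hg : Integrable g) {v : V} {a : ℝ} (hs : ∀ ξ, a < ‖ξ - v‖ → g ξ = 0) : Mfs (cap v a 0) (MR.ext g) := by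
  refine fc_mfs_curve hg MR.mr_gam_cont.measurable (fun ξ hξ => ?_)
  refine ⟨?_, ?_⟩
  · by_contra hcon
    exact hξ (hs ξ (not_le.1 hcon))
  · simp [MR.gam]

/-- **LEAF L-DZ-EX2a.**  finite sums of `Mfs` fields (`continuous_finset_sum`, `Finset.sum_mul`, `BD.FS.sum`). -/
theorem dz_mfs_sum {S : Set (V × ℝ)} {ι : Type} (s : Finset ι) {H : ι → V × ℝ → ℂ} (h : ∀ j ∈ s, Mfs S (H j)) : Mfs S (fun z => ∑ j ∈ s, H j z) := by
  refine ⟨continuous_finsetSum _ fun j hj => (h j hj).cont, fun T η hη => ?_⟩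
  have := FS.sum s (H := fun j z => H j z * η z) (fun j hj => (h j hj).mul T η hη)
  simp only [Finset.sum_mul]
  exact this

/-- the phase identity of the parabolic rescaling. -/
theorem dze_phase (v : V) (σ : ℝ) (z : V × ℝ) (ξ : V) :
    pr z (MR.gam (v + σ • ξ)) = pr z (MR.gam v) + pr (Lam v σ (σ ^ 2) z) (MR.gam ξ) := by
  simp only [pr, MR.gam, Lam]
  rw [norm_add_sq_real, inner_add_right, inner_smul_right, inner_smul_left, inner_add_left, inner_smul_left, inner_smul_right, norm_smul,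
    mul_pow, Real.norm_eq_abs, sq_abs]
  simp only [RCLike.conj_to_real]
  ring

/-- **LEAF L-DZ-EX2b: parabolic rescaling.**   `ξ = v + σ ξ'`:  `⟪x,ξ⟫ + t|ξ|² = (⟪x,v⟫ + t|v|²) + ⟪σ(x + 2tv), ξ'⟫ + σ² t |ξ'|²`,  `dξ = σ^k dξ'`
(`integral_add_left_eq_self`, `Measure.integral_comp_smul_of_nonneg`; no integrability is needed; `BD.ch_add`;  `σ^k = σ^(k/2) σ^(k/2)`). -/
theorem dz_ext_rsc (v : V) {σ : ℝ} (hσ : 0 < σ) (g : V → ℂ) (z : V × ℝ) :
    MR.ext g z = ch (pr z (MR.gam v)) * ((σ ^ ((Module.finrank ℝ V : ℝ) / 2) : ℝ) : ℂ) * MR.ext (rsc v σ g) (Lam v σ (σ ^ 2) z) := by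
  unfold MR.ext
  have h1 : ∫ ξ, ch (pr z (MR.gam ξ)) * g ξ = ∫ ξ, ch (pr z (MR.gam (v + ξ))) * g (v + ξ) :=
    (integral_add_left_eq_self (fun ξ => ch (pr z (MR.gam ξ)) * g ξ) v).symm
  have h2 := Measure.integral_comp_smul_of_nonneg (volume : Measure V) (fun ξ => ch (pr z (MR.gam (v + ξ))) * g (v + ξ)) σ (hR := hσ.le)
  have hk : (0 : ℝ) < σ ^ Module.finrank ℝ V := by positivity
  have h3 : ∫ ξ, ch (pr z (MR.gam (v + ξ))) * g (v + ξ) = ((σ ^ Module.finrank ℝ V : ℝ) : ℂ) * ∫ ξ, ch (pr z (MR.gam (v + σ • ξ))) * g (v + σ • ξ) := by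
    rw [h2, Complex.real_smul, ← mul_assoc, ← Complex.ofReal_mul, mul_inv_cancel₀ hk.ne', Complex.ofReal_one, one_mul]
  rw [h1, h3]
  have h4 : ∀ ξ, ch (pr (Lam v σ (σ ^ 2) z) (MR.gam ξ)) * rsc v σ g ξ =
      ((σ ^ ((Module.finrank ℝ V : ℝ) / 2) : ℝ) : ℂ) * (ch (pr (Lam v σ (σ ^ 2) z) (MR.gam ξ)) * g (v + σ • ξ)) := by
    intro ξ
    unfold rsc
    ring
  have h5 : ∀ ξ, ch (pr z (MR.gam (v + σ • ξ))) * g (v + σ • ξ) = ch (pr z (MR.gam v)) * (ch (pr (Lam v σ (σ ^ 2) z) (MR.gam ξ)) * g (v + σ • ξ)) := by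
    intro ξ
    rw [dze_phase, ch_add]
    ring
  simp_rw [h4, h5]
  rw [integral_const_mul, integral_const_mul]
  have h6 : ((σ ^ Module.finrank ℝ V : ℝ) : ℂ) = ((σ ^ ((Module.finrank ℝ V : ℝ) / 2) : ℝ) : ℂ) * ((σ ^ ((Module.finrank ℝ V : ℝ) / 2) : ℝ) : ℂ) := by
    rw [← Complex.ofReal_mul, ← Real.rpow_add hσ, add_halves, Real.rpow_natCast]
  rw [h6]
  ring

/-- dilations of `lintegral`. -/
theorem dze_lintegral_smul {σ : ℝ} (hσ : 0 < σ) (f : V → ℝ≥0∞) :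
    ∫⁻ ξ, f (σ • ξ) = ENNReal.ofReal ((σ ^ Module.finrank ℝ V)⁻¹) * ∫⁻ ξ, f ξ := by
  have h1 : ∫⁻ ξ, f (σ • ξ) = ∫⁻ ξ, f ξ ∂(Measure.map (fun x : V => σ • x) volume) :=
    (lintegral_map_equiv f (Homeomorph.smulOfNeZero σ hσ.ne').toMeasurableEquiv).symm
  rw [h1, Measure.map_addHaar_smul volume hσ.ne', lintegral_smul_measure, abs_of_pos (by positivity)]
  rfl

/-- **LEAF L-DZ-EX2c.**  (`lintegral` change of variables `ξ = v + σ ξ'`: `lintegral_add_left_eq_self`, `Measure.addHaar_smul` / `MeasurePreserving`; `(σ^(k/2))² σ^(-k) = 1`.) -/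
theorem dz_l2_rsc (v : V) {σ : ℝ} (hσ : 0 < σ) (g : V → ℂ) : MR.l2 (rsc v σ g) = MR.l2 g := by
  unfold MR.l2
  have hk : (0 : ℝ) < σ ^ Module.finrank ℝ V := by positivity
  have h1 : ∀ ξ, ‖rsc v σ g ξ‖ₑ ^ (2 : ℝ) = ENNReal.ofReal (σ ^ Module.finrank ℝ V) * ‖g (v + σ • ξ)‖ₑ ^ (2 : ℝ) := by
    intro ξ
    unfold rsc
    rw [enorm_mul, ENNReal.mul_rpow_of_nonneg _ _ (by norm_num)]
    congr 1
    rw [← ofReal_norm, Complex.norm_real, Real.norm_eq_abs, abs_of_pos (Real.rpow_pos_of_pos hσ _),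
      ENNReal.ofReal_rpow_of_nonneg (Real.rpow_pos_of_pos hσ _).le (by norm_num), ← Real.rpow_mul hσ.le]
    congr 1
    rw [div_mul_cancel₀ _ (by norm_num : (2 : ℝ) ≠ 0), Real.rpow_natCast]
  simp_rw [h1]
  rw [lintegral_const_mul' _ _ ENNReal.ofReal_ne_top, dze_lintegral_smul hσ (fun ξ => ‖g (v + ξ)‖ₑ ^ (2 : ℝ)),
    lintegral_add_left_eq_self (fun ξ => ‖g ξ‖ₑ ^ (2 : ℝ)) v, ← mul_assoc, ← ENNReal.ofReal_mul hk.le, mul_inv_cancel₀ hk.ne',
    ENNReal.ofReal_one, one_mul]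

/-- **LEAF L-DZ-EX3a: the rescaled family of cells.** -/
theorem Cl.rsc {C₀ δ σ : ℝ} {ι : Type} {s : Finset ι} {c : ι → V} {G : ι → V → ℂ} (h : Cl C₀ δ s c G) (u : V) (hσ : 0 < σ) (hu : ∀ j ∈ s, ‖c j - u‖ ≤ σ) :
    Cl 1 (δ / σ) s (fun j => σ⁻¹ • (c j - u)) (fun j => rsc u σ (G j)) := by
  refine ⟨fun j hj => ?_, fun j hj j' hj' hne => ?_, fun j hj => ?_, fun j hj ξ hξ => ?_, fun j hj => ?_⟩
  · rw [norm_smul, Real.norm_eq_abs, abs_of_pos (inv_pos.2 hσ), inv_mul_le_iff₀ hσ, mul_one]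
    exact hu j hj
  · have : σ⁻¹ • (c j - u) - σ⁻¹ • (c j' - u) = σ⁻¹ • (c j - c j') := by
      rw [← smul_sub]
      congr 1
      abel
    rw [this, norm_smul, Real.norm_eq_abs, abs_of_pos (inv_pos.2 hσ), div_eq_inv_mul]
    exact mul_le_mul_of_nonneg_left (h.sep j hj j' hj' hne) (inv_pos.2 hσ).le
  · unfold DZ.rsc
    exact measurable_const.mul ((h.meas j hj).comp (measurable_const.add (measurable_const_smul σ)))
  · unfold DZ.rsc
    rw [h.supp j hj, mul_zero]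
    have : u + σ • ξ - c j = σ • (ξ - σ⁻¹ • (c j - u)) := by
      rw [smul_sub, smul_smul, mul_inv_cancel₀ hσ.ne', one_smul]
      abel
    rw [this, norm_smul, Real.norm_eq_abs, abs_of_pos hσ]
    rwa [div_lt_iff₀ hσ, mul_comm] at hξ
  · rw [dz_l2_rsc u hσ]
    exact h.fin j hj

/-- **LEAF L-DZ-EX3b.**  (`dz_ext_rsc` for every `j`, the phase and the factor are common: `Finset.mul_sum`; `BD.norm_ch`.) -/
theorem dz_sum_rsc {ι : Type} (s : Finset ι) (G : ι → V → ℂ) (u : V) {σ : ℝ} (hσ : 0 < σ) (y : V × ℝ) :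
    ‖∑ j ∈ s, MR.ext (G j) y‖ₑ = ENNReal.ofReal (σ ^ ((Module.finrank ℝ V : ℝ) / 2)) * ‖∑ j ∈ s, MR.ext (rsc u σ (G j)) (Lam u σ (σ ^ 2) y)‖ₑ := by
  have h1 : ∑ j ∈ s, MR.ext (G j) y = ch (pr y (MR.gam u)) * ((σ ^ ((Module.finrank ℝ V : ℝ) / 2) : ℝ) : ℂ) * ∑ j ∈ s, MR.ext (rsc u σ (G j)) (Lam u σ (σ ^ 2) y) := by
    rw [Finset.mul_sum]
    exact Finset.sum_congr rfl fun j _ => dz_ext_rsc u hσ (G j) y
  rw [h1, enorm_mul, enorm_mul]
  congr 1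
  rw [← ofReal_norm, ← ofReal_norm, norm_ch, ENNReal.ofReal_one, one_mul, Complex.norm_real, Real.norm_eq_abs,
    abs_of_pos (Real.rpow_pos_of_pos hσ _)]

/-- the exact field at time `t` is an inverse Fourier transform. -/
theorem dze_ext_eq_fourierInv (g : V → ℂ) (x : V) (t : ℝ) :
    MR.ext g (x, t) = FourierTransformInv.fourierInv (fun ξ => ch (t * ‖ξ‖ ^ 2) * g ξ) ((2 * Real.pi)⁻¹ • x) := by
  rw [Real.fourierInv_eq']
  unfold MR.ext
  refine integral_congr_ae (Filter.Eventually.of_forall fun ξ => ?_)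
  simp only [pr, MR.gam, smul_eq_mul]
  rw [ch_add, mul_assoc]
  congr 1
  unfold ch
  congr 2
  rw [inner_smul_right, real_inner_comm]
  have : (2 * Real.pi) ≠ 0 := by positivity
  field_simp

/-- **LEAF L-DZ-EX4: conservation of the `L²` norm (only `≤`).**
PLAN.  `MR.ext g (x,t) = ∫ ch ⟪x,ξ⟫ (ch (t|ξ|²) g ξ) dξ = 𝓕 G_t (-x/(2π))`, `G_t = ch (t|·|²) g ∈ L¹ ∩ L²`, `|G_t| = |g|`.   `R257.inf_str_pl_plancherel` (+ `R257.inf_str_pl_lint`), dilation `x = -2π x'` (`Measure.addHaar_smul`): constant `(2π)^k`. -/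
theorem dz_planch : ∃ c : ℝ, 0 < c ∧ ∀ g : V → ℂ, Integrable g → MR.l2 g < ⊤ → ∀ t : ℝ,
    ∫⁻ x : V, ‖MR.ext g (x, t)‖ₑ ^ (2 : ℝ) ≤ ENNReal.ofReal c * MR.l2 g := by
  have hπ : (0 : ℝ) < (2 * Real.pi)⁻¹ := by positivity
  refine ⟨(((2 * Real.pi)⁻¹) ^ Module.finrank ℝ V)⁻¹, by positivity, fun g hg hf t => ?_⟩
  set G : V → ℂ := fun ξ => ch (t * ‖ξ‖ ^ 2) * g ξ with hG
  have hchc : Continuous fun ξ : V => ch (t * ‖ξ‖ ^ 2) := by
    unfold ch
    fun_prop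
  have hnorm : ∀ ξ, ‖G ξ‖ = ‖g ξ‖ := by
    intro ξ
    rw [hG]
    simp only
    rw [norm_mul, norm_ch, one_mul]
  have hGm : AEStronglyMeasurable G volume := hchc.aestronglyMeasurable.mul hg.aestronglyMeasurable
  have hG1 : Integrable G := (integrable_norm_iff hGm).1 (by simp_rw [hnorm]; exact hg.norm)
  have hl2 : MR.l2 G = MR.l2 g := by
    unfold MR.l2
    refine lintegral_congr fun ξ => ?_
    rw [← ofReal_norm, ← ofReal_norm, hnorm]
  have hG2 : MemLp G 2 volume := dze_memLp hGm (hl2 ▸ hf)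
  obtain ⟨hm, heq⟩ := R257.inf_str_pl_plancherel_inv hG1 hG2
  simp_rw [dze_ext_eq_fourierInv g _ t]
  rw [dze_lintegral_smul hπ (fun w => ‖FourierTransformInv.fourierInv G w‖ₑ ^ (2 : ℝ)), R257.inf_str_pl_lint hm, heq, ← R257.inf_str_pl_lint hG2]
  rw [← hl2]
  exact le_rfl

/-- **LEAF L-DZ-EX5: exact fields are locally constant at scale `1`.**
PLAN.  `η` of `BD.exists_eta`; `F y' = MR.ext g y' * η (y' - y)` is in `FS (closedBall 0 C)`, `C = C(C₀)` (`MR.ext_mul_FS` with `S = closedBall 0 C₀`, `BD.FS.dilate` with `R = 1`; `gam '' S + closedBall 0 1 ⊆ closedBall 0 (C₀ + C₀² + 1)`), `|F y| ≥ |ext g y|`;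
`BD.loc_const_ball` (`r = 1`, `t = p`, `M = d + 1`) at the point `y`, and the decay of `η` (`|η|^p ≤ C (1+|·|)^(-E)`; drop the weight `wt M 1 ≤ 1`). -/
theorem dz_loc_const (C₀ E p : ℝ) (hC₀ : 0 ≤ C₀) (hE : 0 ≤ E) (hp : 1 ≤ p) : ∃ A : ℝ, ∀ g : V → ℂ, Integrable g → (∀ ξ, C₀ < ‖ξ‖ → g ξ = 0) → ∀ y : V × ℝ,
    ‖MR.ext g y‖ₑ ^ p ≤ ENNReal.ofReal A * ∫⁻ y', ‖MR.ext g y'‖ₑ ^ p * wt E 1 (y' - y) := by
  have hp0 : 0 < p := by linarith
  obtain ⟨η, hη1, hη2, hη3, -⟩ := exists_eta (V := V)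
  obtain ⟨Cη, hCη⟩ := hη3 (E / p)
  have hCη0 : 0 ≤ Cη := by
    have := (norm_nonneg _).trans (hCη 0)
    simpa using this
  obtain ⟨A₁, hA₁⟩ := loc_const_ball (V := V) (C₀ + C₀ ^ 2 + 1) ((dd V : ℝ) + 1) p hp (by linarith)
  refine ⟨A₁ * Cη ^ p, fun g hg hs y => ?_⟩
  have hFS : FS (closedBall (0 : V × ℝ) ((C₀ + C₀ ^ 2 + 1) / 1)) (fun z => MR.ext g z * η (z + -y)) := by
    refine (MR.ext_mul_FS hg (S := closedBall 0 C₀) (fun ξ hξ => hs ξ ?_) (hη1.shift (-y))).mono ?_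
    · simpa using hξ
    · rintro _ ⟨_, ⟨ξ, hξ, rfl⟩, w, hw, rfl⟩
      rw [mem_closedBall, dist_zero_right] at hξ hw ⊢
      have h1 : ‖MR.gam ξ‖ ≤ C₀ + C₀ ^ 2 := by
        unfold MR.gam
        rw [Prod.norm_def]
        refine max_le (by nlinarith [norm_nonneg ξ]) ?_
        rw [Real.norm_eq_abs, abs_of_nonneg (by positivity)]
        nlinarith [norm_nonneg ξ]
      calc ‖MR.gam ξ + w‖ ≤ ‖MR.gam ξ‖ + ‖w‖ := norm_add_le _ _
        _ ≤ (C₀ + C₀ ^ 2 + 1) / 1 := by rw [div_one]; linarith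
  have h2 := hA₁ 1 0 _ one_pos hFS y
  have h3 : ‖MR.ext g y‖ₑ ^ p ≤ ‖MR.ext g y * η (y + -y)‖ₑ ^ p := by
    gcongr
    rw [enorm_mul, add_neg_cancel]
    have : (1 : ℝ≥0∞) ≤ ‖η 0‖ₑ := by
      rw [← ofReal_norm, ← ENNReal.ofReal_one]
      exact ENNReal.ofReal_le_ofReal (hη2 0 (by simp))
    calc ‖MR.ext g y‖ₑ = ‖MR.ext g y‖ₑ * 1 := (mul_one _).symm
      _ ≤ _ := by gcongr
  refine h3.trans (h2.trans ?_)
  unfold avp
  rw [Real.one_rpow, ENNReal.ofReal_one, one_mul]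
  by_cases hA0 : A₁ ≤ 0
  · rw [ENNReal.ofReal_of_nonpos hA0, zero_mul]; exact zero_le
  push Not at hA0
  rw [ENNReal.ofReal_mul hA0.le, mul_assoc, ← lintegral_const_mul' (ENNReal.ofReal (Cη ^ p)) _ ENNReal.ofReal_ne_top]
  refine mul_le_mul' le_rfl (lintegral_mono fun y' => ?_)
  dsimp only
  rw [enorm_mul, ENNReal.mul_rpow_of_nonneg _ _ hp0.le]
  have h4 : wt ((dd V : ℝ) + 1) 1 (y' - y) ≤ 1 := by
    unfold wt
    rw [← ENNReal.ofReal_one]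
    refine ENNReal.ofReal_le_ofReal (Real.rpow_le_one_of_one_le_of_nonpos ?_ ?_)
    · have := norm_nonneg (y' - y); rw [div_one]; linarith
    · have : (0 : ℝ) ≤ (dd V : ℝ) := Nat.cast_nonneg _
      linarith
  have h5 : ‖η (y' + -y)‖ₑ ^ p ≤ ENNReal.ofReal (Cη ^ p) * wt E 1 (y' - y) := by
    unfold wt
    rw [← ENNReal.ofReal_mul (by positivity), ← ofReal_norm, ENNReal.ofReal_rpow_of_nonneg (norm_nonneg _) hp0.le,
      ← sub_eq_add_neg, div_one]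
    refine ENNReal.ofReal_le_ofReal ?_
    have hb : (0 : ℝ) < 1 + ‖y' - y‖ := by have := norm_nonneg (y' - y); linarith
    calc ‖η (y' - y)‖ ^ p ≤ (Cη * (1 + ‖y' - y‖) ^ (-(E / p))) ^ p := by
          gcongr; exact hCη _
      _ = Cη ^ p * (1 + ‖y' - y‖) ^ (-E) := by
          rw [Real.mul_rpow hCη0 (by positivity), ← Real.rpow_mul hb.le]
          congr 2; field_simp
  calc ‖MR.ext g y'‖ₑ ^ p * ‖η (y' + -y)‖ₑ ^ p * wt ((dd V : ℝ) + 1) 1 (y' - y)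
      ≤ ‖MR.ext g y'‖ₑ ^ p * (ENNReal.ofReal (Cη ^ p) * wt E 1 (y' - y)) * 1 := by gcongr
    _ = ENNReal.ofReal (Cη ^ p) * (‖MR.ext g y'‖ₑ ^ p * wt E 1 (y' - y)) := by ring

/-- **LEAF L-DZ-EX6: decomposition into cells with centres in `U`.**   (`MR.exists_cells`, `G v = (c v).indicator g`, `MR.Cells.sum_indicator`, `MR.Cells.sum_l2_le`, `MR.ext_sum`, `dz_integrable`.) -/
theorem dz_cells {C₀ δ : ℝ} (hδ : 0 < δ) (U : Set V) (hU : U ⊆ closedBall 0 C₀) {g : V → ℂ} (hm : Measurable g) (hg : ∀ ξ, ξ ∉ U → g ξ = 0) (hf : MR.l2 g < ⊤) :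
    ∃ (s : Finset V) (G : V → V → ℂ), (∀ v ∈ s, v ∈ U) ∧ Cl C₀ δ s id G ∧ ∑ v ∈ s, MR.l2 (G v) ≤ MR.l2 g ∧ ∀ z, MR.ext g z = ∑ v ∈ s, MR.ext (G v) z := by
  obtain ⟨s, c, h⟩ := MR.exists_cells hδ U hU
  have hsum := h.sum_l2_le hm
  have hcl : Cl C₀ δ s id (fun v => (c v).indicator g) := by
    refine ⟨fun v hv => ?_, fun v hv w hw hne => h.sep v hv w hw hne, fun v hv => hm.indicator (h.meas v hv),
      fun v hv ξ hξ => ?_, fun v hv => ?_⟩
    · simpa using hU (h.sub v hv)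
    · refine indicator_of_notMem (fun hc => ?_) _
      have := h.near v hv hc
      rw [mem_closedBall, dist_eq_norm] at this
      exact absurd this (not_le.2 hξ)
    · exact ((Finset.single_le_sum (f := fun v => MR.l2 ((c v).indicator g)) (fun _ _ => zero_le) hv).trans hsum).trans_lt hf
  refine ⟨s, fun v => (c v).indicator g, h.sub, hcl, hsum, fun z => ?_⟩
  rw [← MR.ext_sum s _ (fun v hv => hcl.integrable hv) z]
  congr 1
  ext ξ
  exact (h.sum_indicator hg ξ).symm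

end Claimed.Agent.DZ
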