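import Claimed.Agent.Lib.DZ.OccDefs
import Claimed.Agent.R257.TR.TubesDefs

/-!
# Box DZ, file OccTR: the occupancy contract in the form of TR-TUBES (helper195, `R257/TR/TubesDefs.lean`) follows from `DZ.OccStmt`.      (helper3)
-/

set_option autoImplicit false

namespace Claimed.Agent.DZ

open Claimed.Agent.R257

/-- `TR.OccStmt n` (hypothesis on ALL boxes) from `DZ.OccStmt n` (hypothesis on the occupied boxes). -/
theorem dz_occ_tr {n : ℕ} (h : OccStmt n) : TR.OccStmt n := by
  intro R₀ ε hε
  obtain ⟨C, M, hCM⟩ := h R₀ ε hε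
  refine ⟨C, M, fun L Q a Lam Y f hL hQ ha hLam ht hd htr hw hbox => ?_⟩
  have key := hCM L Q a Lam Y f hL hQ ha hLam ht hd htr hw (fun q _ => ?_)
  · exact key
  · have := hbox (bx L q)
    unfold TR.tbIn at this
    convert this using 3
    ext q'
    simp only [Finset.mem_filter]
    rfl
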