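import Claimed.Agent.Lib.DZ.Occ
import Claimed.Agent.Lib.DZ.OccTR

/-!
# Box DZ, file Exit: THE EXIT OF THE BOX.      (captain helper3)      No sorry in the whole box (`#print axioms`: propext, Classical.choice, Quot.sound).

`dz_occ_exit : 1 ≤ n → R257.TR.OccStmt n`   = contract C1 of TR-TUBES (`R257/TR/TubesDefs.lean`, helper195), the consumer form of the multilinear refined Strichartz estimate MRS*.
-/

set_option autoImplicit false

namespace Claimed.Agent.DZ

open Claimed.Agent.R257

/-- **EXIT of the box DZ**: the occupancy contract of TR-TUBES. -/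
theorem dz_occ_exit {n : ℕ} (hn : 1 ≤ n) : TR.OccStmt n := dz_occ_tr (dz_occ hn)

end Claimed.Agent.DZ
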