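import Claimed.Agent.Lib.DZ.Defs

/-!
# Box DZ, part 2: the MULTILINEAR REFINED STRICHARTZ estimate `MRS*`.     DEFINITIONS     (captain helper3; exponents: report 862 (3.2) of helper198; REDESIGNED: continuous centres, polynomial weights, NO wave packets, NO error terms)

`k = finrank V ≥ 1`, `d = k + 1` fields, `q = 2(k+2)/k`.      **`MRS*`** (`Mm.lean`, `dz_mrs`):   for `Q`-transverse data `f_i` (`MR.Tr Q U`), `R = ρ²`:
      `ρ^(-d) ∫_{|t - t₀| ≤ R} ∏_i ‖ext f_i‖_{L^q(w_{B(z,ρ)})}^(q/(k+3)) dz  ≤  C Q^M ρ^ε ∏_i ‖f_i‖₂^(q/(k+3))`.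

## Proof (scales `ρ = r²`, `R = r⁴`, cells `δ = r⁻²`, clusters `J` of radius `σ = r⁻¹` and centre `u_J`, `L_J = Lam u_J σ σ²`, `T = r³`)
`F_J = ∑_{j ∈ J} ext (G j)`, `H_J = ∑_{j ∈ J} ext (rsc u_J σ (G j))` (the rescaled field), `β_J(z) = lqw q (wt E₀ ρ) F_J z`.
(a) local decoupling (`dz_loc_dec`):  `B_i(z)² := lqw q (wt E₀ ρ) (ext f_i) z^(2/q) ≤ D r^η ∑_J β_J(z)^(2/q)`.
(b) for ANY positive function `y_J`:  `β_J^(2/q) = y_J^(2/(k+2)) (β_J y_J^(-2/k))^(k/(k+2))`;  Hölder in `J`, in `z`, in `i` (`dz_holder_mrs`):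
      `∫ ω ∏ B_i^(q/(k+3)) ≲ (∫ ∏_i (∑_J y_J)^(1/k))^(2/(k+3)) ∏_i (∫ ω' ∑_J β_J y_J^(-2/k))^(1/(k+3))`            (KAKEYA factor, MASS factors).
(c) THE CHOICE.   In the coordinates `z' = L_J z`:   `xs z'` = squared `L^q` norm of `H_J` on the `r`-cube at `z'` (`≈` tube segment `r² × r³` in the old coordinates),   `Xs z'` = sum of `xs` over the cubes of the slab at time `z'.2` within `r²` of `z'.1`,
      `m b = ∑_{j ∈ J} lm E r² (rsc … (G j)) (b, σ² t₀)` = local mass of the ball `B(b, r²)` (`≈` tube `r³ × r⁴` in the old coordinates: it does NOT depend on the time),   `ys = xs · m / Xs`,   `y_J(z) = ys (L_J z)`.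
(d) MASS (`Mr.lean`):  all functions vary slowly (Peetre), so  `r^(-k) ∫ ω' (lqw q (plate) H) ys^(-2/k) ≲ r^(-d) ∫ ω' xs^(q/2) ys^(-2/k) = r^(-d) ∫ ω' xs (Xs/m)^(2/k) ≲ r^(-2k) ∫ db m(b)^(-2/k) r⁻¹ ∫ ω' Xs(b,t)^(q/2) dt ≲ A' r^(-2k) ∫ m`
      by `RSL` at the scale `r` (`dz_rsl_wt`; `q/2 = 1 + 2/k`), and `r^(-2k) ∫ m ≲ ∑_{j ∈ J} ‖G j‖₂²` (Plancherel).
(e) KAKEYA (`Mk.lean`):  in every slab the `ys`-mass of a ball of radius `r²` is `≲ m`;  endpoint multilinear Kakeya `MK.mk_graph` twice (tubes `r² × r³` inside balls of radius `T = r³`, then tubes `r³ × ∞`).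
-/

set_option autoImplicit false
open MeasureTheory Set Metric
open scoped ENNReal NNReal RealInnerProductSpace

namespace Claimed.Agent.DZ

open Claimed.Agent.BD

noncomputable section

variable {V : Type} [NormedAddCommGroup V] [InnerProductSpace ℝ V] [FiniteDimensional ℝ V] [MeasurableSpace V] [BorelSpace V]

/-- the weight `(1 + |t|/R)^(-E)` on the time axis. -/
def wr (E R t : ℝ) : ℝ≥0∞ := ENNReal.ofReal ((1 + |t| / R) ^ (-E))

/-- squared local `L^q` norm on the `r`-cube at `z` (polynomial weight). -/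
def xs (q E₁ r : ℝ) (H : V × ℝ → ℂ) (z : V × ℝ) : ℝ≥0∞ := lqw q (wt E₁ r) H z ^ (2 / q)

/-- the sum of `xs` over the cubes of the slab at time `z.2` within `r²` of `z.1` (polynomial weight). -/
def Xs (q E₁ E₂ r : ℝ) (H : V × ℝ → ℂ) (z : V × ℝ) : ℝ≥0∞ :=
  ENNReal.ofReal (r ^ (-(Module.finrank ℝ V : ℝ))) * ∫⁻ x : V, wv E₂ (r ^ 2) (x - z.1) * xs q E₁ r H (x, z.2)

/-- the Kakeya weight `xs · m / Xs`. -/
def ys (q E₁ E₂ r : ℝ) (H : V × ℝ → ℂ) (m : V → ℝ≥0∞) (z : V × ℝ) : ℝ≥0∞ := xs q E₁ r H z * m z.1 / Xs q E₁ E₂ r H z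

/-! ### the exponents of the weights (functions of `k` only) -/

variable (V) in
/-- mass exponent `E = k + 3`. -/
def eE : ℝ := (Module.finrank ℝ V : ℝ) + 3

variable (V) in
/-- exponent of the weight of `Xs`: `E₂ = E + d + 1`. -/
def eX : ℝ := 2 * (Module.finrank ℝ V : ℝ) + 5

variable (V) in
/-- exponent of the weight of `xs`: `E₁ = q/2 (E + d) + 1`. -/
def eS : ℝ := qq V / 2 * (2 * (Module.finrank ℝ V : ℝ) + 4) + 1

variable (V) in
/-- exponent of the time weight: `E_t = E₂ q/2`. -/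
def eT : ℝ := eX V * qq V / 2

variable (V) in
/-- slow variation of `ys`. -/
def eY : ℝ := 4 * eS V / qq V + eE V + eX V

variable (V) in
/-- slow variation of `wr · ys^(-2/k)`. -/
def eG : ℝ := eT V + 2 / (Module.finrank ℝ V : ℝ) * eY V

variable (V) in
/-- exponent of the weight of the cubes in `MRS*`. -/
def eP : ℝ := eG V + (dd V : ℝ) + 1

/-! ### one cluster -/

/-- the rescaled field of the cluster `(t, G)` with centre `u` at the scale `σ = r⁻¹`. -/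
def Hc (u : V) (r : ℝ) {ι : Type} (t : Finset ι) (G : ι → V → ℂ) (y : V × ℝ) : ℂ := ∑ j ∈ t, MR.ext (rsc u r⁻¹ (G j)) y

/-- the local masses of the cluster (rescaled coordinates, time centre `σ² t₀`). -/
def mc (u : V) (r t₀ : ℝ) {ι : Type} (t : Finset ι) (G : ι → V → ℂ) (b : V) : ℝ≥0∞ := ∑ j ∈ t, MR.lm (eE V) (r ^ 2) (rsc u r⁻¹ (G j)) (b, r⁻¹ ^ 2 * t₀)

/-- the Kakeya weight of the cluster in the ORIGINAL coordinates. -/
def yc (u : V) (r t₀ : ℝ) {ι : Type} (t : Finset ι) (G : ι → V → ℂ) (z : V × ℝ) : ℝ≥0∞ :=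
  ys (qq V) (eS V) (eX V) r (Hc u r t G) (mc u r t₀ t G) (Lam u r⁻¹ (r⁻¹ ^ 2) z)

/-- Stores the on-demand equation lemmas of the definitions above in THIS module (rule 6 hygiene). -/
theorem dz_mdefs_forced : True := by
  have := @wr.eq_1
  have := @xs.eq_1
  have := @Xs.eq_1
  have := @ys.eq_1
  have := @eE.eq_1
  have := @eX.eq_1
  have := @eS.eq_1
  have := @eT.eq_1
  have := @eY.eq_1
  have := @eG.eq_1
  have := @eP.eq_1
  have := @Hc.eq_1
  have := @mc.eq_1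
  have := @yc.eq_1
  trivial

end

end Claimed.Agent.DZ
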