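import Claimed.Agent.Lib.DZ.MDefs
import Claimed.Agent.Lib.BD.Wt
import Claimed.Agent.Lib.BD.Abs
import Claimed.Agent.Lib.MK.Graph

/-!
# Box DZ, file Mk: the KAKEYA factor of `MRS*` (abstract two-scale multilinear Kakeya) and the abstract Hölder inequality.      CONTRACT (captain helper3)
PAPER-FREE (Mathlib + `MK.mk_graph` + `Lib/BD/{Wt,Abs}`).  Every `sorry` is a leaf `L-DZ-K*`.  Statements are frozen (tell helper3 at once if one looks false or awkward); auxiliary lemmas (prefix `dzk_`) directly above your theorem; edit only your block.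

`Y i J (p,t)` = density (in the SHEARED coordinates `p = x + 2 t u`) of the weight of the thin tubes (width `ρ`, length `T`) of the velocity `u i J`;   `mm i J p` = weight of the fat tube (width `T`, infinite) at the position `p`.
(P1) `Y` varies slowly at the scale `ρ × T`;   (P2) in every slab the `Y`-mass of a ball of radius `(2 + 2C₀) T` is at most the weight of the fat tube;   (P3) `mm` varies slowly at the scale `T`.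
`Fin (dd V) = Fin (finrank V + 1)` by unfolding `BD.dd`.
-/

set_option autoImplicit false
open MeasureTheory Set Metric
open scoped ENNReal NNReal RealInnerProductSpace

namespace Claimed.Agent.DZ

open Claimed.Agent.BD

variable {V : Type} [NormedAddCommGroup V] [InnerProductSpace ℝ V] [FiniteDimensional ℝ V] [MeasurableSpace V] [BorelSpace V]

/-- the product of a constant multiple -/
theorem dzk_prod_const {n : ℕ} (A : ℝ≥0∞) (S : Fin n → ℝ≥0∞) {κ : ℝ} (hκ : 0 ≤ κ) :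
    ∏ i, (A * S i) ^ (1 / κ) = A ^ ((n : ℝ) / κ) * ∏ i, S i ^ (1 / κ) := by
  have h1 : ∀ i, (A * S i) ^ (1 / κ) = A ^ (1 / κ) * S i ^ (1 / κ) := fun i => ENNReal.mul_rpow_of_nonneg _ _ (by positivity)
  simp only [h1]
  rw [Finset.prod_mul_distrib, Finset.prod_const, Finset.card_univ, Fintype.card_fin, ← ENNReal.rpow_natCast, ← ENNReal.rpow_mul]
  congr 2
  ring

/-- **the common core of K1, K2**: `MK.mk_graph` for the measures `A • μ i J`. -/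
theorem dzk_core (hk : 1 ≤ Module.finrank ℝ V) (C₀ : ℝ) (hC₀ : 0 ≤ C₀) : ∃ C : ℝ, ∃ M : ℕ, 0 < C ∧ ∀ (h Q : ℝ) (A : ℝ≥0∞) (ι : Type) (Θ : Fin (dd V) → Finset ι)
    (u : Fin (dd V) → ι → V) (μ : Fin (dd V) → ι → Measure V) (f : Fin (dd V) → ι → V × ℝ → ℝ≥0∞) (N : Fin (dd V) → ι → ℝ≥0∞) (S : Set (V × ℝ)),
    0 < h → 1 ≤ Q → (∀ i, ∀ J ∈ Θ i, ‖u i J‖ ≤ C₀) →
    (∀ J : Fin (dd V) → ι, (∀ i, J i ∈ Θ i) → ∀ t : Fin (dd V) → ℝ, ∑ i, |t i| ≤ Q * (‖∑ i, t i • u i (J i)‖ + |∑ i, t i|)) →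
    MeasurableSet S → (∀ z ∈ S, ∀ i, ∀ J ∈ Θ i, f i J z ≤ A * μ i J (closedBall (z.1 + (2 * z.2) • u i J) h)) → (∀ i, ∀ J ∈ Θ i, μ i J univ ≤ N i J) →
    ∫⁻ z in S, ∏ i, (∑ J ∈ Θ i, f i J z) ^ (1 / (Module.finrank ℝ V : ℝ))
      ≤ ENNReal.ofReal (C * Q ^ M * h ^ (dd V : ℝ)) * A ^ ((dd V : ℝ) / (Module.finrank ℝ V : ℝ)) * ∏ i, (∑ J ∈ Θ i, N i J) ^ (1 / (Module.finrank ℝ V : ℝ)) := by
  obtain ⟨C, M, hC, H⟩ := MK.mk_graph V hk C₀ hC₀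
  refine ⟨C, M, hC, ?_⟩
  intro h Q A ι Θ u μ f N S hh hQ hu htr hS hf hN
  have hκ : (0 : ℝ) ≤ (Module.finrank ℝ V : ℝ) := Nat.cast_nonneg _
  have H1 : ∫⁻ z : V × ℝ, ∏ i : Fin (dd V), (∑ J ∈ Θ i, (A • μ i J) (closedBall (z.1 + (2 * z.2) • u i J) h)) ^ (1 / (Module.finrank ℝ V : ℝ))
      ≤ ENNReal.ofReal (C * Q ^ M * h ^ (Module.finrank ℝ V + 1)) * ∏ i : Fin (dd V), (∑ J ∈ Θ i, (A • μ i J) univ) ^ (1 / (Module.finrank ℝ V : ℝ)) :=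
    H h Q hh hQ ι Θ u (fun i J => A • μ i J) hu htr
  have e1 : h ^ (dd V : ℝ) = h ^ (Module.finrank ℝ V + 1) := by
    rw [Real.rpow_natCast]
    rfl
  rw [e1]
  calc ∫⁻ z in S, ∏ i, (∑ J ∈ Θ i, f i J z) ^ (1 / (Module.finrank ℝ V : ℝ))
      ≤ ∫⁻ z in S, ∏ i : Fin (dd V), (∑ J ∈ Θ i, (A • μ i J) (closedBall (z.1 + (2 * z.2) • u i J) h)) ^ (1 / (Module.finrank ℝ V : ℝ)) := by
        refine setLIntegral_mono' hS fun z hz => ?_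
        refine Finset.prod_le_prod' fun i _ => ?_
        refine ENNReal.rpow_le_rpow (Finset.sum_le_sum fun J hJ => ?_) (by positivity)
        rw [Measure.smul_apply, smul_eq_mul]
        exact hf z hz i J hJ
    _ ≤ ∫⁻ z : V × ℝ, ∏ i : Fin (dd V), (∑ J ∈ Θ i, (A • μ i J) (closedBall (z.1 + (2 * z.2) • u i J) h)) ^ (1 / (Module.finrank ℝ V : ℝ)) :=
        setLIntegral_le_lintegral _ _
    _ ≤ ENNReal.ofReal (C * Q ^ M * h ^ (Module.finrank ℝ V + 1)) * ∏ i : Fin (dd V), (∑ J ∈ Θ i, (A • μ i J) univ) ^ (1 / (Module.finrank ℝ V : ℝ)) := H1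
    _ ≤ ENNReal.ofReal (C * Q ^ M * h ^ (Module.finrank ℝ V + 1)) * ∏ i : Fin (dd V), (A * ∑ J ∈ Θ i, N i J) ^ (1 / (Module.finrank ℝ V : ℝ)) := by
        refine mul_le_mul_right (Finset.prod_le_prod' fun i _ => ?_) _
        refine ENNReal.rpow_le_rpow ?_ (by positivity)
        rw [Finset.mul_sum]
        refine Finset.sum_le_sum fun J hJ => ?_
        rw [Measure.smul_apply, smul_eq_mul]
        exact mul_le_mul_right (hN i J hJ) _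
    _ = _ := by
        rw [dzk_prod_const A _ hκ]
        exact (mul_assoc _ _ _).symm

/-- averaging over a ball of `V` -/
theorem dzk_avg {h : ℝ} (hh : 0 < h) {g : V → ℝ≥0∞} (hg : Measurable g) (a B : ℝ≥0∞) (p₀ : V) (hle : ∀ p ∈ closedBall p₀ h, a ≤ B * g p) :
    a ≤ (volume (ball (0 : V) 1))⁻¹ * B * (ENNReal.ofReal (h ^ (-(Module.finrank ℝ V : ℝ))) * ∫⁻ p in closedBall p₀ h, g p) := by
  have hc0 : volume (ball (0 : V) 1) ≠ 0 := (measure_ball_pos volume 0 one_pos).ne'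
  have hcT : volume (ball (0 : V) 1) ≠ ⊤ := measure_ball_lt_top.ne
  have h1 : a * volume (closedBall p₀ h) ≤ B * ∫⁻ p in closedBall p₀ h, g p := by
    rw [← lintegral_const_mul _ hg, ← setLIntegral_const]
    exact setLIntegral_mono' measurableSet_closedBall hle
  rw [Measure.addHaar_closedBall _ _ hh.le] at h1
  have e : ENNReal.ofReal (h ^ Module.finrank ℝ V) * ENNReal.ofReal (h ^ (-(Module.finrank ℝ V : ℝ))) = 1 := by
    rw [← ENNReal.ofReal_mul (by positivity), Real.rpow_neg hh.le, Real.rpow_natCast, mul_inv_cancel₀ (by positivity), ENNReal.ofReal_one]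
  calc a = a * (ENNReal.ofReal (h ^ Module.finrank ℝ V) * volume (ball (0 : V) 1)) *
        (ENNReal.ofReal (h ^ (-(Module.finrank ℝ V : ℝ))) * (volume (ball (0 : V) 1))⁻¹) := by
        have e2 : a * (ENNReal.ofReal (h ^ Module.finrank ℝ V) * volume (ball (0 : V) 1)) *
            (ENNReal.ofReal (h ^ (-(Module.finrank ℝ V : ℝ))) * (volume (ball (0 : V) 1))⁻¹) =
            a * (ENNReal.ofReal (h ^ Module.finrank ℝ V) * ENNReal.ofReal (h ^ (-(Module.finrank ℝ V : ℝ)))) *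
              (volume (ball (0 : V) 1) * (volume (ball (0 : V) 1))⁻¹) := by ring
        rw [e2, e, ENNReal.mul_inv_cancel hc0 hcT, mul_one, mul_one]
    _ ≤ (B * ∫⁻ p in closedBall p₀ h, g p) * (ENNReal.ofReal (h ^ (-(Module.finrank ℝ V : ℝ))) * (volume (ball (0 : V) 1))⁻¹) :=
        mul_le_mul_left h1 _
    _ = _ := by ring


/-- the constant `c_V^(-d/k)` as a real number -/
theorem dzk_const (x : ℝ) (hx : 0 ≤ x) : ∃ c : ℝ, 0 < c ∧ ((volume (ball (0 : V) 1))⁻¹) ^ x = ENNReal.ofReal c := by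
  have hc0 : volume (ball (0 : V) 1) ≠ 0 := (measure_ball_pos volume 0 one_pos).ne'
  have hcT : volume (ball (0 : V) 1) ≠ ⊤ := measure_ball_lt_top.ne
  have h0 : ((volume (ball (0 : V) 1))⁻¹) ^ x ≠ 0 := by
    rw [Ne, ENNReal.rpow_eq_zero_iff]
    rintro (⟨h1, -⟩ | ⟨-, h2⟩)
    · exact hcT (ENNReal.inv_eq_zero.1 h1)
    · linarith
  have hT : ((volume (ball (0 : V) 1))⁻¹) ^ x ≠ ⊤ := ENNReal.rpow_ne_top_of_nonneg hx (ENNReal.inv_ne_top.2 hc0)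
  exact ⟨_, ENNReal.toReal_pos h0 hT, (ENNReal.ofReal_toReal hT).symm⟩

/-- **LEAF L-DZ-K1: thin tubes inside one ball of radius `T`** (~300 l.).    `c_V` = volume of the unit ball of `V`, `p_J(z) = z.1 + 2 z.2 u_J`.   For `z ∈ B(c,T)`:  `‖p_J(z) - p_J(c)‖ ≤ (1 + 2C₀) T`;
(P1) with the shift `(p_J(z) - p, z.2 - c.2)`:  `Y_J (p_J(z), z.2) ≤ B₁ Y_J (p, c.2)` for all `p ∈ B(p_J(z), ρ)`;  average over this ball:  `Y_J (p_J(z), z.2) ≤ B₁ c_V⁻¹ μ_J (closedBall (p_J(z)) ρ)`,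
`μ_J = (volume.restrict (closedBall (p_J(c)) ((2+2C₀) T))).withDensity (fun p => ofReal (ρ^(-k)) * Y_J (p, c.2))`   (`closedBall (p_J z) ρ ⊆ closedBall (p_J c) ((2+2C₀) T)` since `ρ ≤ T`).
`MK.mk_graph V hk C₀` with `h = ρ` (restrict the integral to the ball: `setLIntegral_le_lintegral`);   `μ_J univ ≤ B₂ mm_J (p_J(c))` by (P2). -/
theorem dz_kak_loc (hk : 1 ≤ Module.finrank ℝ V) (C₀ : ℝ) (hC₀ : 0 ≤ C₀) : ∃ C : ℝ, ∃ M : ℕ, ∀ (ρ T Q : ℝ) (B₁ B₂ : ℝ≥0∞) (ι : Type) (Θ : Fin (dd V) → Finset ι) (u : Fin (dd V) → ι → V)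
    (Y : Fin (dd V) → ι → V × ℝ → ℝ≥0∞) (mm : Fin (dd V) → ι → V → ℝ≥0∞), 0 < ρ → ρ ≤ T → 1 ≤ Q → (∀ i, ∀ J ∈ Θ i, ‖u i J‖ ≤ C₀) →
    (∀ J : Fin (dd V) → ι, (∀ i, J i ∈ Θ i) → ∀ t : Fin (dd V) → ℝ, ∑ i, |t i| ≤ Q * (‖∑ i, t i • u i (J i)‖ + |∑ i, t i|)) →
    (∀ i, ∀ J ∈ Θ i, Measurable (Y i J)) →
    (∀ i, ∀ J ∈ Θ i, ∀ z w : V × ℝ, ‖w.1‖ ≤ ρ → |w.2| ≤ T → Y i J (z + w) ≤ B₁ * Y i J z) →
    (∀ i, ∀ J ∈ Θ i, ∀ (p₀ : V) (t : ℝ), ENNReal.ofReal (ρ ^ (-(Module.finrank ℝ V : ℝ))) * ∫⁻ p in closedBall p₀ ((2 + 2 * C₀) * T), Y i J (p, t) ≤ B₂ * mm i J p₀) →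
    ∀ c : V × ℝ, ∫⁻ z in closedBall c T, ∏ i, (∑ J ∈ Θ i, Y i J (z.1 + (2 * z.2) • u i J, z.2)) ^ (1 / (Module.finrank ℝ V : ℝ))
      ≤ ENNReal.ofReal (C * Q ^ M * ρ ^ (dd V : ℝ)) * (B₁ * B₂) ^ ((dd V : ℝ) / (Module.finrank ℝ V : ℝ)) *
        ∏ i, (∑ J ∈ Θ i, mm i J (c.1 + (2 * c.2) • u i J)) ^ (1 / (Module.finrank ℝ V : ℝ)) := by
  obtain ⟨C, M, hC, H⟩ := dzk_core (V := V) hk C₀ hC₀
  have hx : (0 : ℝ) ≤ (dd V : ℝ) / (Module.finrank ℝ V : ℝ) := by positivity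
  have hκ : (0 : ℝ) ≤ (Module.finrank ℝ V : ℝ) := Nat.cast_nonneg _
  obtain ⟨cc, hcc, hce⟩ := dzk_const (V := V) _ hx
  refine ⟨C * cc, M, ?_⟩
  intro ρ T Q B₁ B₂ ι Θ u Y mm hρ hρT hQ hu htr hY hP1 hP2 c
  have hT : 0 < T := lt_of_lt_of_le hρ hρT
  have hYc : ∀ i, ∀ J ∈ Θ i, Measurable fun p : V => Y i J (p, c.2) := fun i J hJ => (hY i J hJ).comp measurable_prodMk_right
  have h1 := H ρ Q ((volume (ball (0 : V) 1))⁻¹ * B₁) ι Θ u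
    (fun i J => (volume.restrict (closedBall (c.1 + (2 * c.2) • u i J) ((2 + 2 * C₀) * T))).withDensity
      fun p => ENNReal.ofReal (ρ ^ (-(Module.finrank ℝ V : ℝ))) * Y i J (p, c.2))
    (fun i J z => Y i J (z.1 + (2 * z.2) • u i J, z.2)) (fun i J => B₂ * mm i J (c.1 + (2 * c.2) • u i J)) (closedBall c T) hρ hQ hu htr
    measurableSet_closedBall ?_ ?_
  · refine h1.trans (le_of_eq ?_)
    have e0 : ∀ i, ∑ J ∈ Θ i, B₂ * mm i J (c.1 + (2 * c.2) • u i J) = B₂ * ∑ J ∈ Θ i, mm i J (c.1 + (2 * c.2) • u i J) :=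
      fun i => (Finset.mul_sum _ _ _).symm
    simp only [e0]
    rw [dzk_prod_const B₂ _ hκ, ENNReal.mul_rpow_of_nonneg _ _ hx, ENNReal.mul_rpow_of_nonneg _ _ hx, hce]
    have e : ENNReal.ofReal (C * cc * Q ^ M * ρ ^ (dd V : ℝ)) = ENNReal.ofReal (C * Q ^ M * ρ ^ (dd V : ℝ)) * ENNReal.ofReal cc := by
      rw [← ENNReal.ofReal_mul (by positivity)]
      congr 1
      ring
    rw [e]
    ring
  · intro z hz i J hJ
    have hz' : ‖z - c‖ ≤ T := by rwa [mem_closedBall, dist_eq_norm] at hz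
    have hz1 : ‖z.1 - c.1‖ ≤ T := (norm_fst_le (z - c)).trans hz'
    have hz2 : |z.2 - c.2| ≤ T := (norm_snd_le (z - c)).trans hz'
    have hsub : closedBall (z.1 + (2 * z.2) • u i J) ρ ⊆ closedBall (c.1 + (2 * c.2) • u i J) ((2 + 2 * C₀) * T) := by
      refine closedBall_subset_closedBall' ?_
      rw [dist_eq_norm]
      have e : z.1 + (2 * z.2) • u i J - (c.1 + (2 * c.2) • u i J) = (z.1 - c.1) + (2 * (z.2 - c.2)) • u i J := by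
        module
      have n1 : ‖(2 * (z.2 - c.2)) • u i J‖ ≤ 2 * T * C₀ := by
        rw [norm_smul, Real.norm_eq_abs, abs_mul, abs_two]
        exact mul_le_mul (by linarith) (hu i J hJ) (norm_nonneg _) (by positivity)
      rw [e]
      have := norm_add_le (z.1 - c.1) ((2 * (z.2 - c.2)) • u i J)
      nlinarith
    rw [withDensity_apply _ measurableSet_closedBall, Measure.restrict_restrict measurableSet_closedBall,
      Set.inter_eq_self_of_subset_left hsub, lintegral_const_mul _ (hYc i J hJ)]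
    refine dzk_avg hρ (hYc i J hJ) _ _ _ fun p hp => ?_
    have hp' : ‖z.1 + (2 * z.2) • u i J - p‖ ≤ ρ := by
      rwa [mem_closedBall, dist_eq_norm, norm_sub_rev] at hp
    have h2 := hP1 i J hJ (p, c.2) (z.1 + (2 * z.2) • u i J - p, z.2 - c.2) hp' hz2
    have e : ((p, c.2) : V × ℝ) + (z.1 + (2 * z.2) • u i J - p, z.2 - c.2) = (z.1 + (2 * z.2) • u i J, z.2) := by
      ext <;> simp
    rwa [e] at h2
  · intro i J hJ
    rw [withDensity_apply _ MeasurableSet.univ, Measure.restrict_univ, lintegral_const_mul _ (hYc i J hJ)]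
    exact hP2 i J hJ _ _

/-- **LEAF L-DZ-K2: fat tubes** (~150 l.).    (P3):  `mm_J p₀ ≤ B₃ c_V⁻¹ ν_J (closedBall p₀ T)`, `ν_J = volume.withDensity (fun p => ofReal (T^(-k)) * mm_J p)`;   `MK.mk_graph` with `h = T`. -/
theorem dz_kak_fat (hk : 1 ≤ Module.finrank ℝ V) (C₀ : ℝ) (hC₀ : 0 ≤ C₀) : ∃ C : ℝ, ∃ M : ℕ, ∀ (T Q : ℝ) (B₃ : ℝ≥0∞) (ι : Type) (Θ : Fin (dd V) → Finset ι) (u : Fin (dd V) → ι → V)
    (mm : Fin (dd V) → ι → V → ℝ≥0∞), 0 < T → 1 ≤ Q → (∀ i, ∀ J ∈ Θ i, ‖u i J‖ ≤ C₀) →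
    (∀ J : Fin (dd V) → ι, (∀ i, J i ∈ Θ i) → ∀ t : Fin (dd V) → ℝ, ∑ i, |t i| ≤ Q * (‖∑ i, t i • u i (J i)‖ + |∑ i, t i|)) →
    (∀ i, ∀ J ∈ Θ i, Measurable (mm i J)) →
    (∀ i, ∀ J ∈ Θ i, ∀ p₀ p' : V, ‖p'‖ ≤ T → mm i J p₀ ≤ B₃ * mm i J (p₀ + p')) →
    ∫⁻ c : V × ℝ, ∏ i, (∑ J ∈ Θ i, mm i J (c.1 + (2 * c.2) • u i J)) ^ (1 / (Module.finrank ℝ V : ℝ))
      ≤ ENNReal.ofReal (C * Q ^ M * T ^ (dd V : ℝ)) * B₃ ^ ((dd V : ℝ) / (Module.finrank ℝ V : ℝ)) *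
        ∏ i, (∑ J ∈ Θ i, ENNReal.ofReal (T ^ (-(Module.finrank ℝ V : ℝ))) * ∫⁻ p, mm i J p) ^ (1 / (Module.finrank ℝ V : ℝ)) := by
  obtain ⟨C, M, hC, H⟩ := dzk_core (V := V) hk C₀ hC₀
  have hx : (0 : ℝ) ≤ (dd V : ℝ) / (Module.finrank ℝ V : ℝ) := by positivity
  obtain ⟨cc, hcc, hce⟩ := dzk_const (V := V) _ hx
  refine ⟨C * cc, M, ?_⟩
  intro T Q B₃ ι Θ u mm hT hQ hu htr hm hP3
  have h1 := H T Q ((volume (ball (0 : V) 1))⁻¹ * B₃) ι Θ u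
    (fun i J => volume.withDensity fun p => ENNReal.ofReal (T ^ (-(Module.finrank ℝ V : ℝ))) * mm i J p)
    (fun i J c => mm i J (c.1 + (2 * c.2) • u i J)) (fun i J => ENNReal.ofReal (T ^ (-(Module.finrank ℝ V : ℝ))) * ∫⁻ p, mm i J p) univ hT hQ hu htr
    MeasurableSet.univ ?_ ?_
  · rw [setLIntegral_univ] at h1
    refine h1.trans (le_of_eq ?_)
    rw [ENNReal.mul_rpow_of_nonneg _ _ hx, hce]
    have e : ENNReal.ofReal (C * cc * Q ^ M * T ^ (dd V : ℝ)) = ENNReal.ofReal (C * Q ^ M * T ^ (dd V : ℝ)) * ENNReal.ofReal cc := by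
      rw [← ENNReal.ofReal_mul (by positivity)]
      congr 1
      ring
    rw [e]
    ring
  · intro z _ i J hJ
    rw [withDensity_apply _ measurableSet_closedBall, lintegral_const_mul _ (hm i J hJ)]
    refine dzk_avg hT (hm i J hJ) _ _ _ fun p hp => ?_
    have h2 := hP3 i J hJ (z.1 + (2 * z.2) • u i J) (p - (z.1 + (2 * z.2) • u i J)) (by rwa [mem_closedBall, dist_eq_norm] at hp)
    rwa [add_sub_cancel] at h2
  · intro i J hJ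
    rw [withDensity_apply _ MeasurableSet.univ, Measure.restrict_univ, lintegral_const_mul _ (hm i J hJ)]

theorem dzk_avgT (f : V × ℝ → ℝ≥0∞) (hf : Measurable f) (T : ℝ) (c : ℝ≥0∞) (hc : ∀ z : V × ℝ, volume (closedBall z T) = c) :
    ∫⁻ a : V × ℝ, ∫⁻ z in closedBall a T, f z = c * ∫⁻ z, f z := by
  have hS : MeasurableSet {p : (V × ℝ) × (V × ℝ) | dist p.2 p.1 ≤ T} :=
    measurableSet_le (measurable_snd.dist measurable_fst) measurable_const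
  have hm : Measurable fun p : (V × ℝ) × (V × ℝ) => {p : (V × ℝ) × (V × ℝ) | dist p.2 p.1 ≤ T}.indicator (fun p => f p.2) p :=
    (hf.comp measurable_snd).indicator hS
  have e1 : ∀ a : V × ℝ, ∫⁻ z in closedBall a T, f z = ∫⁻ z, {p : (V × ℝ) × (V × ℝ) | dist p.2 p.1 ≤ T}.indicator (fun p => f p.2) (a, z) := fun a => by
    rw [← lintegral_indicator measurableSet_closedBall]
    rfl
  simp only [e1]
  rw [lintegral_lintegral_swap hm.aemeasurable, ← lintegral_const_mul _ hf]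
  refine lintegral_congr fun z => ?_
  have e2 : ∀ a : V × ℝ, {p : (V × ℝ) × (V × ℝ) | dist p.2 p.1 ≤ T}.indicator (fun p => f p.2) (a, z) = (closedBall z T).indicator (fun _ => f z) a := fun a => by
    by_cases h : dist z a ≤ T
    · rw [indicator_of_mem (show (a, z) ∈ {p : (V × ℝ) × (V × ℝ) | dist p.2 p.1 ≤ T} from h),
        indicator_of_mem (show a ∈ closedBall z T by rw [mem_closedBall, dist_comm]; exact h)]
    · rw [indicator_of_notMem (show (a, z) ∉ {p : (V × ℝ) × (V × ℝ) | dist p.2 p.1 ≤ T} from h),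
        indicator_of_notMem (show a ∉ closedBall z T by rw [mem_closedBall, dist_comm]; exact h)]
  simp only [e2]
  rw [lintegral_indicator measurableSet_closedBall, setLIntegral_const, hc z, mul_comm]

/-- **LEAF L-DZ-K3: TWO-SCALE KAKEYA** (~150 l.;  GLUE).    `∫ f = (c_d T^d)⁻¹ ∫ dc ∫_{closedBall c T} f` (Tonelli, `BD.exists_volume_closedBall`; `z ∈ closedBall c T ↔ c ∈ closedBall z T`), `dz_kak_loc` for every `c`, `dz_kak_fat`. -/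
theorem dz_kak2 (hk : 1 ≤ Module.finrank ℝ V) (C₀ : ℝ) (hC₀ : 0 ≤ C₀) : ∃ C : ℝ, ∃ M : ℕ, ∀ (ρ T Q : ℝ) (B₁ B₂ B₃ : ℝ≥0∞) (ι : Type) (Θ : Fin (dd V) → Finset ι) (u : Fin (dd V) → ι → V)
    (Y : Fin (dd V) → ι → V × ℝ → ℝ≥0∞) (mm : Fin (dd V) → ι → V → ℝ≥0∞), 0 < ρ → ρ ≤ T → 1 ≤ Q → (∀ i, ∀ J ∈ Θ i, ‖u i J‖ ≤ C₀) →
    (∀ J : Fin (dd V) → ι, (∀ i, J i ∈ Θ i) → ∀ t : Fin (dd V) → ℝ, ∑ i, |t i| ≤ Q * (‖∑ i, t i • u i (J i)‖ + |∑ i, t i|)) →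
    (∀ i, ∀ J ∈ Θ i, Measurable (Y i J)) → (∀ i, ∀ J ∈ Θ i, Measurable (mm i J)) →
    (∀ i, ∀ J ∈ Θ i, ∀ z w : V × ℝ, ‖w.1‖ ≤ ρ → |w.2| ≤ T → Y i J (z + w) ≤ B₁ * Y i J z) →
    (∀ i, ∀ J ∈ Θ i, ∀ (p₀ : V) (t : ℝ), ENNReal.ofReal (ρ ^ (-(Module.finrank ℝ V : ℝ))) * ∫⁻ p in closedBall p₀ ((2 + 2 * C₀) * T), Y i J (p, t) ≤ B₂ * mm i J p₀) →
    (∀ i, ∀ J ∈ Θ i, ∀ p₀ p' : V, ‖p'‖ ≤ T → mm i J p₀ ≤ B₃ * mm i J (p₀ + p')) →
    ENNReal.ofReal (ρ ^ (-(dd V : ℝ))) * ∫⁻ z : V × ℝ, ∏ i, (∑ J ∈ Θ i, Y i J (z.1 + (2 * z.2) • u i J, z.2)) ^ (1 / (Module.finrank ℝ V : ℝ))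
      ≤ ENNReal.ofReal (C * Q ^ M) * (B₁ * B₂ * B₃) ^ ((dd V : ℝ) / (Module.finrank ℝ V : ℝ)) *
        ∏ i, (∑ J ∈ Θ i, ENNReal.ofReal (T ^ (-(Module.finrank ℝ V : ℝ))) * ∫⁻ p, mm i J p) ^ (1 / (Module.finrank ℝ V : ℝ)) := by
  obtain ⟨C1, M1, h1⟩ := dz_kak_loc (V := V) hk C₀ hC₀
  obtain ⟨C2, M2, h2⟩ := dz_kak_fat (V := V) hk C₀ hC₀
  obtain ⟨c, hc, hvol⟩ := exists_volume_closedBall (V := V)
  refine ⟨|C1| * |C2| / c, M1 + M2, fun ρ T Q B₁ B₂ B₃ ι Θ u Y mm hρ hρT hQ hu htr hY hmm hP1 hP2 hP3 => ?_⟩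
  have hT : 0 < T := hρ.trans_le hρT
  have hQ0 : 0 < Q := by linarith
  obtain ⟨e, he⟩ : ∃ e : ℝ, e = (dd V : ℝ) / (Module.finrank ℝ V : ℝ) := ⟨_, rfl⟩
  have he0 : 0 ≤ e := by rw [he]; positivity
  obtain ⟨f, hf⟩ : ∃ f : V × ℝ → ℝ≥0∞, f = fun z => ∏ i, (∑ J ∈ Θ i, Y i J (z.1 + (2 * z.2) • u i J, z.2)) ^ (1 / (Module.finrank ℝ V : ℝ)) := ⟨_, rfl⟩
  obtain ⟨P, hP⟩ : ∃ P : ℝ≥0∞, P = ∏ i, (∑ J ∈ Θ i, ENNReal.ofReal (T ^ (-(Module.finrank ℝ V : ℝ))) * ∫⁻ p, mm i J p) ^ (1 / (Module.finrank ℝ V : ℝ)) := ⟨_, rfl⟩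
  have hfm : Measurable f := by
    rw [hf]
    refine Finset.measurable_fun_prod _ fun i _ => Measurable.pow_const (Finset.measurable_fun_sum _ fun J hJ => ?_) _
    exact (hY i J hJ).comp (by fun_prop)
  have hloc := h1 ρ T Q B₁ B₂ ι Θ u Y mm hρ hρT hQ hu htr hY hP1 hP2
  have hfat := h2 T Q B₃ ι Θ u mm hT hQ hu htr hmm hP3
  rw [← he, ← hP] at hfat
  rw [← he] at hloc
  have havg := dzk_avgT f hfm T _ (fun z => hvol z T hT)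
  have hmain : ENNReal.ofReal (c * T ^ (dd V : ℝ)) * ∫⁻ z, f z ≤
      ENNReal.ofReal (C1 * Q ^ M1 * ρ ^ (dd V : ℝ)) * (B₁ * B₂) ^ e * (ENNReal.ofReal (C2 * Q ^ M2 * T ^ (dd V : ℝ)) * B₃ ^ e * P) := by
    rw [← havg]
    calc ∫⁻ a : V × ℝ, ∫⁻ z in closedBall a T, f z
        ≤ ∫⁻ a : V × ℝ, ENNReal.ofReal (C1 * Q ^ M1 * ρ ^ (dd V : ℝ)) * (B₁ * B₂) ^ e *
            ∏ i, (∑ J ∈ Θ i, mm i J (a.1 + (2 * a.2) • u i J)) ^ (1 / (Module.finrank ℝ V : ℝ)) := by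
          refine lintegral_mono fun a => ?_
          rw [hf]
          exact hloc a
      _ = ENNReal.ofReal (C1 * Q ^ M1 * ρ ^ (dd V : ℝ)) * (B₁ * B₂) ^ e *
            ∫⁻ a : V × ℝ, ∏ i, (∑ J ∈ Θ i, mm i J (a.1 + (2 * a.2) • u i J)) ^ (1 / (Module.finrank ℝ V : ℝ)) := by
          refine lintegral_const_mul _ ?_
          refine Finset.measurable_fun_prod _ fun i _ => Measurable.pow_const (Finset.measurable_fun_sum _ fun J hJ => ?_) _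
          exact (hmm i J hJ).comp (by fun_prop)
      _ ≤ _ := by gcongr
  rw [← he, ← hP]
  have hfe : (fun z : V × ℝ => ∏ i, (∑ J ∈ Θ i, Y i J (z.1 + (2 * z.2) • u i J, z.2)) ^ (1 / (Module.finrank ℝ V : ℝ))) = f := hf.symm
  rw [hfe]
  have hcT : 0 < c * T ^ (dd V : ℝ) := by positivity
  have hρd : 0 < ρ ^ (dd V : ℝ) := by positivity
  calc ENNReal.ofReal (ρ ^ (-(dd V : ℝ))) * ∫⁻ z, f z
      = ENNReal.ofReal (ρ ^ (-(dd V : ℝ))) * ENNReal.ofReal (c * T ^ (dd V : ℝ))⁻¹ * (ENNReal.ofReal (c * T ^ (dd V : ℝ)) * ∫⁻ z, f z) := by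
        rw [mul_assoc, ← mul_assoc (ENNReal.ofReal (c * T ^ (dd V : ℝ))⁻¹), ← ENNReal.ofReal_mul (by positivity), inv_mul_cancel₀ hcT.ne',
          ENNReal.ofReal_one, one_mul]
    _ ≤ ENNReal.ofReal (ρ ^ (-(dd V : ℝ))) * ENNReal.ofReal (c * T ^ (dd V : ℝ))⁻¹ *
          (ENNReal.ofReal (C1 * Q ^ M1 * ρ ^ (dd V : ℝ)) * (B₁ * B₂) ^ e * (ENNReal.ofReal (C2 * Q ^ M2 * T ^ (dd V : ℝ)) * B₃ ^ e * P)) := by
        gcongr
    _ = (ENNReal.ofReal (ρ ^ (-(dd V : ℝ))) * ENNReal.ofReal (c * T ^ (dd V : ℝ))⁻¹ * ENNReal.ofReal (C1 * Q ^ M1 * ρ ^ (dd V : ℝ)) *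
          ENNReal.ofReal (C2 * Q ^ M2 * T ^ (dd V : ℝ))) * ((B₁ * B₂) ^ e * B₃ ^ e) * P := by ring
    _ ≤ ENNReal.ofReal (|C1| * |C2| / c * Q ^ (M1 + M2)) * (B₁ * B₂ * B₃) ^ e * P := by
        rw [← ENNReal.mul_rpow_of_nonneg _ _ he0]
        refine mul_le_mul' (mul_le_mul' ?_ le_rfl) le_rfl
        calc ENNReal.ofReal (ρ ^ (-(dd V : ℝ))) * ENNReal.ofReal (c * T ^ (dd V : ℝ))⁻¹ * ENNReal.ofReal (C1 * Q ^ M1 * ρ ^ (dd V : ℝ)) *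
              ENNReal.ofReal (C2 * Q ^ M2 * T ^ (dd V : ℝ))
            ≤ ENNReal.ofReal (ρ ^ (-(dd V : ℝ))) * ENNReal.ofReal (c * T ^ (dd V : ℝ))⁻¹ * ENNReal.ofReal (|C1| * Q ^ M1 * ρ ^ (dd V : ℝ)) *
              ENNReal.ofReal (|C2| * Q ^ M2 * T ^ (dd V : ℝ)) := by
              gcongr <;> exact le_abs_self _
          _ = ENNReal.ofReal (|C1| * |C2| / c * Q ^ (M1 + M2)) := by
              rw [← ENNReal.ofReal_mul (by positivity), ← ENNReal.ofReal_mul (by positivity), ← ENNReal.ofReal_mul (by positivity)]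
              congr 1
              rw [Real.rpow_neg hρ.le, pow_add]
              field_simp

/-- **LEAF L-DZ-K4: the split** (~100 l.).   `κ = k` real, `κ ≥ 1`.   If `y = 0` or `y = ⊤` the hypothesis forces `β = 0`.   Otherwise `y^(2/(κ+2)) (β y^(-(2/κ)))^(κ/(κ+2)) = β^(κ/(κ+2))` termwise;
Hölder for finite sums with the exponents `(κ+2)/2`, `(κ+2)/κ` (`ENNReal.inner_le_Lp_mul_Lq`). -/
theorem dz_split {κ : ℝ} (hκ : 1 ≤ κ) {ι : Type} (S : Finset ι) (β y : ι → ℝ≥0∞) (h : ∀ J ∈ S, β J ≠ 0 → 0 < y J ∧ y J < ⊤) :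
    ∑ J ∈ S, β J ^ (κ / (κ + 2)) ≤ (∑ J ∈ S, y J) ^ (2 / (κ + 2)) * (∑ J ∈ S, β J * y J ^ (-(2 / κ))) ^ (κ / (κ + 2)) := by
  have hκ0 : 0 < κ := by linarith
  have hk2 : 0 < κ + 2 := by linarith
  have e1 : κ / (κ + 2) = 1 - 2 / (κ + 2) := by field_simp; ring
  refine le_trans (Finset.sum_le_sum fun J hJ => ?_) (by
    have := abs_holder_sum (κ := 2 / (κ + 2)) (by positivity) (by rw [div_le_one hk2]; linarith) S y (fun J => β J * y J ^ (-(2 / κ)))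
    rw [← e1] at this
    exact this)
  by_cases hβ : β J = 0
  · rw [hβ, ENNReal.zero_rpow_of_pos (by positivity)]
    exact zero_le
  · obtain ⟨h1, h2⟩ := h J hJ hβ
    rw [ENNReal.mul_rpow_of_nonneg _ _ (by positivity), ← ENNReal.rpow_mul, mul_left_comm, ← ENNReal.rpow_add _ _ h1.ne' h2.ne]
    have : 2 / (κ + 2) + -(2 / κ) * (κ / (κ + 2)) = 0 := by field_simp; ring
    rw [this, ENNReal.rpow_zero, mul_one]

/-- **LEAF L-DZ-K5: the abstract Hölder inequality of `MRS*`** (~200 l.).    `n` = number of fields `= κ + 1`.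
`∏ (D K^a M^b)^s` with `a = 2/(κ+2)`, `b = κ/(κ+2)`, `s = (κ+2)/(κ(κ+3))`:  `a s = (1/κ)(2/(κ+3))`, `b s = 1/(κ+3) = (1/(κ+1)) ((κ+1)/(κ+3))`.
`BD.abs_holder_two` with the exponent `2/(κ+3)` for `f = ∏ K_i^(1/κ)`, `g = ω^((κ+3)/(κ+1)) ∏ M_i^(1/(κ+1))`;   `BD.abs_holder_prod` for `ω^((κ+3)/(κ+1)) M_i`. -/
theorem dz_holder_mrs {α : Type*} [MeasurableSpace α] (μ : Measure α) {n : ℕ} {κ : ℝ} (hκ : 1 ≤ κ) (hn : (n : ℝ) = κ + 1) (Bq Ks Ms : Fin n → α → ℝ≥0∞) (ω : α → ℝ≥0∞) (D : ℝ≥0∞)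
    (hK : ∀ i, Measurable (Ks i)) (hM : ∀ i, Measurable (Ms i)) (hω : Measurable ω)
    (h : ∀ i x, Bq i x ≤ D * (Ks i x ^ (2 / (κ + 2)) * Ms i x ^ (κ / (κ + 2)))) :
    ∫⁻ x, ω x * ∏ i, Bq i x ^ ((κ + 2) / (κ * (κ + 3))) ∂μ
      ≤ D ^ ((κ + 1) * (κ + 2) / (κ * (κ + 3))) * (∫⁻ x, ∏ i, Ks i x ^ (1 / κ) ∂μ) ^ (2 / (κ + 3)) * ∏ i, (∫⁻ x, ω x ^ ((κ + 3) / (κ + 1)) * Ms i x ∂μ) ^ (1 / (κ + 3)) := by
  have hκ0 : 0 < κ := by linarith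
  have hnR : (0 : ℝ) < n := by rw [hn]; linarith
  have hn0 : 0 < n := by exact_mod_cast hnR
  obtain ⟨θ, hθ⟩ : ∃ θ : ℝ, θ = 2 / (κ + 3) := ⟨_, rfl⟩
  obtain ⟨q, hq⟩ : ∃ q : ℝ, q = (κ + 3) / (κ + 1) := ⟨_, rfl⟩
  obtain ⟨s, hs⟩ : ∃ s : ℝ, s = (κ + 2) / (κ * (κ + 3)) := ⟨_, rfl⟩
  obtain ⟨Dn, hDn⟩ : ∃ Dn : ℝ≥0∞, Dn = D ^ ((κ + 1) * (κ + 2) / (κ * (κ + 3))) := ⟨_, rfl⟩
  rw [← hθ, ← hq, ← hs, ← hDn]
  have hθ0 : 0 ≤ θ := by rw [hθ]; positivity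
  have hθ1 : θ ≤ 1 := by rw [hθ, div_le_one (by linarith)]; linarith
  have hs0 : 0 ≤ s := by rw [hs]; positivity
  have e3 : 1 / (n : ℝ) * (1 - θ) = 1 / (κ + 3) := by rw [hθ, hn]; field_simp; ring
  have hpt : ∀ x, ω x * ∏ i, Bq i x ^ s ≤ Dn * ((∏ i, Ks i x ^ (1 / κ)) ^ θ * (∏ i, (ω x ^ q * Ms i x) ^ (1 / (n : ℝ))) ^ (1 - θ)) := by
    intro x
    have h1 : ∏ i, Bq i x ^ s ≤ ∏ i, (D ^ s * (Ks i x ^ ((1 / κ) * θ) * Ms i x ^ (1 / (κ + 3)))) := by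
      refine Finset.prod_le_prod' fun i _ => ?_
      refine (ENNReal.rpow_le_rpow (h i x) hs0).trans (le_of_eq ?_)
      rw [ENNReal.mul_rpow_of_nonneg _ _ hs0, ENNReal.mul_rpow_of_nonneg _ _ hs0, ← ENNReal.rpow_mul, ← ENNReal.rpow_mul]
      congr 3
      · rw [hs, hθ]; field_simp
      · rw [hs]; field_simp
    have h2 : (∏ i, (ω x ^ q * Ms i x) ^ (1 / (n : ℝ))) ^ (1 - θ) = ω x * ∏ i, Ms i x ^ (1 / (κ + 3)) := by
      rw [← ENNReal.prod_rpow_of_nonneg (by linarith)]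
      have : ∀ i, ((ω x ^ q * Ms i x) ^ (1 / (n : ℝ))) ^ (1 - θ) = ω x ^ (1 / (n : ℝ)) * Ms i x ^ (1 / (κ + 3)) := fun i => by
        rw [← ENNReal.rpow_mul, e3, ENNReal.mul_rpow_of_nonneg _ _ (by positivity), ← ENNReal.rpow_mul]
        congr 2
        rw [hq, hn]; field_simp
      simp only [this]
      rw [Finset.prod_mul_distrib, Finset.prod_const, Finset.card_univ, Fintype.card_fin, ← ENNReal.rpow_natCast, ← ENNReal.rpow_mul,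
        one_div, inv_mul_cancel₀ hnR.ne', ENNReal.rpow_one]
    have h3 : (∏ i, Ks i x ^ (1 / κ)) ^ θ = ∏ i, Ks i x ^ ((1 / κ) * θ) := by
      rw [← ENNReal.prod_rpow_of_nonneg hθ0]
      simp only [← ENNReal.rpow_mul]
    rw [h2, h3]
    calc ω x * ∏ i, Bq i x ^ s ≤ ω x * ∏ i, (D ^ s * (Ks i x ^ ((1 / κ) * θ) * Ms i x ^ (1 / (κ + 3)))) := by gcongr
      _ = _ := by
        rw [Finset.prod_mul_distrib, Finset.prod_mul_distrib, Finset.prod_const, Finset.card_univ, Fintype.card_fin, ← ENNReal.rpow_natCast,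
          ← ENNReal.rpow_mul]
        have : s * (n : ℝ) = (κ + 1) * (κ + 2) / (κ * (κ + 3)) := by rw [hs, hn]; field_simp
        rw [this, ← hDn]; ring
  have hmf : Measurable fun x => ∏ i, Ks i x ^ (1 / κ) := Finset.measurable_fun_prod _ fun i _ => (hK i).pow_const _
  have hmgi : ∀ i, Measurable fun x => ω x ^ q * Ms i x := fun i => (hω.pow_const _).mul (hM i)
  have hmg : Measurable fun x => ∏ i, (ω x ^ q * Ms i x) ^ (1 / (n : ℝ)) := Finset.measurable_fun_prod _ fun i _ => (hmgi i).pow_const _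
  calc ∫⁻ x, ω x * ∏ i, Bq i x ^ s ∂μ
      ≤ ∫⁻ x, Dn * ((∏ i, Ks i x ^ (1 / κ)) ^ θ * (∏ i, (ω x ^ q * Ms i x) ^ (1 / (n : ℝ))) ^ (1 - θ)) ∂μ := lintegral_mono hpt
    _ = Dn * ∫⁻ x, (∏ i, Ks i x ^ (1 / κ)) ^ θ * (∏ i, (ω x ^ q * Ms i x) ^ (1 / (n : ℝ))) ^ (1 - θ) ∂μ :=
        lintegral_const_mul _ ((hmf.pow_const _).mul (hmg.pow_const _))
    _ ≤ Dn * ((∫⁻ x, ∏ i, Ks i x ^ (1 / κ) ∂μ) ^ θ * (∫⁻ x, ∏ i, (ω x ^ q * Ms i x) ^ (1 / (n : ℝ)) ∂μ) ^ (1 - θ)) := by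
        gcongr
        exact abs_holder_two hθ0 hθ1 _ _ hmf.aemeasurable hmg.aemeasurable
    _ ≤ Dn * ((∫⁻ x, ∏ i, Ks i x ^ (1 / κ) ∂μ) ^ θ * (∏ i, (∫⁻ x, ω x ^ q * Ms i x ∂μ) ^ (1 / (n : ℝ))) ^ (1 - θ)) := by
        refine mul_le_mul' le_rfl (mul_le_mul' le_rfl (ENNReal.rpow_le_rpow ?_ (by linarith)))
        exact abs_holder_prod hn0 _ fun i => (hmgi i).aemeasurable
    _ = _ := by
        rw [← ENNReal.prod_rpow_of_nonneg (by linarith), mul_assoc]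
        simp only [← ENNReal.rpow_mul, e3]

end Claimed.Agent.DZ
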