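import Claimed.Agent.Lib.DZ.Mr
import Claimed.Agent.Lib.DZ.Mk

/-!
# Box DZ, file Mm: ASSEMBLY of the multilinear refined Strichartz estimate `MRS*` (`dz_mrs`).      CONTRACT (captain helper3)
PAPER-FREE.  Every `sorry` is a leaf `L-DZ-A*`.  Statements are frozen (tell helper3 at once if one looks false or awkward); auxiliary lemmas (prefix `dzs_`) directly above your theorem; edit only your block.
Read the header of `MDefs.lean` first.     Scales:  `ρ = r²`, `R = r⁴`, cells `r⁻²`, clusters `σ = r⁻¹`, `T = r³`, `L = Lam u r⁻¹ (r⁻¹)²`.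
-/

set_option autoImplicit false
open MeasureTheory Set Metric
open scoped ENNReal NNReal RealInnerProductSpace

namespace Claimed.Agent.DZ

open Claimed.Agent.BD

variable {V : Type} [NormedAddCommGroup V] [InnerProductSpace ℝ V] [FiniteDimensional ℝ V] [MeasurableSpace V] [BorelSpace V]

/-- **LEAF L-DZ-A0a** (~50 l.).   `max (‖w.1‖/(σρ)) (|w.2|/(σ²ρ)) = max ‖y.1 + 2 y.2 u‖ |y.2| / ρ ≤ (1 + 2C₀) ‖y‖/ρ` for `w = L y`. -/
theorem dz_wt_le_pwt {C₀ σ ρ E : ℝ} {u : V} (hu : ‖u‖ ≤ C₀) (hσ : 0 < σ) (hρ : 0 < ρ) (hE : 0 ≤ E) (y : V × ℝ) :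
    wt E ρ y ≤ ENNReal.ofReal ((1 + 2 * C₀) ^ E) * pwt E (σ * ρ) (σ ^ 2 * ρ) (Lam u σ (σ ^ 2) y) := by
  have hC₀ : 0 ≤ C₀ := (norm_nonneg u).trans hu
  unfold wt pwt Lam
  simp only
  set M : ℝ := max (‖σ • (y.1 + (2 * y.2) • u)‖ / (σ * ρ)) (|σ ^ 2 * y.2| / (σ ^ 2 * ρ)) with hM
  have h1 : ‖σ • (y.1 + (2 * y.2) • u)‖ / (σ * ρ) = ‖y.1 + (2 * y.2) • u‖ / ρ := by
    rw [norm_smul, Real.norm_eq_abs, abs_of_pos hσ, mul_div_mul_left _ _ hσ.ne']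
  have h2 : |σ ^ 2 * y.2| / (σ ^ 2 * ρ) = |y.2| / ρ := by
    rw [abs_mul, abs_of_pos (by positivity : 0 < σ ^ 2), mul_div_mul_left _ _ (by positivity)]
  have hy1 : ‖y.1‖ ≤ ‖y‖ := norm_fst_le y
  have hy2 : |y.2| ≤ ‖y‖ := by
    rw [← Real.norm_eq_abs]
    exact norm_snd_le y
  have h3 : ‖y.1 + (2 * y.2) • u‖ ≤ (1 + 2 * C₀) * ‖y‖ := by
    calc ‖y.1 + (2 * y.2) • u‖ ≤ ‖y.1‖ + ‖(2 * y.2) • u‖ := norm_add_le _ _
      _ = ‖y.1‖ + 2 * |y.2| * ‖u‖ := by rw [norm_smul, Real.norm_eq_abs, abs_mul, abs_two]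
      _ ≤ ‖y‖ + 2 * ‖y‖ * C₀ := by
          have := mul_le_mul hy2 hu (norm_nonneg u) (norm_nonneg y)
          nlinarith
      _ = (1 + 2 * C₀) * ‖y‖ := by ring
  have hM0 : 0 ≤ M := le_max_of_le_left (by positivity)
  have hM1 : M ≤ (1 + 2 * C₀) * (‖y‖ / ρ) := by
    rw [hM, h1, h2, max_le_iff]
    constructor
    · rw [← mul_div_assoc]
      exact div_le_div_of_nonneg_right h3 hρ.le
    · rw [← mul_div_assoc]
      refine div_le_div_of_nonneg_right ?_ hρ.le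
      nlinarith [norm_nonneg y]
  have hyρ : 0 ≤ ‖y‖ / ρ := by positivity
  have h4 : 1 + M ≤ (1 + 2 * C₀) * (1 + ‖y‖ / ρ) := by nlinarith
  rw [← ENNReal.ofReal_mul (by positivity)]
  refine ENNReal.ofReal_le_ofReal ?_
  rw [Real.rpow_neg (by positivity), Real.rpow_neg (by positivity), ← div_eq_mul_inv, inv_eq_one_div,
    div_le_div_iff₀ (by positivity) (by positivity), one_mul, ← Real.mul_rpow (by positivity) (by positivity)]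
  exact Real.rpow_le_rpow (by positivity) h4 hE

/-- **LEAF L-DZ-A0b: numerology of the weight exponents** (~60 l.;  `dz_qq`, unfold `eE eX eS eT eY eG eP dd`). -/
theorem dz_exps (hk : 1 ≤ Module.finrank ℝ V) : 0 ≤ eE V ∧ (Module.finrank ℝ V : ℝ) + 2 < eE V ∧ qq V / 2 * (eE V + (dd V : ℝ)) < eS V ∧ eE V + (dd V : ℝ) < eX V ∧ (dd V : ℝ) < eS V ∧
    (Module.finrank ℝ V : ℝ) < eX V ∧ 0 ≤ eT V ∧ eT V = eX V * qq V / 2 ∧ eY V = 4 * eS V / qq V + eE V + eX V ∧ 0 ≤ eY V ∧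
    eT V + 2 / (Module.finrank ℝ V : ℝ) * (4 * eS V / qq V + eE V + eX V) + (dd V : ℝ) < eP V ∧ 0 ≤ eP V := by
  obtain ⟨hq2, -, -, -, -⟩ := dz_qq (V := V) hk
  have hk' : (1 : ℝ) ≤ (Module.finrank ℝ V : ℝ) := by exact_mod_cast hk
  have hd : (dd V : ℝ) = (Module.finrank ℝ V : ℝ) + 1 := by unfold dd; push_cast; ring
  unfold eP eG eY eT eS eX eE
  rw [hd]
  generalize (Module.finrank ℝ V : ℝ) = k at *
  generalize qq V = q at *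
  have hq0 : 0 < q := by linarith
  have hk0 : 0 < k := by linarith
  have hS : 0 ≤ q / 2 * (2 * k + 4) + 1 := by positivity
  have hT : 0 ≤ (2 * k + 5) * q / 2 := by positivity
  have hY : 0 ≤ 4 * (q / 2 * (2 * k + 4) + 1) / q + (k + 3) + (2 * k + 5) := by positivity
  refine ⟨by linarith, by linarith, ?_, by linarith, ?_, by linarith, hT, rfl, rfl, hY, by linarith, ?_⟩
  · have : k + 3 + (k + 1) = 2 * k + 4 := by ring
    rw [this]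
    linarith
  · nlinarith
  · have : 0 ≤ 2 / k * (4 * (q / 2 * (2 * k + 4) + 1) / q + (k + 3) + (2 * k + 5)) := by positivity
    linarith

/-- a uniform bound of an exact field. -/
theorem dzs_norm_ext_le (g : V → ℂ) (z : V × ℝ) : ‖MR.ext g z‖ ≤ ∫ ξ, ‖g ξ‖ := by
  unfold MR.ext
  refine (norm_integral_le_integral_norm _).trans (le_of_eq ?_)
  refine integral_congr_ae (Filter.Eventually.of_forall fun ξ => ?_)
  simp only
  rw [norm_mul, norm_ch, one_mul]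

/-- the rescaled data of a cluster are integrable. -/
theorem dzs_rsc_integrable {C₀ r : ℝ} (hr : 1 ≤ r) {ι : Type} {t : Finset ι} {c : ι → V} {G : ι → V → ℂ} {u : V} (h : Cl C₀ (r ^ 2)⁻¹ t c G) (hu : ∀ j ∈ t, ‖c j - u‖ ≤ r⁻¹)
    {j : ι} (hj : j ∈ t) : Integrable (rsc u r⁻¹ (G j)) :=
  (h.rsc u (inv_pos.2 (by linarith)) hu).integrable hj

/-- **LEAF L-DZ-A1a: properties of the rescaled field of a cluster** (~100 l.;  `Cl.rsc`, `Cl.integrable`, `MR.ext_continuous`, `MR.norm_ext_le`, `continuous_finset_sum`). -/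
theorem dz_Hc_props {C₀ r : ℝ} (hr : 1 ≤ r) {ι : Type} {t : Finset ι} {c : ι → V} {G : ι → V → ℂ} {u : V} (h : Cl C₀ (r ^ 2)⁻¹ t c G) (hu : ∀ j ∈ t, ‖c j - u‖ ≤ r⁻¹) :
    Continuous (Hc u r t G) ∧ ∃ B : ℝ, ∀ z, ‖Hc u r t G z‖ ≤ B := by
  unfold Hc
  refine ⟨continuous_finsetSum _ fun j hj => MR.ext_continuous (dzs_rsc_integrable hr h hu hj), ∑ j ∈ t, ∫ ξ, ‖rsc u r⁻¹ (G j) ξ‖, fun z => ?_⟩
  exact (norm_sum_le _ _).trans (Finset.sum_le_sum fun j _ => dzs_norm_ext_le _ z)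

/-- the local mass is a multiple of a local average. -/
theorem dzs_lm_eq (E : ℝ) {R : ℝ} (hR : 0 < R) (g : V → ℂ) (a : V × ℝ) :
    MR.lm E R g a = ENNReal.ofReal (R⁻¹ * R ^ (dd V : ℝ)) * avp 2 E R (MR.ext g) a := by
  unfold MR.lm avp
  rw [← mul_assoc, ← ENNReal.ofReal_mul (by positivity), mul_assoc, ← Real.rpow_add hR, add_neg_cancel, Real.rpow_zero, mul_one]

/-- **LEAF L-DZ-A1b: properties of the masses of a cluster** (~200 l.).   measurable (`Measurable.lintegral_prod_right'`);  Peetre (`dz_lm_peetre` with the shift `(b', 0)`);  finite (`ext` bounded, `BD.exists_lintegral_wt`, `eE V + … > d`? NO: `eE V = k + 3 > d = k + 1`);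
positive: `Hc ≠ 0` somewhere ⟹ some `MR.ext (rsc … (G j))` is `≠ 0` somewhere, it is continuous, the weight is positive. -/
theorem dz_mc_props {C₀ r : ℝ} (hr : 1 ≤ r) (t₀ : ℝ) {ι : Type} {t : Finset ι} {c : ι → V} {G : ι → V → ℂ} {u : V} (h : Cl C₀ (r ^ 2)⁻¹ t c G) (hu : ∀ j ∈ t, ‖c j - u‖ ≤ r⁻¹) :
    Measurable (mc u r t₀ t G) ∧ (∀ b b', mc u r t₀ t G (b + b') ≤ ENNReal.ofReal ((1 + ‖b'‖ / r ^ 2) ^ eE V) * mc u r t₀ t G b) ∧ (∀ b, mc u r t₀ t G b < ⊤) ∧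
      ((∃ z, Hc u r t G z ≠ 0) → ∀ b, 0 < mc u r t₀ t G b) := by
  have hr0 : 0 < r := by linarith
  have hR : 0 < r ^ 2 := by positivity
  have hE0 : 0 ≤ eE V := by unfold eE; positivity
  have hEd : (dd V : ℝ) < eE V := by
    unfold eE dd
    push_cast
    linarith
  have hc : ∀ j ∈ t, Continuous (MR.ext (rsc u r⁻¹ (G j))) := fun j hj => MR.ext_continuous (dzs_rsc_integrable hr h hu hj)
  refine ⟨?_, fun b b' => ?_, fun b => ?_, fun ⟨z, hz⟩ b => ?_⟩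
  · unfold mc
    refine Finset.measurable_fun_sum _ fun j hj => ?_
    simp_rw [dzs_lm_eq (eE V) hR]
    exact ((measurable_avp 2 (eE V) (r ^ 2) (hc j hj)).comp (measurable_id.prodMk measurable_const)).const_mul _
  · unfold mc
    rw [Finset.mul_sum]
    refine Finset.sum_le_sum fun j _ => ?_
    have := dz_lm_peetre hE0 hR (rsc u r⁻¹ (G j)) (b, r⁻¹ ^ 2 * t₀) (b', 0)
    have e1 : ((b, r⁻¹ ^ 2 * t₀) : V × ℝ) + (b', 0) = (b + b', r⁻¹ ^ 2 * t₀) := by simp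
    have e2 : ‖((b', 0) : V × ℝ)‖ = ‖b'‖ := by simp [Prod.norm_def]
    rwa [e1, e2] at this
  · unfold mc
    refine ENNReal.sum_lt_top.2 fun j _ => ?_
    rw [dzs_lm_eq (eE V) hR]
    exact ENNReal.mul_lt_top ENNReal.ofReal_lt_top (avp_ne_top (by norm_num) hEd hR (fun z => dzs_norm_ext_le _ z) _).lt_top
  · unfold Hc at hz
    obtain ⟨j, hj, hne⟩ := Finset.exists_ne_zero_of_sum_ne_zero hz
    unfold mc
    refine lt_of_lt_of_le ?_ (Finset.single_le_sum (f := fun j => MR.lm (eE V) (r ^ 2) (rsc u r⁻¹ (G j)) (b, r⁻¹ ^ 2 * t₀)) (fun _ _ => zero_le) hj)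
    rw [pos_iff_ne_zero]
    intro h0
    rw [dzs_lm_eq (eE V) hR] at h0
    rcases mul_eq_zero.1 h0 with h1 | h1
    · exact absurd h1 (ENNReal.ofReal_pos.2 (by positivity)).ne'
    · exact hne (eq_zero_of_avp_eq_zero (by norm_num) hR (hc j hj) h1 z)

/-- **LEAF L-DZ-A1c: the total mass of a cluster** (~60 l.;  `lintegral_finset_sum`, `dz_mass_total` with `R' = r²`, `dz_l2_rsc`). -/
theorem dz_mc_total (hk : 1 ≤ Module.finrank ℝ V) : ∃ K : ℝ, ∀ (C₀ r t₀ : ℝ) (ι : Type) (t : Finset ι) (c : ι → V) (G : ι → V → ℂ) (u : V), 1 ≤ r → Cl C₀ (r ^ 2)⁻¹ t c G → (∀ j ∈ t, ‖c j - u‖ ≤ r⁻¹) →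
    ENNReal.ofReal ((r ^ 2) ^ (-(Module.finrank ℝ V : ℝ))) * ∫⁻ b, mc u r t₀ t G b ≤ ENNReal.ofReal K * ∑ j ∈ t, MR.l2 (G j) := by
  obtain ⟨K, hK⟩ := dz_mass_total (V := V) (eE V) (dz_exps hk).2.1
  refine ⟨K, fun C₀ r t₀ ι t c G u hr h hu => ?_⟩
  have hr0 : 0 < r := by linarith
  have hR : 0 < r ^ 2 := by positivity
  have hc : ∀ j ∈ t, Continuous (MR.ext (rsc u r⁻¹ (G j))) := fun j hj => MR.ext_continuous (dzs_rsc_integrable hr h hu hj)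
  unfold mc
  rw [lintegral_finsetSum _ (fun j hj => by
    simp_rw [dzs_lm_eq (eE V) hR]
    exact ((measurable_avp 2 (eE V) (r ^ 2) (hc j hj)).comp (measurable_id.prodMk measurable_const)).const_mul _),
    Finset.mul_sum, Finset.mul_sum]
  refine Finset.sum_le_sum fun j hj => ?_
  have := hK (r ^ 2) (r⁻¹ ^ 2 * t₀) (rsc u r⁻¹ (G j)) hR (dzs_rsc_integrable hr h hu hj) (by
    rw [dz_l2_rsc u (inv_pos.2 hr0)]
    exact h.fin j hj)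
  rwa [dz_l2_rsc u (inv_pos.2 hr0)] at this

/-- the time weight in the rescaled coordinates. -/
theorem dzs_wr_rsc {r : ℝ} (hr : 1 ≤ r) (E t₀ : ℝ) (u : V) (z : V × ℝ) :
    wr E ((r ^ 2) ^ 2) (z.2 - t₀) = wr E (r ^ 2) ((Lam u r⁻¹ (r⁻¹ ^ 2) z).2 - r⁻¹ ^ 2 * t₀) := by
  have hr0 : 0 < r := by linarith
  unfold wr Lam
  simp only
  congr 3
  rw [← mul_sub, abs_mul, abs_of_pos (by positivity : 0 < r⁻¹ ^ 2)]
  field_simp

/-- the local norm in the rescaled coordinates. -/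
theorem dzs_lqw_rsc (hk : 1 ≤ Module.finrank ℝ V) {C₀ r : ℝ} (hr : 1 ≤ r) {ι : Type} (t : Finset ι) (G : ι → V → ℂ) {u : V} (hu : ‖u‖ ≤ C₀) {E : ℝ} (hE : 0 ≤ E) (z : V × ℝ) :
    lqw (qq V) (wt E (r ^ 2)) (fun y => ∑ j ∈ t, MR.ext (G j) y) z ≤ ENNReal.ofReal ((1 + 2 * C₀) ^ E) * lqw (qq V) (pwt E r 1) (Hc u r t G) (Lam u r⁻¹ (r⁻¹ ^ 2) z) := by
  have hr0 : 0 < r := by linarith
  have hσ : 0 < r⁻¹ := by positivity
  have h1 : ∀ y : V × ℝ, wt E (r ^ 2) y ≤ ENNReal.ofReal ((1 + 2 * C₀) ^ E) * pwt E r 1 (Lam u r⁻¹ (r⁻¹ ^ 2) y) := by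
    intro y
    have := dz_wt_le_pwt hu hσ (by positivity : 0 < r ^ 2) hE y
    have e1 : r⁻¹ * r ^ 2 = r := by field_simp
    have e2 : r⁻¹ ^ 2 * r ^ 2 = 1 := by field_simp
    rwa [e1, e2] at this
  refine (dz_lqw_mono (qq V) h1 _ z).trans ?_
  rw [← dz_lqw_rsc hk u hσ (F := fun y => ∑ j ∈ t, MR.ext (G j) y) (H := Hc u r t G) (fun y => dz_sum_rsc t G u hσ y) (pwt E r 1) z]
  unfold lqw
  rw [← lintegral_const_mul' _ _ ENNReal.ofReal_ne_top]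
  refine lintegral_mono fun y => ?_
  simp only
  rw [mul_left_comm]

/-- **LEAF L-DZ-A2: THE MASS FACTOR OF ONE CLUSTER** (~300 l.;  GLUE).    `σ = r⁻¹`, `L = Lam u σ σ²`, `F = ∑ j ∈ t, MR.ext (G j)`, `H = Hc u r t G` (`dz_sum_rsc`).   If `H = 0` everywhere then `F = 0` and the left side vanishes.   Otherwise:
(1) `lqw q (wt (eP V) r²) F z ≤ C₂^(eP V) lqw q (pwt (eP V) r 1) H (L z)`   (`dz_wt_le_pwt` with `ρ = r²`: `σ r² = r`, `σ² r² = 1`;  `dz_lqw_mono`, `dz_lqw_rsc`);   `wr (eT V) r⁴ (z.2 - t₀) = wr (eT V) r² ((L z).2 - σ² t₀)`;   `yc … z = ys … (L z)` by definition.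
(2) `BD.lintegral_Lam`:  `∫ f (L z) dz = (σ^k σ²)⁻¹ ∫ f`,   `(r²)^(-d) (σ^(k+2))⁻¹ = r^(-k)`.
(3) `dz_mass` with `(E, E₁, E₂, E_t, E₀) = (eE, eS, eX, eT, eP)`, `m = mc u r t₀ t G`, time centre `σ² t₀`;  hypothesis `hA`:  `dz_Xs_le_rsg` (`a = (b, σ² t₀)`) + `dz_rsl_wt` (`C₀ := 1`, `ρ := r`, the family `Cl.rsc`, `(r²)⁻¹/r⁻¹ = r⁻¹`), `A' = C r^ε`.
(4) `dz_mc_total`. -/
theorem dz_mrs_mass (hk : 1 ≤ Module.finrank ℝ V) (C₀ ε : ℝ) (hC₀ : 0 ≤ C₀) (hε : 0 < ε) : ∃ C : ℝ, ∀ (r t₀ : ℝ) (ι : Type) (t : Finset ι) (c : ι → V) (G : ι → V → ℂ) (u : V),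
    1 ≤ r → Cl C₀ (r ^ 2)⁻¹ t c G → ‖u‖ ≤ C₀ → (∀ j ∈ t, ‖c j - u‖ ≤ r⁻¹) →
    ENNReal.ofReal ((r ^ 2) ^ (-(dd V : ℝ))) * ∫⁻ z, wr (eT V) ((r ^ 2) ^ 2) (z.2 - t₀) *
        (lqw (qq V) (wt (eP V) (r ^ 2)) (fun y => ∑ j ∈ t, MR.ext (G j) y) z * yc u r t₀ t G z ^ (-(2 / (Module.finrank ℝ V : ℝ))))
      ≤ ENNReal.ofReal (C * r ^ ε) * ∑ j ∈ t, MR.l2 (G j) := by
  obtain ⟨hE0, hE1, hS1, hX1, hS2, hX2, hT0, hT1, hY1, hY0, hP1, hP0⟩ := dz_exps (V := V) hk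
  obtain ⟨hq2, -⟩ := dz_qq (V := V) hk
  have hq0 : 0 < qq V := by linarith
  have hX0 : 0 ≤ eX V := le_trans (by positivity) hX2.le
  obtain ⟨K, hK⟩ := dz_mass (V := V) hk (eE V) (eS V) (eX V) (eT V) (eP V) hE0 hS2 hX2 hT0 hP1
  obtain ⟨Cr, hCr⟩ := dz_rsl_wt (V := V) hk 1 (eE V) ε (eS V) (eX V) zero_le_one hE0 hε hS1 hX1
  obtain ⟨Kt, hKt⟩ := dz_mc_total (V := V) hk
  refine ⟨(1 + 2 * C₀) ^ eP V * |K| * |Cr| * |Kt|, fun r t₀ ι t c G u hr hcl hu hcu => ?_⟩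
  have hr0 : 0 < r := by linarith
  have hσ : 0 < r⁻¹ := by positivity
  by_cases h0 : ∃ z, Hc u r t G z ≠ 0
  · obtain ⟨hHc, B, hB⟩ := dz_Hc_props hr hcl hcu
    obtain ⟨hm1, hm2, hm3, hm4⟩ := dz_mc_props hr t₀ hcl hcu
    have hA : ∀ b, ENNReal.ofReal r⁻¹ * ∫⁻ τ : ℝ, wr (eT V) (r ^ 2) (τ - r⁻¹ ^ 2 * t₀) * Xs (qq V) (eS V) (eX V) r (Hc u r t G) (b, τ) ^ (qq V / 2)
        ≤ ENNReal.ofReal (Cr * r ^ ε) * mc u r t₀ t G b ^ (qq V / 2) := by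
      intro b
      have h1 := dz_Xs_le_rsg (E₁ := eS V) hq0 hX0 hr0 (Hc u r t G) (b, r⁻¹ ^ 2 * t₀)
      rw [← hT1] at h1
      refine h1.trans ?_
      have hcl' := hcl.rsc u hσ hcu
      have e : (r ^ 2)⁻¹ / r⁻¹ = r⁻¹ := by field_simp
      rw [e] at hcl'
      exact hCr r ι t _ _ hr hcl' (b, r⁻¹ ^ 2 * t₀)
    have hmass := hK r (r⁻¹ ^ 2 * t₀) (Hc u r t G) B (mc u r t₀ t G) (ENNReal.ofReal (Cr * r ^ ε)) hr hHc hB h0 hm1 (fun b => ⟨hm4 h0 b, hm3 b⟩) hm2 hA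
    have htot := hKt C₀ r t₀ ι t c G u hr hcl hcu
    set g : V × ℝ → ℝ≥0∞ := fun w => wr (eT V) (r ^ 2) (w.2 - r⁻¹ ^ 2 * t₀) * (lqw (qq V) (pwt (eP V) r 1) (Hc u r t G) w * ys (qq V) (eS V) (eX V) r (Hc u r t G) (mc u r t₀ t G) w ^ (-(2 / (Module.finrank ℝ V : ℝ)))) with hg
    have hpt : ∀ z, wr (eT V) ((r ^ 2) ^ 2) (z.2 - t₀) *
        (lqw (qq V) (wt (eP V) (r ^ 2)) (fun y => ∑ j ∈ t, MR.ext (G j) y) z * yc u r t₀ t G z ^ (-(2 / (Module.finrank ℝ V : ℝ))))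
        ≤ ENNReal.ofReal ((1 + 2 * C₀) ^ eP V) * g (Lam u r⁻¹ (r⁻¹ ^ 2) z) := by
      intro z
      rw [hg]
      simp only
      rw [dzs_wr_rsc hr (eT V) t₀ u z]
      calc _ ≤ wr (eT V) (r ^ 2) ((Lam u r⁻¹ (r⁻¹ ^ 2) z).2 - r⁻¹ ^ 2 * t₀) * ((ENNReal.ofReal ((1 + 2 * C₀) ^ eP V) * lqw (qq V) (pwt (eP V) r 1) (Hc u r t G) (Lam u r⁻¹ (r⁻¹ ^ 2) z)) * yc u r t₀ t G z ^ (-(2 / (Module.finrank ℝ V : ℝ)))) := by
            gcongr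
            exact dzs_lqw_rsc hk hr t G hu hP0 z
        _ = _ := by
            unfold yc
            ring
    have hsc : ENNReal.ofReal ((r ^ 2) ^ (-(dd V : ℝ))) * ENNReal.ofReal ((r⁻¹ ^ Module.finrank ℝ V * r⁻¹ ^ 2)⁻¹) = ENNReal.ofReal (r ^ (-(Module.finrank ℝ V : ℝ))) := by
      rw [← ENNReal.ofReal_mul (by positivity)]
      congr 1
      unfold dd
      rw [← Real.rpow_natCast r 2, ← Real.rpow_mul hr0.le, inv_pow, inv_pow, ← mul_inv, inv_inv, ← Real.rpow_natCast r (Module.finrank ℝ V), ← Real.rpow_natCast r 2,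
        ← Real.rpow_add hr0, ← Real.rpow_add hr0]
      congr 1
      push_cast
      ring
    calc _ ≤ ENNReal.ofReal ((r ^ 2) ^ (-(dd V : ℝ))) * ∫⁻ z, ENNReal.ofReal ((1 + 2 * C₀) ^ eP V) * g (Lam u r⁻¹ (r⁻¹ ^ 2) z) := by
          exact mul_le_mul_right (lintegral_mono hpt) _
      _ = ENNReal.ofReal ((1 + 2 * C₀) ^ eP V) * (ENNReal.ofReal (r ^ (-(Module.finrank ℝ V : ℝ))) * ∫⁻ w, g w) := by
          rw [lintegral_const_mul' _ _ ENNReal.ofReal_ne_top, lintegral_Lam u hσ (by positivity : 0 < r⁻¹ ^ 2) g, ← hsc]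
          ring
      _ ≤ ENNReal.ofReal ((1 + 2 * C₀) ^ eP V) * (ENNReal.ofReal K * ENNReal.ofReal (Cr * r ^ ε) * (ENNReal.ofReal Kt * ∑ j ∈ t, MR.l2 (G j))) := by
          exact mul_le_mul_right (hmass.trans (mul_le_mul_right htot _)) _
      _ ≤ ENNReal.ofReal ((1 + 2 * C₀) ^ eP V) * (ENNReal.ofReal |K| * ENNReal.ofReal (|Cr| * r ^ ε) * (ENNReal.ofReal |Kt| * ∑ j ∈ t, MR.l2 (G j))) := by
          gcongr <;> exact le_abs_self _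
      _ = _ := by
          rw [← mul_assoc, ← mul_assoc, ← mul_assoc, ← ENNReal.ofReal_mul (by positivity), ← ENNReal.ofReal_mul (by positivity), ← ENNReal.ofReal_mul (by positivity)]
          congr 2
          ring
  · push Not at h0
    have hF : ∀ y, ‖∑ j ∈ t, MR.ext (G j) y‖ₑ = 0 := by
      intro y
      rw [dz_sum_rsc t G u hσ y]
      have := h0 (Lam u r⁻¹ (r⁻¹ ^ 2) y)
      unfold Hc at this
      rw [this]
      simp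
    have hl : ∀ z, lqw (qq V) (wt (eP V) (r ^ 2)) (fun y => ∑ j ∈ t, MR.ext (G j) y) z = 0 := by
      intro z
      unfold lqw
      simp only [hF, ENNReal.zero_rpow_of_pos hq0, zero_mul, lintegral_zero]
    simp only [hl, zero_mul, mul_zero, lintegral_zero]
    exact zero_le

/-- (P1) of `dz_kak2` for one cluster. -/
theorem dzs_kak_P1 (hk : 1 ≤ Module.finrank ℝ V) {C₀ r : ℝ} (hr : 1 ≤ r) (t₀ : ℝ) {ι : Type} {t : Finset ι} {c : ι → V} {G : ι → V → ℂ} {u : V} (h : Cl C₀ (r ^ 2)⁻¹ t c G) (hu : ∀ j ∈ t, ‖c j - u‖ ≤ r⁻¹)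
    (z w : V × ℝ) (hw1 : ‖w.1‖ ≤ r ^ 2) (hw2 : |w.2| ≤ r ^ 3) :
    ys (qq V) (eS V) (eX V) r (Hc u r t G) (mc u r t₀ t G) (r⁻¹ • (z + w).1, r⁻¹ ^ 2 * (z + w).2)
      ≤ ENNReal.ofReal (2 ^ eY V) * ys (qq V) (eS V) (eX V) r (Hc u r t G) (mc u r t₀ t G) (r⁻¹ • z.1, r⁻¹ ^ 2 * z.2) := by
  obtain ⟨hE0, hE1, hS1, hX1, hS2, hX2, hT0, hT1, hY1, hY0, hP1, hP0⟩ := dz_exps (V := V) hk
  obtain ⟨hq2, -⟩ := dz_qq (V := V) hk
  have hq0 : 0 < qq V := by linarith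
  have hX0 : 0 ≤ eX V := le_trans (by positivity) hX2.le
  have hS0 : 0 ≤ eS V := le_trans (by positivity) hS2.le
  have hr0 : 0 < r := by linarith
  obtain ⟨hm1, hm2, hm3, hm4⟩ := dz_mc_props hr t₀ h hu
  have key := dz_ys_peetre hq0 hS0 hX0 hE0 hr (Hc u r t G) hm2 (r⁻¹ • z.1, r⁻¹ ^ 2 * z.2) (r⁻¹ • w.1, r⁻¹ ^ 2 * w.2)
  have e : ((r⁻¹ • z.1, r⁻¹ ^ 2 * z.2) : V × ℝ) + (r⁻¹ • w.1, r⁻¹ ^ 2 * w.2) = (r⁻¹ • (z + w).1, r⁻¹ ^ 2 * (z + w).2) := by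
    ext
    · simp [smul_add]
    · simp [mul_add]
  rw [e, ← hY1] at key
  refine key.trans (mul_le_mul_left (ENNReal.ofReal_le_ofReal ?_) _)
  refine Real.rpow_le_rpow (by positivity) ?_ hY0
  have hn : ‖((r⁻¹ • w.1, r⁻¹ ^ 2 * w.2) : V × ℝ)‖ ≤ r := by
    rw [Prod.norm_def]
    refine max_le ?_ ?_
    · simp only
      rw [norm_smul, Real.norm_eq_abs, abs_of_pos (by positivity : 0 < r⁻¹), inv_mul_le_iff₀ hr0]
      calc ‖w.1‖ ≤ r ^ 2 := hw1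
        _ = r * r := by ring
    · simp only
      rw [Real.norm_eq_abs, abs_mul, abs_of_pos (by positivity : 0 < r⁻¹ ^ 2), inv_pow, inv_mul_le_iff₀ (by positivity)]
      calc |w.2| ≤ r ^ 3 := hw2
        _ = r ^ 2 * r := by ring
  have : ‖((r⁻¹ • w.1, r⁻¹ ^ 2 * w.2) : V × ℝ)‖ / r ≤ 1 := (div_le_one hr0).2 hn
  linarith

/-- change of variables `x = r⁻¹ p` on a ball. -/
theorem dzs_ball_smul {r : ℝ} (hr0 : 0 < r) (f : V → ℝ≥0∞) (p₀ : V) (R : ℝ) :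
    ∫⁻ p in closedBall p₀ (R * r), f (r⁻¹ • p) = ENNReal.ofReal (r ^ Module.finrank ℝ V) * ∫⁻ x in closedBall (r⁻¹ • p₀) R, f x := by
  rw [← lintegral_indicator measurableSet_closedBall, ← lintegral_indicator measurableSet_closedBall]
  have h := dzr_lint_smul (W := V) (inv_pos.2 hr0) ((closedBall (r⁻¹ • p₀) R).indicator f)
  rw [inv_pow, inv_inv] at h
  rw [← h]
  refine lintegral_congr fun p => ?_
  have hiff : p ∈ closedBall p₀ (R * r) ↔ r⁻¹ • p ∈ closedBall (r⁻¹ • p₀) R := by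
    rw [mem_closedBall, mem_closedBall, dist_eq_norm, dist_eq_norm, ← smul_sub, norm_smul, Real.norm_eq_abs, abs_of_pos (inv_pos.2 hr0), inv_mul_le_iff₀ hr0, mul_comm r R]
  by_cases hp : p ∈ closedBall p₀ (R * r)
  · rw [indicator_of_mem hp, indicator_of_mem (hiff.1 hp)]
  · rw [indicator_of_notMem hp, indicator_of_notMem (fun h' => hp (hiff.2 h'))]

/-- (P2) of `dz_kak2` for one cluster. -/
theorem dzs_kak_P2 (hk : 1 ≤ Module.finrank ℝ V) {C₀ C₁ r : ℝ} (hC₁ : 0 ≤ C₁) (hr : 1 ≤ r) (t₀ : ℝ) {ι : Type} {t : Finset ι} {c : ι → V} {G : ι → V → ℂ} {u : V} (h : Cl C₀ (r ^ 2)⁻¹ t c G) (hu : ∀ j ∈ t, ‖c j - u‖ ≤ r⁻¹)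
    (p₀ : V) (τ : ℝ) :
    ENNReal.ofReal ((r ^ 2) ^ (-(Module.finrank ℝ V : ℝ))) * ∫⁻ p in closedBall p₀ (C₁ * r ^ 3), ys (qq V) (eS V) (eX V) r (Hc u r t G) (mc u r t₀ t G) (r⁻¹ • p, r⁻¹ ^ 2 * τ)
      ≤ ENNReal.ofReal ((1 + C₁) ^ (eE V + 2 * eX V)) * mc u r t₀ t G (r⁻¹ • p₀) := by
  obtain ⟨hE0, hE1, hS1, hX1, hS2, hX2, hT0, hT1, hY1, hY0, hP1, hP0⟩ := dz_exps (V := V) hk
  obtain ⟨hq2, -⟩ := dz_qq (V := V) hk
  have hq0 : 0 < qq V := by linarith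
  have hX0 : 0 ≤ eX V := le_trans (by positivity) hX2.le
  have hS0 : 0 ≤ eS V := le_trans (by positivity) hS2.le
  have hr0 : 0 < r := by linarith
  obtain ⟨hm1, hm2, hm3, hm4⟩ := dz_mc_props hr t₀ h hu
  obtain ⟨hHc, B, hB⟩ := dz_Hc_props hr h hu
  have key := dz_ys_box hq0 hS0 hX0 hE0 hr0 hC₁ hHc.measurable hm2 (r⁻¹ • p₀) (r⁻¹ ^ 2 * τ)
  have e3 : C₁ * r ^ 3 = (C₁ * r ^ 2) * r := by ring
  rw [e3, dzs_ball_smul hr0 (fun x => ys (qq V) (eS V) (eX V) r (Hc u r t G) (mc u r t₀ t G) (x, r⁻¹ ^ 2 * τ)) p₀ (C₁ * r ^ 2), ← mul_assoc, ← ENNReal.ofReal_mul (by positivity)]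
  have e4 : (r ^ 2) ^ (-(Module.finrank ℝ V : ℝ)) * r ^ Module.finrank ℝ V = r ^ (-(Module.finrank ℝ V : ℝ)) := by
    rw [← Real.rpow_natCast r 2, ← Real.rpow_mul hr0.le, ← Real.rpow_natCast r (Module.finrank ℝ V), ← Real.rpow_add hr0]
    congr 1
    push_cast
    ring
  rw [e4]
  exact key

/-- (P3) of `dz_kak2` for one cluster. -/
theorem dzs_kak_P3 (hk : 1 ≤ Module.finrank ℝ V) {C₀ r : ℝ} (hr : 1 ≤ r) (t₀ : ℝ) {ι : Type} {t : Finset ι} {c : ι → V} {G : ι → V → ℂ} {u : V} (h : Cl C₀ (r ^ 2)⁻¹ t c G) (hu : ∀ j ∈ t, ‖c j - u‖ ≤ r⁻¹)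
    (p₀ p' : V) (hp : ‖p'‖ ≤ r ^ 3) :
    mc u r t₀ t G (r⁻¹ • p₀) ≤ ENNReal.ofReal (2 ^ eE V) * mc u r t₀ t G (r⁻¹ • (p₀ + p')) := by
  obtain ⟨hE0, -⟩ := dz_exps (V := V) hk
  have hr0 : 0 < r := by linarith
  obtain ⟨hm1, hm2, hm3, hm4⟩ := dz_mc_props hr t₀ h hu
  have key := hm2 (r⁻¹ • (p₀ + p')) (-(r⁻¹ • p'))
  have e : r⁻¹ • (p₀ + p') + -(r⁻¹ • p') = r⁻¹ • p₀ := by
    rw [smul_add]; abel
  rw [e, norm_neg] at key
  refine key.trans (mul_le_mul_left (ENNReal.ofReal_le_ofReal ?_) _)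
  refine Real.rpow_le_rpow (by positivity) ?_ hE0
  have hn : ‖r⁻¹ • p'‖ ≤ r ^ 2 := by
    rw [norm_smul, Real.norm_eq_abs, abs_of_pos (by positivity : 0 < r⁻¹), inv_mul_le_iff₀ hr0]
    calc ‖p'‖ ≤ r ^ 3 := hp
      _ = r * r ^ 2 := by ring
  have : ‖r⁻¹ • p'‖ / r ^ 2 ≤ 1 := (div_le_one (by positivity)).2 hn
  linarith

/-- the total weight of the fat tubes of one cluster. -/
theorem dzs_kak_tot {r : ℝ} (hr0 : 0 < r) (m : V → ℝ≥0∞) :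
    ENNReal.ofReal ((r ^ 3) ^ (-(Module.finrank ℝ V : ℝ))) * ∫⁻ p, m (r⁻¹ • p) = ENNReal.ofReal ((r ^ 2) ^ (-(Module.finrank ℝ V : ℝ))) * ∫⁻ b, m b := by
  rw [dzr_lint_smul (W := V) (inv_pos.2 hr0) m, inv_pow, inv_inv, ← mul_assoc, ← ENNReal.ofReal_mul (by positivity)]
  congr 2
  rw [← Real.rpow_natCast r 2, ← Real.rpow_natCast r 3, ← Real.rpow_mul hr0.le, ← Real.rpow_mul hr0.le, ← Real.rpow_natCast r (Module.finrank ℝ V), ← Real.rpow_add hr0]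
  congr 1
  push_cast
  ring

open scoped Classical in
/-- **LEAF L-DZ-A3: THE KAKEYA FACTOR** (~300 l.;  GLUE).    `dz_kak2` with `ρ := r²`, `T := r³`, `Θ i = (s i).image (π i)`, `u i J = c i J`, fibre `t = (s i).filter (π i · = J)`,
`Y i J (p,τ) = ys q (eS V) (eX V) r (Hc …) (mc …) (r⁻¹ • p, r⁻¹² τ)`,  `mm i J p = mc … (r⁻¹ • p)`;   `yc … z = Y i J (z.1 + 2 z.2 u, z.2)` by the definition of `Lam`.
(P1) `dz_ys_peetre` with a shift of norm `≤ r`: `B₁ = 2^(eY V)`.   (P2) change of variables `x = r⁻¹ p` (`(r²)^(-k) r^k = r^(-k)`, the ball of radius `(2+2C₀) r³` becomes the ball of radius `(2+2C₀) r²`), `dz_ys_box` with `C₃ = 2 + 2C₀`.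
(P3) `dz_mc_props` (shift of norm `≤ r²`): `B₃ = 2^(eE V)`.   `(r³)^(-k) ∫ mm = (r²)^(-k) ∫ mc`, `dz_mc_total`;   `∑_J ∑_{j ∈ fibre} = ∑_{j ∈ s i}` (`Finset.sum_fiberwise_of_maps_to`).   `‖c i J‖ ≤ C₀` by `Grp.rep`. -/
theorem dz_mrs_kak (hk : 1 ≤ Module.finrank ℝ V) (C₀ : ℝ) (hC₀ : 0 ≤ C₀) : ∃ C : ℝ, ∃ M : ℕ, ∀ (r t₀ Q : ℝ) (ι : Type) (s : Fin (dd V) → Finset ι) (c : Fin (dd V) → ι → V) (G : Fin (dd V) → ι → V → ℂ)
    (π : Fin (dd V) → ι → ι), 1 ≤ r → 1 ≤ Q → (∀ i, Cl C₀ (r ^ 2)⁻¹ (s i) (c i) (G i)) → (∀ i, Grp ((3 : ℝ) ^ Module.finrank ℝ V) r⁻¹ (s i) (c i) (π i) (c i)) →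
    (∀ J : Fin (dd V) → ι, (∀ i, J i ∈ (s i).image (π i)) → ∀ t : Fin (dd V) → ℝ, ∑ i, |t i| ≤ Q * (‖∑ i, t i • c i (J i)‖ + |∑ i, t i|)) →
    ENNReal.ofReal ((r ^ 2) ^ (-(dd V : ℝ))) * ∫⁻ z : V × ℝ, ∏ i, (∑ J ∈ (s i).image (π i), yc (c i J) r t₀ ((s i).filter fun j => π i j = J) (G i) z) ^ (1 / (Module.finrank ℝ V : ℝ))
      ≤ ENNReal.ofReal (C * Q ^ M) * ∏ i, (∑ j ∈ s i, MR.l2 (G i j)) ^ (1 / (Module.finrank ℝ V : ℝ)) := by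
  obtain ⟨C, M, hC⟩ := dz_kak2 (V := V) hk C₀ hC₀
  obtain ⟨Kt, hKt⟩ := dz_mc_total (V := V) hk
  have hk0 : (0 : ℝ) < (Module.finrank ℝ V : ℝ) := by exact_mod_cast hk
  refine ⟨|C| * ((2 ^ eY V * (1 + (2 + 2 * C₀)) ^ (eE V + 2 * eX V) * 2 ^ eE V) ^ ((dd V : ℝ) / (Module.finrank ℝ V : ℝ)) * |Kt| ^ ((dd V : ℝ) / (Module.finrank ℝ V : ℝ))), M,
    fun r t₀ Q ι s c G π hr hQ hcl hgrp htr => ?_⟩
  have hr0 : 0 < r := by linarith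
  have hfc : ∀ i, ∀ J ∈ (s i).image (π i), Cl C₀ (r ^ 2)⁻¹ ((s i).filter fun j => π i j = J) (c i) (G i) := fun i J _ => (hcl i).subset (Finset.filter_subset _ _)
  have hfu : ∀ i, ∀ J ∈ (s i).image (π i), ∀ j ∈ (s i).filter fun j => π i j = J, ‖c i j - c i J‖ ≤ r⁻¹ := by
    intro i J _ j hj
    obtain ⟨hj1, hj2⟩ := Finset.mem_filter.1 hj
    have := (hgrp i).near j hj1
    rwa [hj2] at this
  have hb : ∀ i, ∀ J ∈ (s i).image (π i), ‖c i J‖ ≤ C₀ := by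
    intro i J hJ
    obtain ⟨θ, hθ, rfl⟩ := Finset.mem_image.1 hJ
    obtain ⟨θ', hθ', he⟩ := (hgrp i).rep θ hθ
    rw [he]
    exact (hcl i).bdd θ' hθ'
  have hsm : Measurable fun z : V × ℝ => ((r⁻¹ • z.1, r⁻¹ ^ 2 * z.2) : V × ℝ) :=
    (measurable_fst.const_smul r⁻¹).prodMk (measurable_snd.const_mul _)
  have key := hC (r ^ 2) (r ^ 3) Q (ENNReal.ofReal (2 ^ eY V)) (ENNReal.ofReal ((1 + (2 + 2 * C₀)) ^ (eE V + 2 * eX V))) (ENNReal.ofReal (2 ^ eE V)) ι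
    (fun i => (s i).image (π i)) c
    (fun i J z => ys (qq V) (eS V) (eX V) r (Hc (c i J) r ((s i).filter fun j => π i j = J) (G i)) (mc (c i J) r t₀ ((s i).filter fun j => π i j = J) (G i)) (r⁻¹ • z.1, r⁻¹ ^ 2 * z.2))
    (fun i J p => mc (c i J) r t₀ ((s i).filter fun j => π i j = J) (G i) (r⁻¹ • p))
    (by positivity) (pow_le_pow_right₀ hr (by norm_num)) hQ hb htr
    (fun i J hJ => (dz_measurable_ys _ _ _ _ (dz_Hc_props hr (hfc i J hJ) (hfu i J hJ)).1.measurable (dz_mc_props hr t₀ (hfc i J hJ) (hfu i J hJ)).1).comp hsm)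
    (fun i J hJ => (dz_mc_props hr t₀ (hfc i J hJ) (hfu i J hJ)).1.comp (measurable_const_smul r⁻¹))
    (fun i J hJ z w hw1 hw2 => dzs_kak_P1 hk hr t₀ (hfc i J hJ) (hfu i J hJ) z w hw1 hw2)
    (fun i J hJ p₀ τ => dzs_kak_P2 hk (by positivity) hr t₀ (hfc i J hJ) (hfu i J hJ) p₀ τ)
    (fun i J hJ p₀ p' hp => dzs_kak_P3 hk hr t₀ (hfc i J hJ) (hfu i J hJ) p₀ p' hp)
  have hsum : ∀ i, ∑ J ∈ (s i).image (π i), ENNReal.ofReal ((r ^ 3) ^ (-(Module.finrank ℝ V : ℝ))) * ∫⁻ p, mc (c i J) r t₀ ((s i).filter fun j => π i j = J) (G i) (r⁻¹ • p)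
      ≤ ENNReal.ofReal |Kt| * ∑ j ∈ s i, MR.l2 (G i j) := by
    intro i
    rw [← Finset.sum_fiberwise_of_maps_to (s := s i) (t := (s i).image (π i)) (g := π i) (fun j hj => Finset.mem_image_of_mem _ hj), Finset.mul_sum]
    refine Finset.sum_le_sum fun J hJ => ?_
    rw [dzs_kak_tot hr0]
    exact (hKt C₀ r t₀ ι _ (c i) (G i) (c i J) hr (hfc i J hJ) (hfu i J hJ)).trans (mul_le_mul_left (ENNReal.ofReal_le_ofReal (le_abs_self _)) _)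
  have hd : (Finset.univ : Finset (Fin (dd V))).card = dd V := by simp
  calc _ ≤ ENNReal.ofReal (C * Q ^ M) * (ENNReal.ofReal (2 ^ eY V) * ENNReal.ofReal ((1 + (2 + 2 * C₀)) ^ (eE V + 2 * eX V)) * ENNReal.ofReal (2 ^ eE V)) ^ ((dd V : ℝ) / (Module.finrank ℝ V : ℝ)) *
        ∏ i, (∑ J ∈ (s i).image (π i), ENNReal.ofReal ((r ^ 3) ^ (-(Module.finrank ℝ V : ℝ))) * ∫⁻ p, mc (c i J) r t₀ ((s i).filter fun j => π i j = J) (G i) (r⁻¹ • p)) ^ (1 / (Module.finrank ℝ V : ℝ)) := key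
    _ ≤ ENNReal.ofReal (|C| * Q ^ M) * (ENNReal.ofReal (2 ^ eY V) * ENNReal.ofReal ((1 + (2 + 2 * C₀)) ^ (eE V + 2 * eX V)) * ENNReal.ofReal (2 ^ eE V)) ^ ((dd V : ℝ) / (Module.finrank ℝ V : ℝ)) *
        ∏ i, (ENNReal.ofReal |Kt| * ∑ j ∈ s i, MR.l2 (G i j)) ^ (1 / (Module.finrank ℝ V : ℝ)) := by
        refine mul_le_mul' (mul_le_mul_left (ENNReal.ofReal_le_ofReal ?_) _) (Finset.prod_le_prod' fun i _ => ENNReal.rpow_le_rpow (hsum i) (by positivity))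
        exact mul_le_mul_of_nonneg_right (le_abs_self _) (by positivity)
    _ = _ := by
        simp only [ENNReal.mul_rpow_of_nonneg _ _ (by positivity : 0 ≤ 1 / (Module.finrank ℝ V : ℝ))]
        rw [Finset.prod_mul_distrib, Finset.prod_const, hd, ← ENNReal.rpow_natCast, ← ENNReal.rpow_mul, ← mul_assoc]
        congr 1
        rw [← ENNReal.ofReal_mul (by positivity), ← ENNReal.ofReal_mul (by positivity), ENNReal.ofReal_rpow_of_nonneg (by positivity) (by positivity),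
          ENNReal.ofReal_rpow_of_nonneg (by positivity) (by positivity), ← ENNReal.ofReal_mul (by positivity), ← ENNReal.ofReal_mul (by positivity)]
        congr 1
        have : 1 / (Module.finrank ℝ V : ℝ) * (dd V : ℝ) = (dd V : ℝ) / (Module.finrank ℝ V : ℝ) := by ring
        rw [this]
        ring

/-- **LEAF L-DZ-A4: the weight `yc` is positive and finite where the cluster is active** (~100 l.;  if `lqw … F z ≠ 0` then `F ≠ 0` somewhere, so `Hc ≠ 0` somewhere (`dz_sum_rsc`);  `dz_xs_pos_fin`, `dz_Xs_pos_fin`, `dz_mc_props`, `dz_Hc_props`, `dz_exps`;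
`ENNReal.div_pos`, `ENNReal.div_lt_top`, `ENNReal.mul_lt_top`). -/
theorem dz_yc_pos_fin (hk : 1 ≤ Module.finrank ℝ V) {C₀ r : ℝ} (hr : 1 ≤ r) (t₀ : ℝ) {ι : Type} {t : Finset ι} {c : ι → V} {G : ι → V → ℂ} {u : V} (h : Cl C₀ (r ^ 2)⁻¹ t c G) (hu : ∀ j ∈ t, ‖c j - u‖ ≤ r⁻¹)
    (W : V × ℝ → ℝ≥0∞) (z : V × ℝ) (hz : lqw (qq V) W (fun y => ∑ j ∈ t, MR.ext (G j) y) z ≠ 0) : 0 < yc u r t₀ t G z ∧ yc u r t₀ t G z < ⊤ := by
  have hr0 : 0 < r := by linarith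
  obtain ⟨hq2, -, -, -, -⟩ := dz_qq (V := V) hk
  have hq0 : 0 < qq V := by linarith
  obtain ⟨-, -, -, -, hS, hX, -⟩ := dz_exps (V := V) hk
  have hF : ∃ y, ∑ j ∈ t, MR.ext (G j) y ≠ 0 := by
    by_contra hcon
    push Not at hcon
    apply hz
    unfold lqw
    simp_rw [hcon, enorm_zero, ENNReal.zero_rpow_of_pos hq0, zero_mul]
    exact lintegral_zero
  obtain ⟨y, hy⟩ := hF
  have hH : ∃ z, Hc u r t G z ≠ 0 := by
    refine ⟨Lam u r⁻¹ (r⁻¹ ^ 2) y, fun h0 => hy ?_⟩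
    have := dz_sum_rsc t G u (inv_pos.2 hr0) y
    unfold Hc at h0
    rw [h0, enorm_zero, mul_zero] at this
    exact enorm_eq_zero.1 this
  obtain ⟨hHc, B, hB⟩ := dz_Hc_props hr h hu
  obtain ⟨-, -, hmf, hmp⟩ := dz_mc_props hr t₀ h hu
  obtain ⟨x1, x2⟩ := dz_xs_pos_fin hq0 hS hr0 hHc hB hH (Lam u r⁻¹ (r⁻¹ ^ 2) z)
  obtain ⟨X1, X2⟩ := dz_Xs_pos_fin hq0 hS hX hr0 hHc hB hH (Lam u r⁻¹ (r⁻¹ ^ 2) z)
  unfold yc ys
  constructor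
  · exact ENNReal.div_pos (mul_ne_zero x1.ne' (hmp hH _).ne') X2.ne
  · exact ENNReal.div_lt_top (ENNReal.mul_lt_top x2 (hmf _)).ne X1.ne'

/-! ### helpers of `dz_mrs_fam` (prefix `dzs_mf_`) -/

omit [FiniteDimensional ℝ V] in
theorem dzs_mf_meas_Lam (u : V) (a b : ℝ) : Measurable (Lam u a b) := by
  have : Continuous (Lam u a b) := by
    unfold Lam
    fun_prop
  exact this.measurable

theorem dzs_mf_fin {κ : ℝ} (hκ : 1 ≤ κ) {n : ℕ} (hn : (n : ℝ) = κ + 1) (L : Fin n → ℝ≥0∞) (a₂ a₃ : ℝ≥0∞) :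
    (a₂ * ∏ i, L i ^ (1 / κ)) ^ (2 / (κ + 3)) * ∏ i, (a₃ * L i) ^ (1 / (κ + 3))
      = a₂ ^ (2 / (κ + 3)) * a₃ ^ ((κ + 1) / (κ + 3)) * ∏ i, L i ^ ((κ + 2) / (κ * (κ + 3))) := by
  have hκ0 : 0 < κ := by linarith
  have h1 : (0 : ℝ) ≤ 2 / (κ + 3) := by positivity
  have h2 : (0 : ℝ) ≤ 1 / (κ + 3) := by positivity
  have h3 : (0 : ℝ) ≤ 1 / κ * (2 / (κ + 3)) := by positivity
  have e1 : ∀ i ∈ (Finset.univ : Finset (Fin n)), (a₃ * L i) ^ (1 / (κ + 3)) = a₃ ^ (1 / (κ + 3)) * L i ^ (1 / (κ + 3)) :=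
    fun i _ => ENNReal.mul_rpow_of_nonneg _ _ h2
  have e2 : 1 / (κ + 3) * (κ + 1) = (κ + 1) / (κ + 3) := by ring
  have e3 : ∀ i ∈ (Finset.univ : Finset (Fin n)), (L i ^ (1 / κ)) ^ (2 / (κ + 3)) * L i ^ (1 / (κ + 3)) = L i ^ ((κ + 2) / (κ * (κ + 3))) := by
    intro i _
    rw [← ENNReal.rpow_mul, ← ENNReal.rpow_add_of_nonneg _ _ h3 h2]
    congr 1
    field_simp
    ring
  rw [ENNReal.mul_rpow_of_nonneg _ _ h1, ← ENNReal.prod_rpow_of_nonneg h1, Finset.prod_congr rfl e1, Finset.prod_mul_distrib,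
    Finset.prod_const, Finset.card_univ, Fintype.card_fin, ← ENNReal.rpow_natCast, ← ENNReal.rpow_mul, hn, e2, ← Finset.prod_congr rfl e3,
    Finset.prod_mul_distrib]
  ring

/-- the abstract form of `dz_mrs_fam` -/
theorem dzs_mf_abs {α : Type*} [MeasurableSpace α] (μ : Measure α) {n : ℕ} {κ : ℝ} (hκ : 1 ≤ κ) (hn : (n : ℝ) = κ + 1) {ι : Type}
    (S : Fin n → Finset ι) (Lq : Fin n → α → ℝ≥0∞) (β y : Fin n → ι → α → ℝ≥0∞) (l : Fin n → ι → ℝ≥0∞) (ω w : α → ℝ≥0∞)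
    (D' a₂ a₃ b : ℝ≥0∞)
    (hβ : ∀ i, ∀ J ∈ S i, Measurable (β i J)) (hy : ∀ i, ∀ J ∈ S i, Measurable (y i J)) (hω : Measurable ω) (hw : Measurable w)
    (h1 : ∀ i z, Lq i z ^ (κ / (κ + 2)) ≤ D' * ∑ J ∈ S i, β i J z ^ (κ / (κ + 2)))
    (h2 : ∀ i, ∀ J ∈ S i, ∀ z, β i J z ≠ 0 → 0 < y i J z ∧ y i J z < ⊤)
    (hK : ∫⁻ z, ∏ i, (∑ J ∈ S i, y i J z) ^ (1 / κ) ∂μ ≤ a₂ * ∏ i, (∑ J ∈ S i, l i J) ^ (1 / κ))
    (hM : ∀ i, ∀ J ∈ S i, ∫⁻ z, w z * (β i J z * y i J z ^ (-(2 / κ))) ∂μ ≤ a₃ * l i J)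
    (hωw : ∀ z, ω z ^ ((κ + 3) / (κ + 1)) ≤ b * w z) :
    ∫⁻ z, ω z * ∏ i, Lq i z ^ (1 / (κ + 3)) ∂μ
      ≤ D' ^ ((κ + 1) * (κ + 2) / (κ * (κ + 3))) * (a₂ ^ (2 / (κ + 3)) * (b * a₃) ^ ((κ + 1) / (κ + 3))) *
        ∏ i, (∑ J ∈ S i, l i J) ^ ((κ + 2) / (κ * (κ + 3))) := by
  have hκ0 : 0 < κ := by linarith
  have hol := dz_holder_mrs μ hκ hn (fun i z => Lq i z ^ (κ / (κ + 2))) (fun i z => ∑ J ∈ S i, y i J z)
    (fun i z => ∑ J ∈ S i, β i J z * y i J z ^ (-(2 / κ))) ω D'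
    (fun i => Finset.measurable_sum _ (fun J hJ => hy i J hJ))
    (fun i => Finset.measurable_sum _ (fun J hJ => (hβ i J hJ).mul ((hy i J hJ).pow_const _))) hω
    (fun i z => (h1 i z).trans (mul_le_mul' le_rfl (dz_split hκ (S i) (fun J => β i J z) (fun J => y i J z) (fun J hJ => h2 i J hJ z))))
  have e1 : ∀ z, ω z * ∏ i, Lq i z ^ (1 / (κ + 3)) = ω z * ∏ i, (Lq i z ^ (κ / (κ + 2))) ^ ((κ + 2) / (κ * (κ + 3))) := by
    intro z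
    congr 1
    refine Finset.prod_congr rfl fun i _ => ?_
    rw [← ENNReal.rpow_mul]
    congr 1
    field_simp
  rw [lintegral_congr e1]
  refine hol.trans ?_
  have hMi : ∀ i, ∫⁻ z, ω z ^ ((κ + 3) / (κ + 1)) * ∑ J ∈ S i, β i J z * y i J z ^ (-(2 / κ)) ∂μ ≤ b * a₃ * ∑ J ∈ S i, l i J := by
    intro i
    calc ∫⁻ z, ω z ^ ((κ + 3) / (κ + 1)) * ∑ J ∈ S i, β i J z * y i J z ^ (-(2 / κ)) ∂μ
        ≤ ∫⁻ z, b * ∑ J ∈ S i, w z * (β i J z * y i J z ^ (-(2 / κ))) ∂μ := by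
          refine lintegral_mono fun z => ?_
          rw [← Finset.mul_sum, ← mul_assoc]
          exact mul_le_mul' (hωw z) le_rfl
      _ = b * ∑ J ∈ S i, ∫⁻ z, w z * (β i J z * y i J z ^ (-(2 / κ))) ∂μ := by
          have hterm : ∀ J ∈ S i, Measurable fun z => w z * (β i J z * y i J z ^ (-(2 / κ))) :=
            fun J hJ => hw.mul ((hβ i J hJ).mul ((hy i J hJ).pow_const _))
          rw [lintegral_const_mul _ (Finset.measurable_sum _ hterm), lintegral_finsetSum _ hterm]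
      _ ≤ b * ∑ J ∈ S i, a₃ * l i J := mul_le_mul' le_rfl (Finset.sum_le_sum fun J hJ => hM i J hJ)
      _ = b * a₃ * ∑ J ∈ S i, l i J := by rw [← Finset.mul_sum, mul_assoc]
  rw [mul_assoc, mul_assoc]
  refine mul_le_mul' le_rfl ?_
  rw [← dzs_mf_fin hκ hn]
  exact mul_le_mul' (ENNReal.rpow_le_rpow hK (by positivity))
    (Finset.prod_le_prod' fun i _ => ENNReal.rpow_le_rpow (hMi i) (by positivity))

theorem dzs_mf_pow_le {x y e : ℝ} (hxy : x ≤ y) (hy : 1 ≤ y) (he0 : 0 ≤ e) (he1 : e ≤ 1) : ENNReal.ofReal x ^ e ≤ ENNReal.ofReal y := by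
  calc ENNReal.ofReal x ^ e ≤ ENNReal.ofReal y ^ e := ENNReal.rpow_le_rpow (ENNReal.ofReal_le_ofReal hxy) he0
    _ = ENNReal.ofReal (y ^ e) := ENNReal.ofReal_rpow_of_nonneg (by linarith) he0
    _ ≤ ENNReal.ofReal (y ^ (1 : ℝ)) := ENNReal.ofReal_le_ofReal (Real.rpow_le_rpow_of_exponent_le hy he1)
    _ = ENNReal.ofReal y := by rw [Real.rpow_one]

theorem dzs_mf_const {κ D Ck Cm T r Q η ε' ε : ℝ} (M : ℕ) (hκ : 1 ≤ κ) (hT : 0 ≤ T) (hr : 1 ≤ r) (hQ : 1 ≤ Q) (hη : 0 ≤ η)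
    (hsum : 3 / 2 * η + ε' ≤ ε) (hε' : 0 ≤ ε') :
    ENNReal.ofReal (D * r ^ η) ^ ((κ + 1) * (κ + 2) / (κ * (κ + 3))) *
        (ENNReal.ofReal (Ck * Q ^ M) ^ (2 / (κ + 3)) * (ENNReal.ofReal (2 ^ T) * ENNReal.ofReal (Cm * r ^ ε')) ^ ((κ + 1) / (κ + 3)))
      ≤ ENNReal.ofReal (max D 1 ^ ((κ + 1) * (κ + 2) / (κ * (κ + 3))) * max Ck 1 * (2 ^ T * max Cm 1) * Q ^ M * r ^ ε) := by
  have hκ0 : 0 < κ := by linarith
  have hr0 : 0 < r := by linarith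
  have he0 : 0 ≤ (κ + 1) * (κ + 2) / (κ * (κ + 3)) := by positivity
  have he1 : (κ + 1) * (κ + 2) / (κ * (κ + 3)) ≤ 3 / 2 := by
    rw [div_le_iff₀ (by positivity)]
    nlinarith
  have hD1 : (1 : ℝ) ≤ max D 1 := le_max_right _ _
  have hC1 : (1 : ℝ) ≤ max Ck 1 := le_max_right _ _
  have hm1 : (1 : ℝ) ≤ max Cm 1 := le_max_right _ _
  have hQM : (1 : ℝ) ≤ Q ^ M := one_le_pow₀ hQ
  have hrη : 0 < r ^ η := Real.rpow_pos_of_pos hr0 _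
  have hrε : (1 : ℝ) ≤ r ^ ε' := Real.one_le_rpow hr hε'
  have h2T : (1 : ℝ) ≤ 2 ^ T := Real.one_le_rpow (by norm_num) hT
  have f1 : ENNReal.ofReal (D * r ^ η) ^ ((κ + 1) * (κ + 2) / (κ * (κ + 3)))
      ≤ ENNReal.ofReal (max D 1 ^ ((κ + 1) * (κ + 2) / (κ * (κ + 3))) * r ^ (3 / 2 * η)) := by
    calc ENNReal.ofReal (D * r ^ η) ^ ((κ + 1) * (κ + 2) / (κ * (κ + 3)))
        ≤ ENNReal.ofReal (max D 1 * r ^ η) ^ ((κ + 1) * (κ + 2) / (κ * (κ + 3))) :=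
          ENNReal.rpow_le_rpow (ENNReal.ofReal_le_ofReal (mul_le_mul_of_nonneg_right (le_max_left _ _) hrη.le)) he0
      _ = ENNReal.ofReal ((max D 1 * r ^ η) ^ ((κ + 1) * (κ + 2) / (κ * (κ + 3)))) :=
          ENNReal.ofReal_rpow_of_nonneg (by positivity) he0
      _ ≤ ENNReal.ofReal (max D 1 ^ ((κ + 1) * (κ + 2) / (κ * (κ + 3))) * r ^ (3 / 2 * η)) := by
          refine ENNReal.ofReal_le_ofReal ?_
          rw [Real.mul_rpow (by linarith) hrη.le, ← Real.rpow_mul hr0.le]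
          refine mul_le_mul_of_nonneg_left (Real.rpow_le_rpow_of_exponent_le hr ?_) (by positivity)
          calc η * ((κ + 1) * (κ + 2) / (κ * (κ + 3))) ≤ η * (3 / 2) := mul_le_mul_of_nonneg_left he1 hη
            _ = 3 / 2 * η := by ring
  have f2 : ENNReal.ofReal (Ck * Q ^ M) ^ (2 / (κ + 3)) ≤ ENNReal.ofReal (max Ck 1 * Q ^ M) := by
    refine dzs_mf_pow_le (mul_le_mul_of_nonneg_right (le_max_left _ _) (by linarith)) ?_ (by positivity) ?_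
    · calc (1 : ℝ) = 1 * 1 := (one_mul _).symm
        _ ≤ max Ck 1 * Q ^ M := mul_le_mul hC1 hQM zero_le_one (by linarith)
    · rw [div_le_one (by positivity)]
      linarith
  have f3 : (ENNReal.ofReal (2 ^ T) * ENNReal.ofReal (Cm * r ^ ε')) ^ ((κ + 1) / (κ + 3)) ≤ ENNReal.ofReal (2 ^ T * (max Cm 1 * r ^ ε')) := by
    rw [← ENNReal.ofReal_mul (by linarith)]
    refine dzs_mf_pow_le (mul_le_mul_of_nonneg_left (mul_le_mul_of_nonneg_right (le_max_left _ _) (by linarith)) (by linarith)) ?_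
      (by positivity) ?_
    · calc (1 : ℝ) = 1 * (1 * 1) := by norm_num
        _ ≤ 2 ^ T * (max Cm 1 * r ^ ε') := mul_le_mul h2T (mul_le_mul hm1 hrε zero_le_one (by linarith)) (by norm_num) (by linarith)
    · rw [div_le_one (by positivity)]
      linarith
  refine (mul_le_mul' f1 (mul_le_mul' f2 f3)).trans ?_
  rw [← ENNReal.ofReal_mul (by positivity), ← ENNReal.ofReal_mul (by positivity)]
  refine ENNReal.ofReal_le_ofReal ?_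
  have hrr : r ^ (3 / 2 * η) * r ^ ε' ≤ r ^ ε := by
    rw [← Real.rpow_add hr0]
    exact Real.rpow_le_rpow_of_exponent_le hr hsum
  calc max D 1 ^ ((κ + 1) * (κ + 2) / (κ * (κ + 3))) * r ^ (3 / 2 * η) * (max Ck 1 * Q ^ M * (2 ^ T * (max Cm 1 * r ^ ε')))
      = max D 1 ^ ((κ + 1) * (κ + 2) / (κ * (κ + 3))) * max Ck 1 * (2 ^ T * max Cm 1) * Q ^ M * (r ^ (3 / 2 * η) * r ^ ε') := by ring
    _ ≤ max D 1 ^ ((κ + 1) * (κ + 2) / (κ * (κ + 3))) * max Ck 1 * (2 ^ T * max Cm 1) * Q ^ M * r ^ ε :=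
        mul_le_mul_of_nonneg_left hrr (by positivity)

omit [NormedAddCommGroup V] [InnerProductSpace ℝ V] [FiniteDimensional ℝ V] [MeasurableSpace V] [BorelSpace V] in
theorem dzs_mf_omega {T R p t₀ : ℝ} (hT : 0 ≤ T) (hR : 0 < R) (hp : 0 < p) (z : V × ℝ) :
    (Set.indicator {z : V × ℝ | |z.2 - t₀| ≤ R} (1 : V × ℝ → ℝ≥0∞) z) ^ p ≤ ENNReal.ofReal (2 ^ T) * wr T R (z.2 - t₀) := by
  by_cases hz : z ∈ {z : V × ℝ | |z.2 - t₀| ≤ R}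
  · rw [Set.indicator_of_mem hz, Pi.one_apply, ENNReal.one_rpow]
    unfold wr
    rw [← ENNReal.ofReal_mul (by positivity), ENNReal.one_le_ofReal]
    have h1 : 1 + |z.2 - t₀| / R ≤ 2 := by
      have : |z.2 - t₀| / R ≤ 1 := (div_le_one hR).2 hz
      linarith
    have h2 : (2 : ℝ) ^ (-T) ≤ (1 + |z.2 - t₀| / R) ^ (-T) :=
      Real.rpow_le_rpow_of_nonpos (by positivity) h1 (by linarith)
    calc (1 : ℝ) = 2 ^ T * 2 ^ (-T) := by rw [← Real.rpow_add (by norm_num), add_neg_cancel, Real.rpow_zero]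
      _ ≤ 2 ^ T * (1 + |z.2 - t₀| / R) ^ (-T) := mul_le_mul_of_nonneg_left h2 (by positivity)
  · rw [Set.indicator_of_notMem hz, ENNReal.zero_rpow_of_pos hp]
    exact bot_le

open scoped Classical in
/-- **LEAF L-DZ-A5: `MRS*` for families of cells** (~350 l.;  GLUE).    `κ = k`, `2/q = κ/(κ+2)` (`dz_qq`), `β_J z = lqw q (wt (eP V) r²) (gsum … J) z`, `y_J = yc (c i J) r t₀ (fibre) (G i)`.
(1) `dz_loc_dec` (`Ew = eP V`, `η`), `dz_split` (`dz_yc_pos_fin`):   `Bq i z := lqw q (wt (eP V) r²) (∑ j ∈ s i, ext (G i j)) z ^(2/q) ≤ D r^η (∑_J y_J)^(2/(κ+2)) (∑_J β_J y_J^(-(2/κ)))^(κ/(κ+2))`.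
(2) `dz_holder_mrs` for the measure `ofReal ((r²)^(-d)) • volume`, `ω` = indicator of `{|z.2 - t₀| ≤ (r²)²}`;   `lqw^(1/(κ+3)) = (lqw^(2/q))^((κ+2)/(κ(κ+3)))`;   `ω^((κ+3)/(κ+1)) = ω ≤ 2^(eT V) wr (eT V) ((r²)²) (z.2 - t₀)`.
(3) `dz_mrs_kak`;   `dz_mrs_mass` for every `J` (`lintegral_finset_sum`; `Cl.subset`, `Grp.near`, `Grp.rep`), `∑_J ∑_{fibre} = ∑_{s i}`.
(4) exponents:  `(1/κ)(2/(κ+3)) + 1/(κ+3) = (κ+2)/(κ(κ+3))`;   `(Q^M)^(2/(κ+3)) ≤ Q^M`;  powers of `r`:  `η (κ+1)(κ+2)/(κ(κ+3)) + ε' (κ+1)/(κ+3) ≤ ε` for `η = ε' = ε/8`  (`(κ+1)(κ+2)/(κ(κ+3)) ≤ 3/2`). -/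
theorem dz_mrs_fam (hk : 1 ≤ Module.finrank ℝ V) (C₀ ε : ℝ) (hC₀ : 0 ≤ C₀) (hε : 0 < ε) : ∃ C : ℝ, ∃ M : ℕ, ∀ (r t₀ Q : ℝ) (ι : Type) (s : Fin (dd V) → Finset ι) (c : Fin (dd V) → ι → V)
    (G : Fin (dd V) → ι → V → ℂ) (π : Fin (dd V) → ι → ι), 1 ≤ r → 1 ≤ Q → (∀ i, Cl C₀ (r ^ 2)⁻¹ (s i) (c i) (G i)) → (∀ i, Grp ((3 : ℝ) ^ Module.finrank ℝ V) r⁻¹ (s i) (c i) (π i) (c i)) →
    (∀ J : Fin (dd V) → ι, (∀ i, J i ∈ (s i).image (π i)) → ∀ t : Fin (dd V) → ℝ, ∑ i, |t i| ≤ Q * (‖∑ i, t i • c i (J i)‖ + |∑ i, t i|)) →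
    ENNReal.ofReal ((r ^ 2) ^ (-(dd V : ℝ))) * ∫⁻ z in {z : V × ℝ | |z.2 - t₀| ≤ (r ^ 2) ^ 2},
        ∏ i, lqw (qq V) (wt (eP V) (r ^ 2)) (fun y => ∑ j ∈ s i, MR.ext (G i j) y) z ^ (1 / ((Module.finrank ℝ V : ℝ) + 3))
      ≤ ENNReal.ofReal (C * Q ^ M * r ^ ε) *
        ∏ i, (∑ j ∈ s i, MR.l2 (G i j)) ^ (((Module.finrank ℝ V : ℝ) + 2) / ((Module.finrank ℝ V : ℝ) * ((Module.finrank ℝ V : ℝ) + 3))) := by
  obtain ⟨-, -, -, -, hq5⟩ := dz_qq (V := V) hk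
  obtain ⟨-, -, -, -, -, -, heT0, -, -, -, -, heP0⟩ := dz_exps (V := V) hk
  have hk' : (1 : ℝ) ≤ (Module.finrank ℝ V : ℝ) := by exact_mod_cast hk
  have hn : ((dd V : ℕ) : ℝ) = (Module.finrank ℝ V : ℝ) + 1 := by
    unfold dd
    push_cast
    rfl
  obtain ⟨D, hD⟩ := dz_loc_dec (V := V) hk C₀ (ε / 8) (eP V) hC₀ (by positivity) heP0
  obtain ⟨Ck, M, hKak⟩ := dz_mrs_kak (V := V) hk C₀ hC₀
  obtain ⟨Cm, hMass⟩ := dz_mrs_mass (V := V) hk C₀ (ε / 8) hC₀ (by positivity)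
  refine ⟨max D 1 ^ (((Module.finrank ℝ V : ℝ) + 1) * ((Module.finrank ℝ V : ℝ) + 2) / ((Module.finrank ℝ V : ℝ) * ((Module.finrank ℝ V : ℝ) + 3))) * max Ck 1 * (2 ^ eT V * max Cm 1), M, ?_⟩
  intro r t₀ Q ι s c G π hr hQ hCl hGrp hTr
  have hr0 : 0 < r := by linarith
  have hClf : ∀ i J, Cl C₀ (r ^ 2)⁻¹ ((s i).filter fun j => π i j = J) (c i) (G i) := fun i J => (hCl i).subset (Finset.filter_subset _ _)
  have hnear : ∀ i J, ∀ j ∈ (s i).filter (fun j => π i j = J), ‖c i j - c i J‖ ≤ r⁻¹ := by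
    intro i J j hj
    rw [Finset.mem_filter] at hj
    have := (hGrp i).near j hj.1
    rwa [hj.2] at this
  have hbd : ∀ i, ∀ J ∈ (s i).image (π i), ‖c i J‖ ≤ C₀ := by
    intro i J hJ
    obtain ⟨θ, hθ, rfl⟩ := Finset.mem_image.1 hJ
    obtain ⟨θ', hθ', e⟩ := (hGrp i).rep θ hθ
    rw [e]
    exact (hCl i).bdd θ' hθ'
  have hym : ∀ i J, Measurable (yc (c i J) r t₀ ((s i).filter fun j => π i j = J) (G i)) := by
    intro i J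
    obtain ⟨hc, -⟩ := dz_Hc_props hr (hClf i J) (hnear i J)
    obtain ⟨hm, -⟩ := dz_mc_props hr t₀ (hClf i J) (hnear i J)
    exact (dz_measurable_ys _ _ _ _ hc.measurable hm).comp (dzs_mf_meas_Lam _ _ _)
  have hβm : ∀ i J, Measurable (lqw (qq V) (wt (eP V) (r ^ 2)) (fun y => ∑ j ∈ (s i).filter (fun j => π i j = J), MR.ext (G i j) y)) := by
    intro i J
    refine dz_measurable_lqw _ (measurable_wt _ _) ?_
    exact (continuous_finsetSum _ fun j hj => MR.ext_continuous ((hClf i J).integrable hj)).measurable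
  have hSm : MeasurableSet {z : V × ℝ | |z.2 - t₀| ≤ (r ^ 2) ^ 2} :=
    measurableSet_le (measurable_snd.sub_const t₀).abs measurable_const
  have hsum : ∀ i, ∑ J ∈ (s i).image (π i), ∑ j ∈ (s i).filter (fun j => π i j = J), MR.l2 (G i j) = ∑ j ∈ s i, MR.l2 (G i j) :=
    fun i => Finset.sum_fiberwise_of_maps_to (fun j hj => Finset.mem_image_of_mem _ hj) _
  have key := dzs_mf_abs (ENNReal.ofReal ((r ^ 2) ^ (-(dd V : ℝ))) • (volume : Measure (V × ℝ))) hk' hn (fun i => (s i).image (π i))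
    (fun i z => lqw (qq V) (wt (eP V) (r ^ 2)) (fun y => ∑ j ∈ s i, MR.ext (G i j) y) z)
    (fun i J z => lqw (qq V) (wt (eP V) (r ^ 2)) (fun y => ∑ j ∈ (s i).filter (fun j => π i j = J), MR.ext (G i j) y) z)
    (fun i J z => yc (c i J) r t₀ ((s i).filter fun j => π i j = J) (G i) z)
    (fun i J => ∑ j ∈ (s i).filter (fun j => π i j = J), MR.l2 (G i j))
    (Set.indicator {z : V × ℝ | |z.2 - t₀| ≤ (r ^ 2) ^ 2} 1)
    (fun z => wr (eT V) ((r ^ 2) ^ 2) (z.2 - t₀))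
    (ENNReal.ofReal (D * r ^ (ε / 8))) (ENNReal.ofReal (Ck * Q ^ M)) (ENNReal.ofReal (Cm * r ^ (ε / 8))) (ENNReal.ofReal (2 ^ eT V))
    (fun i J _ => hβm i J) (fun i J _ => hym i J) (measurable_one.indicator hSm)
    ((dz_measurable_wr _ _).comp (measurable_snd.sub_const t₀))
    (fun i z => by
      have h5 := hD r ι (s i) (c i) (G i) (π i) hr (hCl i) (hGrp i) z
      rw [hq5] at h5
      exact h5)
    (fun i J _ z hz => dz_yc_pos_fin hk hr t₀ (hClf i J) (hnear i J) _ z hz)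
    (by
      rw [lintegral_smul_measure, smul_eq_mul, Finset.prod_congr rfl (fun i _ => by rw [hsum i])]
      exact hKak r t₀ Q ι s c G π hr hQ hCl hGrp hTr)
    (fun i J hJ => by
      rw [lintegral_smul_measure, smul_eq_mul]
      exact hMass r t₀ ι _ (c i) (G i) (c i J) hr (hClf i J) (hbd i J hJ) (hnear i J))
    (fun z => dzs_mf_omega heT0 (by positivity) (by positivity) z)
  rw [lintegral_smul_measure, smul_eq_mul, Finset.prod_congr rfl (fun i _ => by rw [hsum i])] at key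
  have e1 : ∫⁻ z in {z : V × ℝ | |z.2 - t₀| ≤ (r ^ 2) ^ 2},
        ∏ i, lqw (qq V) (wt (eP V) (r ^ 2)) (fun y => ∑ j ∈ s i, MR.ext (G i j) y) z ^ (1 / ((Module.finrank ℝ V : ℝ) + 3))
      = ∫⁻ z, Set.indicator {z : V × ℝ | |z.2 - t₀| ≤ (r ^ 2) ^ 2} (1 : V × ℝ → ℝ≥0∞) z *
        ∏ i, lqw (qq V) (wt (eP V) (r ^ 2)) (fun y => ∑ j ∈ s i, MR.ext (G i j) y) z ^ (1 / ((Module.finrank ℝ V : ℝ) + 3)) := by
    rw [← lintegral_indicator hSm]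
    refine lintegral_congr fun z => ?_
    by_cases hz : z ∈ {z : V × ℝ | |z.2 - t₀| ≤ (r ^ 2) ^ 2}
    · rw [Set.indicator_of_mem hz, Set.indicator_of_mem hz, Pi.one_apply, one_mul]
    · rw [Set.indicator_of_notMem hz, Set.indicator_of_notMem hz, zero_mul]
  rw [e1]
  refine key.trans (mul_le_mul' ?_ le_rfl)
  exact dzs_mf_const M hk' heT0 hr hQ (by positivity) (by linarith) (by positivity)

/-- **`MRS*`: THE MULTILINEAR REFINED STRICHARTZ ESTIMATE** (LEAF L-DZ-A6, ~150 l.;  GLUE).    `r = √ρ` (`Real.sq_sqrt`), `dz_cells` with `δ = ρ⁻¹` for every `i` (index type `V`, `c i = id`), `BD.exists_grp (s i) id (σ := r⁻¹)`;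
the centres of the clusters are centres of cells (`Grp.rep`), hence points of `U i`: the transversality is `MR.Tr Q U`.   `dz_mrs_fam`;  `r^ε ≤ ρ^ε`;  `∑ l2 (G v) ≤ l2 (f i)`. -/
theorem dz_mrs (hk : 1 ≤ Module.finrank ℝ V) (C₀ ε : ℝ) (hC₀ : 0 ≤ C₀) (hε : 0 < ε) : ∃ C : ℝ, ∃ M : ℕ, ∀ (ρ t₀ Q : ℝ) (U : Fin (dd V) → Set V) (f : Fin (dd V) → V → ℂ),
    1 ≤ ρ → 1 ≤ Q → (∀ i, U i ⊆ closedBall 0 C₀) → MR.Tr Q U → (∀ i, Measurable (f i)) → (∀ i ξ, ξ ∉ U i → f i ξ = 0) → (∀ i, MR.l2 (f i) < ⊤) →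
    ENNReal.ofReal (ρ ^ (-(dd V : ℝ))) * ∫⁻ z in {z : V × ℝ | |z.2 - t₀| ≤ ρ ^ 2}, ∏ i, lqw (qq V) (wt (eP V) ρ) (MR.ext (f i)) z ^ (1 / ((Module.finrank ℝ V : ℝ) + 3))
      ≤ ENNReal.ofReal (C * Q ^ M * ρ ^ ε) * ∏ i, MR.l2 (f i) ^ (((Module.finrank ℝ V : ℝ) + 2) / ((Module.finrank ℝ V : ℝ) * ((Module.finrank ℝ V : ℝ) + 3))) := by
  classical
  obtain ⟨C, M, h⟩ := dz_mrs_fam hk C₀ ε hC₀ hε
  refine ⟨max C 0, M, fun ρ t₀ Q U f hρ hQ hU hTr hm hs hf => ?_⟩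
  have hρ0 : 0 < ρ := by linarith
  have hr2 : (√ρ) ^ 2 = ρ := Real.sq_sqrt hρ0.le
  have hr : 1 ≤ √ρ := Real.one_le_sqrt.2 hρ
  have hr0 : 0 < √ρ := by linarith
  choose s G hsU hCl hl2 hext using fun i => dz_cells (δ := ρ⁻¹) (by positivity) (U i) (hU i) (hm i) (hs i) (hf i)
  choose π hπ using fun i => exists_grp (s i) (id : V → V) (σ := (√ρ)⁻¹) (by positivity)
  have key := h (√ρ) t₀ Q V s (fun _ => id) G π hr hQ (fun i => by rw [hr2]; exact hCl i) hπ (by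
    intro J hJ t
    refine hTr (fun i => J i) (fun i => ?_) t
    obtain ⟨θ, hθ, hθJ⟩ := Finset.mem_image.1 (hJ i)
    obtain ⟨θ', hθ', he⟩ := (hπ i).rep θ hθ
    have : J i = θ' := by rw [← hθJ]; exact he
    rw [this]
    exact hsU i θ' hθ')
  rw [hr2] at key
  have hfe : ∀ i, MR.ext (f i) = fun y => ∑ j ∈ s i, MR.ext (G i j) y := fun i => funext (hext i)
  simp only [hfe]
  refine key.trans ?_
  have hk0 : (0 : ℝ) < (Module.finrank ℝ V : ℝ) := by exact_mod_cast hk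
  refine mul_le_mul' (ENNReal.ofReal_le_ofReal ?_) (Finset.prod_le_prod' fun i _ => ENNReal.rpow_le_rpow (hl2 i) (by positivity))
  have h1 : √ρ ^ ε ≤ ρ ^ ε := by
    refine Real.rpow_le_rpow hr0.le ?_ hε.le
    calc √ρ ≤ √ρ * √ρ := le_mul_of_one_le_left hr0.le hr
      _ = ρ := Real.mul_self_sqrt hρ0.le
  have h2 : 0 ≤ Q ^ M := by positivity
  calc C * Q ^ M * √ρ ^ ε ≤ max C 0 * Q ^ M * √ρ ^ ε := by
        gcongr
        exact le_max_left _ _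
    _ ≤ max C 0 * Q ^ M * ρ ^ ε := by
        gcongr

end Claimed.Agent.DZ
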