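import Claimed.Agent.Lib.DZ.Defs
import Claimed.Agent.Lib.DZ.Abs
import Claimed.Agent.Lib.BD.Wt

/-!
# Box DZ, file Wl: calculus of the functional `rsg`; weights by TRANSLATES.      CONTRACT (captain helper3)
PAPER-FREE (Mathlib + `Lib/BD/{Wt,Abs}` + `DZ/Abs`).  Every `sorry` is a leaf `L-DZ-W*`.  Statements are frozen (tell helper3 at once if one looks false or awkward); auxiliary lemmas (prefix `dzw_`) directly above your theorem; edit only your block.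
`rsg q ρ Ω W F = ρ⁻¹ ∫ dt (ρ^(-k) ∫ dx Ω(x,t) (lqw q W F (x,t))^(2/q))^(q/2)`,   `lqw q W F z = ∫ |F y|^q W (y - z) dy`.     `rsg^(2/q)` is a NORM-like quantity: subadditive in `Ω`, and in `W^(2/q)`.
-/

set_option autoImplicit false
open MeasureTheory Set Metric
open scoped ENNReal NNReal RealInnerProductSpace

namespace Claimed.Agent.DZ

open Claimed.Agent.BD

variable {V : Type} [NormedAddCommGroup V] [InnerProductSpace ℝ V] [FiniteDimensional ℝ V] [MeasurableSpace V] [BorelSpace V]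

/-! ## measurability      (LEAF L-DZ-W0: this section, ~80 l.) -/

theorem dz_measurable_bw (ρ : ℝ) : Measurable (bw ρ : V × ℝ → ℝ≥0∞) := by
  unfold bw
  exact measurable_one.indicator isClosed_closedBall.measurableSet

theorem dz_measurable_pw (a b : ℝ) : Measurable (pw a b : V × ℝ → ℝ≥0∞) := by
  unfold pw
  refine measurable_one.indicator ?_
  have h1 : MeasurableSet {y : V × ℝ | ‖y.1‖ ≤ a} := measurableSet_le (by fun_prop) measurable_const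
  have h2 : MeasurableSet {y : V × ℝ | |y.2| ≤ b} := measurableSet_le (by fun_prop) measurable_const
  exact h1.inter h2

theorem dz_measurable_pwt (E a b : ℝ) : Measurable (pwt E a b : V × ℝ → ℝ≥0∞) := by
  unfold pwt
  exact ENNReal.measurable_ofReal.comp (Measurable.pow_const (by fun_prop) _)

theorem dz_measurable_wv (E R : ℝ) : Measurable (wv E R : V → ℝ≥0∞) := by
  unfold wv
  exact ENNReal.measurable_ofReal.comp (Measurable.pow_const (by fun_prop) _)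

/-- (`Measurable.lintegral_prod_right'` for `(z, y) ↦ ‖F y‖ₑ ^ q * W (y - z)`.) -/
theorem dz_measurable_lqw (q : ℝ) {W : V × ℝ → ℝ≥0∞} (hW : Measurable W) {F : V × ℝ → ℂ} (hF : Measurable F) : Measurable (lqw q W F) := by
  unfold lqw
  have h : Measurable fun p : (V × ℝ) × (V × ℝ) => ‖F p.2‖ₑ ^ q * W (p.2 - p.1) :=
    ((hF.comp measurable_snd).enorm.pow_const q).mul (hW.comp (measurable_snd.sub measurable_fst))
  exact h.lintegral_prod_right'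

/-- (`Measurable.lintegral_prod_left'`/`right'`.) -/
theorem dz_measurable_inner (q : ℝ) {Ω W : V × ℝ → ℝ≥0∞} (hΩ : Measurable Ω) (hW : Measurable W) {F : V × ℝ → ℂ} (hF : Measurable F) :
    Measurable fun t : ℝ => ∫⁻ x : V, Ω (x, t) * lqw q W F (x, t) ^ (2 / q) := by
  have h : Measurable fun p : V × ℝ => Ω p * lqw q W F p ^ (2 / q) :=
    hΩ.mul ((dz_measurable_lqw q hW hF).pow_const _)
  exact h.lintegral_prod_left'

/-! ## monotonicity, homogeneity      (LEAF L-DZ-W1: this section, ~80 l.) -/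

theorem dz_lqw_mono (q : ℝ) {W W' : V × ℝ → ℝ≥0∞} (h : ∀ y, W y ≤ W' y) (F : V × ℝ → ℂ) (z : V × ℝ) : lqw q W F z ≤ lqw q W' F z :=
  lintegral_mono (fun _ => mul_le_mul' le_rfl (h _))

theorem dz_rsg_mono {q : ℝ} (hq : 0 < q) (ρ : ℝ) {Ω Ω' W W' : V × ℝ → ℝ≥0∞} (hΩ : ∀ z, Ω z ≤ Ω' z) (hW : ∀ y, W y ≤ W' y) (F : V × ℝ → ℂ) :
    rsg q ρ Ω W F ≤ rsg q ρ Ω' W' F := by
  unfold rsg
  refine mul_le_mul' le_rfl (lintegral_mono fun t => ENNReal.rpow_le_rpow (mul_le_mul' le_rfl (lintegral_mono fun x => ?_)) (by positivity))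
  exact mul_le_mul' (hΩ _) (ENNReal.rpow_le_rpow (dz_lqw_mono q hW F _) (by positivity))

/-- (`lintegral_const_mul'`, `ENNReal.mul_rpow_of_nonneg`, `ENNReal.rpow_mul`; `(B^(2/q))^(q/2) = B`.) -/
theorem dz_rsg_smulW {q : ℝ} (hq : 0 < q) (ρ B : ℝ) (Ω W : V × ℝ → ℝ≥0∞) (F : V × ℝ → ℂ) :
    rsg q ρ Ω (fun y => ENNReal.ofReal B * W y) F = ENNReal.ofReal B * rsg q ρ Ω W F := by
  have h2q : 0 ≤ 2 / q := by positivity
  have hq2 : 0 ≤ q / 2 := by positivity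
  have hB : ENNReal.ofReal B ≠ ⊤ := ENNReal.ofReal_ne_top
  have hB' : ENNReal.ofReal B ^ (2 / q) ≠ ⊤ := ENNReal.rpow_ne_top_of_nonneg h2q hB
  have e1 : ∀ z, lqw q (fun y => ENNReal.ofReal B * W y) F z = ENNReal.ofReal B * lqw q W F z := by
    intro z
    unfold lqw
    rw [← lintegral_const_mul' _ _ hB]
    refine lintegral_congr fun y => ?_
    ring
  have e2 : ∀ t : ℝ, ∫⁻ x : V, Ω (x, t) * lqw q (fun y => ENNReal.ofReal B * W y) F (x, t) ^ (2 / q)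
      = ENNReal.ofReal B ^ (2 / q) * ∫⁻ x : V, Ω (x, t) * lqw q W F (x, t) ^ (2 / q) := by
    intro t
    rw [← lintegral_const_mul' _ _ hB']
    refine lintegral_congr fun x => ?_
    rw [e1, ENNReal.mul_rpow_of_nonneg _ _ h2q]
    ring
  have e3 : (ENNReal.ofReal B ^ (2 / q)) ^ (q / 2) = ENNReal.ofReal B := by
    rw [← ENNReal.rpow_mul]
    have : 2 / q * (q / 2) = 1 := by field_simp
    rw [this, ENNReal.rpow_one]
  unfold rsg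
  simp only [e2]
  have e4 : ∀ t : ℝ, (ENNReal.ofReal (ρ ^ (-(Module.finrank ℝ V : ℝ))) *
      (ENNReal.ofReal B ^ (2 / q) * ∫⁻ x : V, Ω (x, t) * lqw q W F (x, t) ^ (2 / q))) ^ (q / 2)
      = ENNReal.ofReal B * (ENNReal.ofReal (ρ ^ (-(Module.finrank ℝ V : ℝ))) *
        ∫⁻ x : V, Ω (x, t) * lqw q W F (x, t) ^ (2 / q)) ^ (q / 2) := by
    intro t
    rw [mul_left_comm, ENNReal.mul_rpow_of_nonneg _ _ hq2, e3]
  simp only [e4]
  rw [lintegral_const_mul' _ _ hB]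
  ring

/-! ## subadditivity -/

theorem dzw_pq {q : ℝ} (hq : 2 ≤ q) : 1 ≤ q / 2 ∧ 1 / (q / 2) = 2 / q ∧ 0 ≤ 2 / q ∧ 0 ≤ q / 2 ∧ q / 2 * (2 / q) = 1 := by
  have h0 : 0 < q := by linarith
  refine ⟨by linarith, by field_simp, by positivity, by positivity, by field_simp⟩

theorem dzw_scale {q : ℝ} (hq : 2 ≤ q) (c κ : ℝ≥0∞) (g : ℝ → ℝ≥0∞) (hg : Measurable g) :
    (∫⁻ t, (κ * (c * g t)) ^ (q / 2)) ^ (2 / q) = c * (∫⁻ t, (κ * g t) ^ (q / 2)) ^ (2 / q) := by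
  obtain ⟨_, _, h2q, hq2, e⟩ := dzw_pq hq
  have e1 : ∀ t, (κ * (c * g t)) ^ (q / 2) = c ^ (q / 2) * (κ * g t) ^ (q / 2) := by
    intro t
    rw [mul_left_comm, ENNReal.mul_rpow_of_nonneg _ _ hq2]
  simp only [e1]
  rw [lintegral_const_mul _ ((hg.const_mul κ).pow_const _), ENNReal.mul_rpow_of_nonneg _ _ h2q, ← ENNReal.rpow_mul, e,
    ENNReal.rpow_one]

theorem dzw_outer_tsum {q : ℝ} (hq : 2 ≤ q) (A κ : ℝ≥0∞) (J : ℝ → ℝ≥0∞) (Js : ℕ → ℝ → ℝ≥0∞) (hJs : ∀ i, Measurable (Js i))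
    (c : ℕ → ℝ≥0∞) (h : ∀ t, J t ≤ ∑' i, c i * Js i t) :
    (A * ∫⁻ t, (κ * J t) ^ (q / 2)) ^ (2 / q) ≤ ∑' i, c i * (A * ∫⁻ t, (κ * Js i t) ^ (q / 2)) ^ (2 / q) := by
  obtain ⟨hp, e1p, h2q, hq2, e⟩ := dzw_pq hq
  have hmk := dz_minkowski_tsum (volume : Measure ℝ) hp (fun i t => κ * (c i * Js i t))
    (fun i => (((hJs i).const_mul (c i)).const_mul κ).aemeasurable)
  rw [e1p] at hmk
  have h1 : (∫⁻ t, (κ * J t) ^ (q / 2)) ^ (2 / q) ≤ (∫⁻ t, (∑' i, κ * (c i * Js i t)) ^ (q / 2)) ^ (2 / q) := by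
    refine ENNReal.rpow_le_rpow (lintegral_mono fun t => ENNReal.rpow_le_rpow ?_ hq2) h2q
    rw [ENNReal.tsum_mul_left]
    exact mul_le_mul' le_rfl (h t)
  rw [ENNReal.mul_rpow_of_nonneg _ _ h2q]
  calc A ^ (2 / q) * (∫⁻ t, (κ * J t) ^ (q / 2)) ^ (2 / q)
      ≤ A ^ (2 / q) * ∑' i, (∫⁻ t, (κ * (c i * Js i t)) ^ (q / 2)) ^ (2 / q) := mul_le_mul' le_rfl (h1.trans hmk)
    _ = ∑' i, c i * (A * ∫⁻ t, (κ * Js i t) ^ (q / 2)) ^ (2 / q) := by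
        rw [← ENNReal.tsum_mul_left]
        refine tsum_congr fun i => ?_
        rw [dzw_scale hq _ _ _ (hJs i), ENNReal.mul_rpow_of_nonneg _ _ h2q]
        ring

theorem dzw_outer_sum {q : ℝ} (hq : 2 ≤ q) (A κ : ℝ≥0∞) {ι : Type} (S : Finset ι) (J : ℝ → ℝ≥0∞) (Js : ι → ℝ → ℝ≥0∞)
    (hJs : ∀ i ∈ S, Measurable (Js i)) (D : ℝ≥0∞) (h : ∀ t, J t ≤ D * ∑ i ∈ S, Js i t) :
    (A * ∫⁻ t, (κ * J t) ^ (q / 2)) ^ (2 / q) ≤ D * ∑ i ∈ S, (A * ∫⁻ t, (κ * Js i t) ^ (q / 2)) ^ (2 / q) := by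
  obtain ⟨hp, e1p, h2q, hq2, e⟩ := dzw_pq hq
  have hmk := abs_minkowski (μ := (volume : Measure ℝ)) hp S (fun i t => κ * Js i t)
    (fun i hi => ((hJs i hi).const_mul κ).aemeasurable)
  rw [e1p] at hmk
  have hsm : Measurable fun t => ∑ i ∈ S, Js i t := Finset.measurable_sum S hJs
  have h1 : (∫⁻ t, (κ * J t) ^ (q / 2)) ^ (2 / q) ≤ (∫⁻ t, (κ * (D * ∑ i ∈ S, Js i t)) ^ (q / 2)) ^ (2 / q) :=
    ENNReal.rpow_le_rpow (lintegral_mono fun t => ENNReal.rpow_le_rpow (mul_le_mul' le_rfl (h t)) hq2) h2q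
  rw [dzw_scale hq _ _ _ hsm] at h1
  simp only [Finset.mul_sum] at h1 hmk
  rw [ENNReal.mul_rpow_of_nonneg _ _ h2q]
  calc A ^ (2 / q) * (∫⁻ t, (κ * J t) ^ (q / 2)) ^ (2 / q)
      ≤ A ^ (2 / q) * (D * ∑ i ∈ S, (∫⁻ t, (κ * Js i t) ^ (q / 2)) ^ (2 / q)) :=
        mul_le_mul' le_rfl (h1.trans (mul_le_mul' le_rfl hmk))
    _ = D * ∑ i ∈ S, (A * ∫⁻ t, (κ * Js i t) ^ (q / 2)) ^ (2 / q) := by
        rw [mul_left_comm, Finset.mul_sum]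
        congr 1
        refine Finset.sum_congr rfl fun i _ => ?_
        rw [ENNReal.mul_rpow_of_nonneg _ _ h2q]

theorem dzw_meas_L (q : ℝ) {W : V × ℝ → ℝ≥0∞} (hW : Measurable W) {F : V × ℝ → ℂ} (hF : Measurable F) (t : ℝ) :
    Measurable fun x : V => lqw q W F (x, t) ^ (2 / q) :=
  ((dz_measurable_lqw q hW hF).comp measurable_prodMk_right).pow_const _

/-- **LEAF L-DZ-W2: translates of the cube weight** (~150 l.).
PLAN.  `lqw q W F z ≤ ∑' c_i lqw q W₀ F (z + a_i)` (`lintegral_tsum`, `(y - z) - a_i = y - (z + a_i)`);  `(·)^(2/q)` is subadditive (`dz_rpow_tsum_le`, `2/q ≤ 1`), `ENNReal.mul_rpow_of_nonneg`;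
inner integral: `I(t) ≤ ∑' c_i^(2/q) I_i(t)`, `I_i(t) = ρ^(-k) ∫ Ω(x,t) lqw q W₀ F ((x,t) + a_i)^(2/q) dx` (`lintegral_tsum`);   `dz_minkowski_tsum` with `p = q/2 ≥ 1` in `t`;
translation invariance in `x` (`lintegral_add_right_eq_self`) and in `t`:  `∫ I_i(t)^(q/2) dt = ∫ (ρ^(-k) ∫ Ω((x,t) - a_i) lqw q W₀ F (x,t)^(2/q) dx)^(q/2) dt`.   The factor `ρ⁻¹`: `ENNReal.mul_rpow_of_nonneg`, `ENNReal.tsum_mul_left`. -/
theorem dz_rsg_trW {q : ℝ} (hq : 2 ≤ q) (ρ : ℝ) {Ω W W₀ : V × ℝ → ℝ≥0∞} (hΩ : Measurable Ω) (hW₀ : Measurable W₀) {F : V × ℝ → ℂ} (hF : Measurable F)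
    (a : ℕ → V × ℝ) (c : ℕ → ℝ≥0∞) (hW : ∀ y, W y ≤ ∑' i, c i * W₀ (y - a i)) :
    rsg q ρ Ω W F ^ (2 / q) ≤ ∑' i, c i ^ (2 / q) * rsg q ρ (fun z => Ω (z - a i)) W₀ F ^ (2 / q) := by
  obtain ⟨hp, e1p, h2q, hq2, e⟩ := dzw_pq hq
  have h2q1 : 2 / q ≤ 1 := by rw [div_le_one (by linarith)]; exact hq
  have hL : ∀ z, lqw q W F z ^ (2 / q) ≤ ∑' i, c i ^ (2 / q) * lqw q W₀ F (z + a i) ^ (2 / q) := by
    intro z
    have hm : ∀ i, Measurable fun y : V × ℝ => ‖F y‖ₑ ^ q * W₀ (y - (z + a i)) := fun i =>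
      (hF.enorm.pow_const q).mul (hW₀.comp (measurable_id.sub_const _))
    have h1 : lqw q W F z ≤ ∑' i, c i * lqw q W₀ F (z + a i) := by
      unfold lqw
      calc ∫⁻ y, ‖F y‖ₑ ^ q * W (y - z) ≤ ∫⁻ y, ∑' i, c i * (‖F y‖ₑ ^ q * W₀ (y - (z + a i))) := by
            refine lintegral_mono fun y => ?_
            refine (mul_le_mul' le_rfl (hW (y - z))).trans (le_of_eq ?_)
            rw [← ENNReal.tsum_mul_left]
            refine tsum_congr fun i => ?_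
            rw [sub_sub]
            ring
        _ = ∑' i, ∫⁻ y, c i * (‖F y‖ₑ ^ q * W₀ (y - (z + a i))) :=
            lintegral_tsum (fun i => ((hm i).const_mul _).aemeasurable)
        _ = ∑' i, c i * ∫⁻ y, ‖F y‖ₑ ^ q * W₀ (y - (z + a i)) := tsum_congr fun i => lintegral_const_mul _ (hm i)
    calc lqw q W F z ^ (2 / q) ≤ (∑' i, c i * lqw q W₀ F (z + a i)) ^ (2 / q) := ENNReal.rpow_le_rpow h1 h2q
      _ ≤ ∑' i, (c i * lqw q W₀ F (z + a i)) ^ (2 / q) := dz_rpow_tsum_le h2q h2q1 _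
      _ = ∑' i, c i ^ (2 / q) * lqw q W₀ F (z + a i) ^ (2 / q) := tsum_congr fun i => ENNReal.mul_rpow_of_nonneg _ _ h2q
  have hmL := dz_measurable_lqw q hW₀ hF
  have hmJ : ∀ i, Measurable fun p : V × ℝ => Ω p * lqw q W₀ F (p + a i) ^ (2 / q) := fun i =>
    hΩ.mul ((hmL.comp (measurable_id.add_const _)).pow_const _)
  have key := dzw_outer_tsum hq (ENNReal.ofReal ρ⁻¹) (ENNReal.ofReal (ρ ^ (-(Module.finrank ℝ V : ℝ))))
    (fun t => ∫⁻ x : V, Ω (x, t) * lqw q W F (x, t) ^ (2 / q))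
    (fun i t => ∫⁻ x : V, Ω (x, t) * lqw q W₀ F ((x, t) + a i) ^ (2 / q)) (fun i => (hmJ i).lintegral_prod_left')
    (fun i => c i ^ (2 / q)) (fun t => by
      calc ∫⁻ x : V, Ω (x, t) * lqw q W F (x, t) ^ (2 / q)
          ≤ ∫⁻ x : V, ∑' i, c i ^ (2 / q) * (Ω (x, t) * lqw q W₀ F ((x, t) + a i) ^ (2 / q)) := by
            refine lintegral_mono fun x => ?_
            refine (mul_le_mul' le_rfl (hL (x, t))).trans (le_of_eq ?_)
            rw [← ENNReal.tsum_mul_left]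
            refine tsum_congr fun i => ?_
            ring
        _ = ∑' i, ∫⁻ x : V, c i ^ (2 / q) * (Ω (x, t) * lqw q W₀ F ((x, t) + a i) ^ (2 / q)) :=
            lintegral_tsum (fun i => (((hmJ i).comp measurable_prodMk_right).const_mul _).aemeasurable)
        _ = ∑' i, c i ^ (2 / q) * ∫⁻ x : V, Ω (x, t) * lqw q W₀ F ((x, t) + a i) ^ (2 / q) :=
            tsum_congr fun i => lintegral_const_mul _ ((hmJ i).comp measurable_prodMk_right))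
  unfold rsg
  refine key.trans (le_of_eq (tsum_congr fun i => ?_))
  have hx : ∀ t : ℝ, ∫⁻ x : V, Ω (x, t) * lqw q W₀ F ((x, t) + a i) ^ (2 / q)
      = ∫⁻ x : V, Ω ((x, t + (a i).2) - a i) * lqw q W₀ F (x, t + (a i).2) ^ (2 / q) := by
    intro t
    rw [← lintegral_add_right_eq_self (fun x : V => Ω ((x, t + (a i).2) - a i) * lqw q W₀ F (x, t + (a i).2) ^ (2 / q)) (a i).1]
    refine lintegral_congr fun x => ?_
    have e1 : ((x + (a i).1, t + (a i).2) : V × ℝ) - a i = (x, t) := by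
      ext <;> simp
    have e2 : ((x, t) : V × ℝ) + a i = (x + (a i).1, t + (a i).2) := by
      ext <;> simp
    rw [e1, e2]
  have ht := lintegral_add_right_eq_self (μ := (volume : Measure ℝ)) (fun t : ℝ => (ENNReal.ofReal (ρ ^ (-(Module.finrank ℝ V : ℝ))) *
    ∫⁻ x : V, Ω ((x, t) - a i) * lqw q W₀ F (x, t) ^ (2 / q)) ^ (q / 2)) (a i).2
  simp only [hx]
  rw [ht]

/-- **LEAF L-DZ-W3a: countable sums of centre weights** (~80 l.;  `lintegral_tsum`, `dz_minkowski_tsum` with `p = q/2`). -/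
theorem dz_rsg_trO {q : ℝ} (hq : 2 ≤ q) (ρ : ℝ) {Ω W : V × ℝ → ℝ≥0∞} (Ωs : ℕ → V × ℝ → ℝ≥0∞) (hΩs : ∀ i, Measurable (Ωs i)) (hW : Measurable W) {F : V × ℝ → ℂ} (hF : Measurable F)
    (c : ℕ → ℝ≥0∞) (hΩ : ∀ z, Ω z ≤ ∑' i, c i * Ωs i z) :
    rsg q ρ Ω W F ^ (2 / q) ≤ ∑' i, c i * rsg q ρ (Ωs i) W F ^ (2 / q) := by
  unfold rsg
  refine dzw_outer_tsum hq _ _ (fun t => ∫⁻ x : V, Ω (x, t) * lqw q W F (x, t) ^ (2 / q))
    (fun i t => ∫⁻ x : V, Ωs i (x, t) * lqw q W F (x, t) ^ (2 / q)) (fun i => dz_measurable_inner q (hΩs i) hW hF) c (fun t => ?_)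
  have hL := dzw_meas_L q hW hF t
  have hm : ∀ i, Measurable fun x : V => Ωs i (x, t) * lqw q W F (x, t) ^ (2 / q) := fun i =>
    ((hΩs i).comp measurable_prodMk_right).mul hL
  calc ∫⁻ x : V, Ω (x, t) * lqw q W F (x, t) ^ (2 / q)
      ≤ ∫⁻ x : V, ∑' i, c i * (Ωs i (x, t) * lqw q W F (x, t) ^ (2 / q)) := by
        refine lintegral_mono fun x => ?_
        refine (mul_le_mul' (hΩ (x, t)) le_rfl).trans (le_of_eq ?_)
        rw [← ENNReal.tsum_mul_right]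
        refine tsum_congr fun i => ?_
        ring
    _ = ∑' i, ∫⁻ x : V, c i * (Ωs i (x, t) * lqw q W F (x, t) ^ (2 / q)) :=
        lintegral_tsum (fun i => ((hm i).const_mul _).aemeasurable)
    _ = ∑' i, c i * ∫⁻ x : V, Ωs i (x, t) * lqw q W F (x, t) ^ (2 / q) := tsum_congr fun i => lintegral_const_mul _ (hm i)

/-- **LEAF L-DZ-W3b: finite sums of centre weights** (~60 l.;  `lintegral_finset_sum`, `BD.abs_minkowski` with the exponent `q/2`). -/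
theorem dz_rsg_sumO {q : ℝ} (hq : 2 ≤ q) (ρ : ℝ) {Ω W : V × ℝ → ℝ≥0∞} {ι : Type} (S : Finset ι) (Ωs : ι → V × ℝ → ℝ≥0∞) (hΩs : ∀ i ∈ S, Measurable (Ωs i)) (hW : Measurable W)
    {F : V × ℝ → ℂ} (hF : Measurable F) (hΩ : ∀ z, Ω z ≤ ∑ i ∈ S, Ωs i z) :
    rsg q ρ Ω W F ^ (2 / q) ≤ ∑ i ∈ S, rsg q ρ (Ωs i) W F ^ (2 / q) := by
  unfold rsg
  have key := dzw_outer_sum hq (ENNReal.ofReal ρ⁻¹) (ENNReal.ofReal (ρ ^ (-(Module.finrank ℝ V : ℝ)))) S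
    (fun t => ∫⁻ x : V, Ω (x, t) * lqw q W F (x, t) ^ (2 / q))
    (fun i t => ∫⁻ x : V, Ωs i (x, t) * lqw q W F (x, t) ^ (2 / q)) (fun i hi => dz_measurable_inner q (hΩs i hi) hW hF) 1
    (fun t => by
      have hL := dzw_meas_L q hW hF t
      have hm : ∀ i ∈ S, Measurable fun x : V => Ωs i (x, t) * lqw q W F (x, t) ^ (2 / q) := fun i hi =>
        ((hΩs i hi).comp measurable_prodMk_right).mul hL
      rw [one_mul, ← lintegral_finsetSum S hm]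
      refine lintegral_mono fun x => ?_
      rw [← Finset.sum_mul]
      exact mul_le_mul' (hΩ (x, t)) le_rfl)
  rw [one_mul] at key
  exact key

/-- **LEAF L-DZ-W3c: a pointwise decoupling inequality passes to the functional** (~60 l.;  as W3b). -/
theorem dz_rsg_dec {q : ℝ} (hq : 2 ≤ q) (ρ : ℝ) {Ω W : V × ℝ → ℝ≥0∞} (hΩ : Measurable Ω) (hW : Measurable W) {ι : Type} (S : Finset ι) (F : V × ℝ → ℂ) (Fs : ι → V × ℝ → ℂ)
    (hFs : ∀ J ∈ S, Measurable (Fs J)) (D : ℝ≥0∞) (h : ∀ z, lqw q W F z ^ (2 / q) ≤ D * ∑ J ∈ S, lqw q W (Fs J) z ^ (2 / q)) :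
    rsg q ρ Ω W F ^ (2 / q) ≤ D * ∑ J ∈ S, rsg q ρ Ω W (Fs J) ^ (2 / q) := by
  unfold rsg
  refine dzw_outer_sum hq (ENNReal.ofReal ρ⁻¹) (ENNReal.ofReal (ρ ^ (-(Module.finrank ℝ V : ℝ)))) S
    (fun t => ∫⁻ x : V, Ω (x, t) * lqw q W F (x, t) ^ (2 / q))
    (fun i t => ∫⁻ x : V, Ω (x, t) * lqw q W (Fs i) (x, t) ^ (2 / q)) (fun i hi => dz_measurable_inner q hΩ hW (hFs i hi)) D
    (fun t => ?_)
  have hm : ∀ i ∈ S, Measurable fun x : V => Ω (x, t) * lqw q W (Fs i) (x, t) ^ (2 / q) := fun i hi =>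
    (hΩ.comp measurable_prodMk_right).mul (dzw_meas_L q hW (hFs i hi) t)
  rw [← lintegral_finsetSum S hm, ← lintegral_const_mul _ (Finset.measurable_sum S hm)]
  refine lintegral_mono fun x => ?_
  refine (mul_le_mul' le_rfl (h (x, t))).trans (le_of_eq ?_)
  rw [Finset.mul_sum, Finset.mul_sum, Finset.mul_sum]
  refine Finset.sum_congr rfl fun i _ => ?_
  ring

/-! ## the lattice -/

theorem dzw_maxsep (X : Type) [PseudoMetricSpace X] :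
    ∃ S : Set X, (∀ a ∈ S, ∀ b ∈ S, a ≠ b → 1 < dist a b) ∧ ∀ y, ∃ a ∈ S, dist y a ≤ 1 := by
  classical
  obtain ⟨S, hS⟩ := zorn_subset {T : Set X | ∀ a ∈ T, ∀ b ∈ T, a ≠ b → 1 < dist a b} (by
    intro c hc hchain
    refine ⟨⋃₀ c, ?_, fun s hs => Set.subset_sUnion_of_mem hs⟩
    intro a ha b hb hab
    obtain ⟨T1, hT1, ha1⟩ := ha
    obtain ⟨T2, hT2, hb2⟩ := hb
    rcases hchain.total hT1 hT2 with h | h
    · exact hc hT2 a (h ha1) b hb2 hab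
    · exact hc hT1 a ha1 b (h hb2) hab)
  refine ⟨S, hS.prop, fun y => ?_⟩
  by_contra hcon
  push Not at hcon
  have hins : insert y S ∈ {T : Set X | ∀ a ∈ T, ∀ b ∈ T, a ≠ b → 1 < dist a b} := by
    intro a ha b hb hab
    rcases ha with rfl | ha <;> rcases hb with rfl | hb
    · exact absurd rfl hab
    · exact hcon b hb
    · rw [dist_comm]; exact hcon a ha
    · exact hS.prop a ha b hb hab
  have hy : y ∈ S := hS.le_of_ge hins (Set.subset_insert y S) (Set.mem_insert y S)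
  have h1 := hcon y hy
  rw [dist_self] at h1
  linarith

theorem dzw_pt {E : ℝ} (hE : 0 ≤ E) (a y : V × ℝ) (h : y ∈ closedBall a (1 / 2)) :
    ENNReal.ofReal ((1 + ‖a‖) ^ (-E)) ≤ ENNReal.ofReal ((3 / 2) ^ E) * wt E 1 y := by
  unfold wt
  rw [← ENNReal.ofReal_mul (by positivity)]
  apply ENNReal.ofReal_le_ofReal
  rw [mem_closedBall, dist_eq_norm] at h
  have h1 : ‖y‖ ≤ ‖a‖ + 1 / 2 := by
    have := norm_add_le (y - a) a
    rw [sub_add_cancel] at this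
    linarith
  have ha : 0 ≤ ‖a‖ := norm_nonneg a
  have hy : 0 ≤ ‖y‖ := norm_nonneg y
  have h2 : 1 + ‖y‖ / 1 ≤ 3 / 2 * (1 + ‖a‖) := by rw [div_one]; linarith
  have h3 : (3 / 2 * (1 + ‖a‖)) ^ (-E) ≤ (1 + ‖y‖ / 1) ^ (-E) :=
    Real.rpow_le_rpow_of_nonpos (by positivity) h2 (by linarith)
  rw [Real.mul_rpow (by norm_num) (by positivity)] at h3
  calc (1 + ‖a‖) ^ (-E) = (3 / 2 : ℝ) ^ E * ((3 / 2 : ℝ) ^ (-E) * (1 + ‖a‖) ^ (-E)) := by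
        rw [← mul_assoc, ← Real.rpow_add (by norm_num), add_neg_cancel, Real.rpow_zero, one_mul]
    _ ≤ (3 / 2 : ℝ) ^ E * (1 + ‖y‖ / 1) ^ (-E) := mul_le_mul_of_nonneg_left h3 (by positivity)

/-- **LEAF L-DZ-W4: a countable `1`-net of `V × ℝ` with summable weights** (~200 l.).
PLAN A.  `b = stdOrthonormalBasis ℝ V`, `N = k + 1`, points `(∑ i, ((m i : ℝ)/N) • b i, (j : ℝ))`, `(m, j) ∈ (Fin k → ℤ) × ℤ` (a denumerable type: `Denumerable.eqv` / `Encodable` + `Infinite`); net: round the coordinates, `‖x - ·‖ ≤ √k/(2N) ≤ 1`.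
The points are `1/N`-separated in the sup norm, so the balls of radius `1/(2N)` are disjoint;  `(1 + ‖a‖)^(-E) ≤ 2^E (1 + ‖y‖)^(-E)` on the ball;  `∑' ≤ 2^E vol(ball)⁻¹ ∫ (1 + ‖y‖)^(-E) < ⊤` (`lintegral_iUnion`-type bound, `BD.exists_lintegral_wt` with `R = 1`).
PLAN B.  any maximal `1`-separated subset (Zorn) is countable (separable space) and infinite. -/
theorem dz_lattice : ∃ a : ℕ → V × ℝ, (∀ y, ∃ i, ‖y - a i‖ ≤ 1) ∧ ∀ E : ℝ, (dd V : ℝ) < E → ∑' i, ENNReal.ofReal ((1 + ‖a i‖) ^ (-E)) < ⊤ := by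
  classical
  obtain ⟨S, hsep, hnet⟩ := dzw_maxsep (V × ℝ)
  have hcount : S.Countable := by
    have hd : S.PairwiseDisjoint (fun a => ball a (1 / 2)) := by
      intro a ha b hb hab
      exact ball_disjoint_ball (by have := hsep a ha b hb hab; linarith)
    exact hd.countable_of_isOpen (fun _ _ => isOpen_ball) (fun a _ => ⟨a, mem_ball_self (by norm_num)⟩)
  have hinf : S.Infinite := by
    intro hfin
    obtain ⟨M, hM⟩ := hfin.isBounded.exists_norm_le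
    obtain ⟨a, ha, hd⟩ := hnet ((0 : V), |M| + 2)
    have h1 := hM a ha
    rw [dist_eq_norm] at hd
    have h2 : ‖(((0 : V), |M| + 2) : V × ℝ)‖ ≤ ‖(((0 : V), |M| + 2) : V × ℝ) - a‖ + ‖a‖ := by
      have := norm_add_le ((((0 : V), |M| + 2) : V × ℝ) - a) a
      rwa [sub_add_cancel] at this
    have h3 : |M| + 2 ≤ ‖(((0 : V), |M| + 2) : V × ℝ)‖ := by
      have := norm_snd_le (((0 : V), |M| + 2) : V × ℝ)
      rw [Real.norm_eq_abs] at this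
      exact (le_abs_self _).trans this
    have h4 := le_abs_self M
    linarith
  haveI : Countable S := hcount.to_subtype
  haveI : Infinite S := hinf.to_subtype
  obtain ⟨e⟩ : Nonempty (ℕ ≃ S) := nonempty_equiv_of_countable
  refine ⟨fun i => (e i : V × ℝ), ?_, ?_⟩
  · intro y
    obtain ⟨a, ha, hd⟩ := hnet y
    refine ⟨e.symm ⟨a, ha⟩, ?_⟩
    rw [dist_eq_norm] at hd
    simpa using hd
  · intro E hE
    obtain ⟨c₁, hc₁, h₁⟩ := exists_lintegral_wt (V := V) hE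
    obtain ⟨c₂, hc₂, h₂⟩ := wt_vol_ball (V := V)
    have hE0 : 0 ≤ E := (Nat.cast_nonneg _).trans hE.le
    have hdisj : ∀ s : Finset ℕ, Set.PairwiseDisjoint (s : Set ℕ) (fun i => closedBall ((e i : V × ℝ)) (1 / 2)) := by
      intro s i _ i' _ hne
      have hne' : (e i : V × ℝ) ≠ (e i' : V × ℝ) := fun h => hne (e.injective (Subtype.ext h))
      exact closedBall_disjoint_closedBall (by have := hsep _ (e i).2 _ (e i').2 hne'; linarith)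
    have key : ∀ s : Finset ℕ, (∑ i ∈ s, ENNReal.ofReal ((1 + ‖(e i : V × ℝ)‖) ^ (-E))) * ENNReal.ofReal (c₂ * (1 / 2) ^ (dd V : ℝ))
        ≤ ENNReal.ofReal ((3 / 2) ^ E) * ENNReal.ofReal (c₁ * 1 ^ (dd V : ℝ)) := by
      intro s
      rw [Finset.sum_mul]
      calc ∑ i ∈ s, ENNReal.ofReal ((1 + ‖(e i : V × ℝ)‖) ^ (-E)) * ENNReal.ofReal (c₂ * (1 / 2) ^ (dd V : ℝ))
          = ∑ i ∈ s, ∫⁻ _y in closedBall ((e i : V × ℝ)) (1 / 2), ENNReal.ofReal ((1 + ‖(e i : V × ℝ)‖) ^ (-E)) := by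
            refine Finset.sum_congr rfl fun i _ => ?_
            rw [setLIntegral_const, h₂ _ _ (by norm_num)]
        _ ≤ ∑ i ∈ s, ∫⁻ y in closedBall ((e i : V × ℝ)) (1 / 2), ENNReal.ofReal ((3 / 2) ^ E) * wt E 1 y :=
            Finset.sum_le_sum fun i _ => setLIntegral_mono' measurableSet_closedBall (fun y hy => dzw_pt hE0 _ y hy)
        _ = ∫⁻ y in ⋃ i ∈ s, closedBall ((e i : V × ℝ)) (1 / 2), ENNReal.ofReal ((3 / 2) ^ E) * wt E 1 y :=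
            (lintegral_biUnion_finset (hdisj s) (fun _ _ => measurableSet_closedBall) _).symm
        _ ≤ ∫⁻ y, ENNReal.ofReal ((3 / 2) ^ E) * wt E 1 y := setLIntegral_le_lintegral _ _
        _ = ENNReal.ofReal ((3 / 2) ^ E) * ENNReal.ofReal (c₁ * 1 ^ (dd V : ℝ)) := by
            rw [lintegral_const_mul _ (measurable_wt E 1), h₁ 1 one_pos]
    have hv0 : ENNReal.ofReal (c₂ * (1 / 2) ^ (dd V : ℝ)) ≠ 0 := by
      rw [Ne, ENNReal.ofReal_eq_zero, not_le]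
      positivity
    have hvt : ENNReal.ofReal (c₂ * (1 / 2) ^ (dd V : ℝ)) ≠ ⊤ := ENNReal.ofReal_ne_top
    have hle : ∑' i, ENNReal.ofReal ((1 + ‖(e i : V × ℝ)‖) ^ (-E)) ≤
        ENNReal.ofReal ((3 / 2) ^ E) * ENNReal.ofReal (c₁ * 1 ^ (dd V : ℝ)) / ENNReal.ofReal (c₂ * (1 / 2) ^ (dd V : ℝ)) := by
      rw [ENNReal.tsum_eq_iSup_sum]
      refine iSup_le fun s => ?_
      rw [ENNReal.le_div_iff_mul_le (Or.inl hv0) (Or.inl hvt)]
      exact key s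
    exact lt_of_le_of_lt hle (ENNReal.div_lt_top (ENNReal.mul_ne_top ENNReal.ofReal_ne_top ENNReal.ofReal_ne_top) hv0)

/-- **LEAF L-DZ-W5a** (~50 l.).   choose `i` with `‖ρ⁻¹ y - a i‖ ≤ 1`: the `i`-th term is `2^E (1+‖a i‖)^(-E) ≥ (1 + ‖y‖/ρ)^(-E)` since `1 + ‖a i‖ ≤ 2 (1 + ‖y‖/ρ)`  (`ENNReal.le_tsum`). -/
theorem dz_wt_le_tsum {a : ℕ → V × ℝ} (ha : ∀ y, ∃ i, ‖y - a i‖ ≤ 1) {E ρ : ℝ} (hE : 0 ≤ E) (hρ : 0 < ρ) (y : V × ℝ) :
    wt E ρ y ≤ ∑' i, ENNReal.ofReal (2 ^ E * (1 + ‖a i‖) ^ (-E)) * bw ρ (y - ρ • a i) := by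
  obtain ⟨i, hi⟩ := ha (ρ⁻¹ • y)
  refine le_trans ?_ (ENNReal.le_tsum i)
  have e1 : y - ρ • a i = ρ • (ρ⁻¹ • y - a i) := by
    rw [smul_sub, smul_smul, mul_inv_cancel₀ hρ.ne', one_smul]
  have h1 : y - ρ • a i ∈ closedBall (0 : V × ℝ) ρ := by
    rw [mem_closedBall, dist_zero_right, e1, norm_smul, Real.norm_eq_abs, abs_of_pos hρ]
    calc ρ * ‖ρ⁻¹ • y - a i‖ ≤ ρ * 1 := mul_le_mul_of_nonneg_left hi hρ.le
      _ = ρ := mul_one ρ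
  unfold bw wt
  rw [Set.indicator_of_mem h1, Pi.one_apply, mul_one]
  apply ENNReal.ofReal_le_ofReal
  have h2 : ‖a i‖ ≤ ‖y‖ / ρ + 1 := by
    have h3 := norm_sub_le (ρ⁻¹ • y) (ρ⁻¹ • y - a i)
    rw [sub_sub_cancel, norm_smul, Real.norm_eq_abs, abs_of_pos (inv_pos.2 hρ)] at h3
    have e2 : ρ⁻¹ * ‖y‖ = ‖y‖ / ρ := by rw [div_eq_inv_mul]
    rw [e2] at h3
    linarith
  have hy : 0 ≤ ‖y‖ / ρ := by positivity
  have hai : 0 ≤ ‖a i‖ := norm_nonneg _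
  have h4 : 1 + ‖a i‖ ≤ 2 * (1 + ‖y‖ / ρ) := by linarith
  have h5 : (2 * (1 + ‖y‖ / ρ)) ^ (-E) ≤ (1 + ‖a i‖) ^ (-E) :=
    Real.rpow_le_rpow_of_nonpos (by positivity) h4 (by linarith)
  rw [Real.mul_rpow (by norm_num) (by positivity)] at h5
  calc (1 + ‖y‖ / ρ) ^ (-E) = (2 : ℝ) ^ E * ((2 : ℝ) ^ (-E) * (1 + ‖y‖ / ρ) ^ (-E)) := by
        rw [← mul_assoc, ← Real.rpow_add (by norm_num), add_neg_cancel, Real.rpow_zero, one_mul]
    _ ≤ (2 : ℝ) ^ E * (1 + ‖a i‖) ^ (-E) := mul_le_mul_of_nonneg_left h5 (by positivity)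

/-- **LEAF L-DZ-W5b** (~25 l.). -/
theorem dz_bw_le_wt {E ρ C : ℝ} (hE : 0 ≤ E) (hρ : 0 < ρ) (hC : 0 ≤ C) (y : V × ℝ) : bw (C * ρ) y ≤ ENNReal.ofReal ((1 + C) ^ E) * wt E ρ y := by
  unfold bw
  by_cases h : y ∈ closedBall (0 : V × ℝ) (C * ρ)
  · rw [Set.indicator_of_mem h, Pi.one_apply]
    rw [mem_closedBall, dist_zero_right] at h
    have h1 := wt_ge_of_le hE hρ h
    refine le_trans (le_of_eq ?_) (mul_le_mul' le_rfl h1)
    rw [← ENNReal.ofReal_mul (by positivity), ← Real.rpow_add (by positivity), add_neg_cancel, Real.rpow_zero, ENNReal.ofReal_one]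
  · rw [Set.indicator_of_notMem h]
    exact zero_le

/-- **LEAF L-DZ-W5c: Peetre for the local mass** (~40 l.;  `BD.wt_peetre`: `wt E R (y - (a + b)) * wt E R b ≤ wt E R (y - a)`, and `wt E R b * ofReal ((1+‖b‖/R)^E) = 1`). -/
theorem dz_lm_peetre {E R : ℝ} (hE : 0 ≤ E) (hR : 0 < R) (g : V → ℂ) (a b : V × ℝ) : MR.lm E R g (a + b) ≤ ENNReal.ofReal ((1 + ‖b‖ / R) ^ E) * MR.lm E R g a := by
  unfold MR.lm
  have key : ∫⁻ y, ‖MR.ext g y‖ₑ ^ (2 : ℝ) * wt E R (y - (a + b))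
      ≤ ENNReal.ofReal ((1 + ‖b‖ / R) ^ E) * ∫⁻ y, ‖MR.ext g y‖ₑ ^ (2 : ℝ) * wt E R (y - a) := by
    rw [← lintegral_const_mul' _ _ ENNReal.ofReal_ne_top]
    refine lintegral_mono fun y => ?_
    have h1 := wt_peetre hE hR (y - (a + b)) b
    have e1 : y - (a + b) + b = y - a := by abel
    rw [e1] at h1
    have hb : (0 : ℝ) < 1 + ‖b‖ / R := by positivity
    have e2 : wt E R b * ENNReal.ofReal ((1 + ‖b‖ / R) ^ E) = 1 := by
      unfold wt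
      rw [← ENNReal.ofReal_mul (by positivity), ← Real.rpow_add hb, neg_add_cancel, Real.rpow_zero, ENNReal.ofReal_one]
    calc ‖MR.ext g y‖ₑ ^ (2 : ℝ) * wt E R (y - (a + b))
        = ‖MR.ext g y‖ₑ ^ (2 : ℝ) * (wt E R (y - (a + b)) * (wt E R b * ENNReal.ofReal ((1 + ‖b‖ / R) ^ E))) := by
          rw [e2, mul_one]
      _ = ENNReal.ofReal ((1 + ‖b‖ / R) ^ E) * (‖MR.ext g y‖ₑ ^ (2 : ℝ) * (wt E R (y - (a + b)) * wt E R b)) := by ring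
      _ ≤ ENNReal.ofReal ((1 + ‖b‖ / R) ^ E) * (‖MR.ext g y‖ₑ ^ (2 : ℝ) * wt E R (y - a)) :=
          mul_le_mul' le_rfl (mul_le_mul' le_rfl h1)
  calc ENNReal.ofReal R⁻¹ * ∫⁻ y, ‖MR.ext g y‖ₑ ^ (2 : ℝ) * wt E R (y - (a + b))
      ≤ ENNReal.ofReal R⁻¹ * (ENNReal.ofReal ((1 + ‖b‖ / R) ^ E) * ∫⁻ y, ‖MR.ext g y‖ₑ ^ (2 : ℝ) * wt E R (y - a)) :=
        mul_le_mul' le_rfl key
    _ = ENNReal.ofReal ((1 + ‖b‖ / R) ^ E) * (ENNReal.ofReal R⁻¹ * ∫⁻ y, ‖MR.ext g y‖ₑ ^ (2 : ℝ) * wt E R (y - a)) := by ring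

/-! ## upgrades: sharp weights ⟹ polynomial weights -/

theorem dzw_finish {q : ℝ} (hq : 2 ≤ q) (X A P S : ℝ≥0∞) (hS : S < ⊤) (h : X ^ (2 / q) ≤ A ^ (2 / q) * P * S) :
    X ≤ ENNReal.ofReal ((S ^ (q / 2)).toReal) * A * P ^ (q / 2) := by
  obtain ⟨_, _, h2q, hq2, e⟩ := dzw_pq hq
  have e' : 2 / q * (q / 2) = 1 := by rw [mul_comm]; exact e
  have hS' : S ^ (q / 2) ≠ ⊤ := ENNReal.rpow_ne_top_of_nonneg hq2 hS.ne
  rw [ENNReal.ofReal_toReal hS']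
  have h1 := ENNReal.rpow_le_rpow h hq2
  rw [← ENNReal.rpow_mul, e', ENNReal.rpow_one, ENNReal.mul_rpow_of_nonneg _ _ hq2, ENNReal.mul_rpow_of_nonneg _ _ hq2,
    ← ENNReal.rpow_mul, e', ENNReal.rpow_one] at h1
  calc X ≤ A * P ^ (q / 2) * S ^ (q / 2) := h1
    _ = S ^ (q / 2) * A * P ^ (q / 2) := by ring

theorem dzw_root {q : ℝ} (hq : 2 ≤ q) (X A P : ℝ≥0∞) (h : X ≤ A * P ^ (q / 2)) : X ^ (2 / q) ≤ A ^ (2 / q) * P := by
  obtain ⟨_, _, h2q, hq2, e⟩ := dzw_pq hq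
  have h1 := ENNReal.rpow_le_rpow h h2q
  rwa [ENNReal.mul_rpow_of_nonneg _ _ h2q, ← ENNReal.rpow_mul, e, ENNReal.rpow_one] at h1

theorem dzw_series {a : ℕ → V × ℝ} (hs : ∀ E : ℝ, (dd V : ℝ) < E → ∑' i, ENNReal.ofReal ((1 + ‖a i‖) ^ (-E)) < ⊤) (B E' : ℝ)
    (hB : 0 ≤ B) (hE' : (dd V : ℝ) < E') : ∑' i, ENNReal.ofReal (B * (1 + ‖a i‖) ^ (-E')) < ⊤ := by
  simp only [ENNReal.ofReal_mul hB]
  rw [ENNReal.tsum_mul_left]
  exact ENNReal.mul_lt_top ENNReal.ofReal_lt_top (hs E' hE')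

/-- **LEAF L-DZ-W6: the cube weight** (~120 l.).
PLAN.  `a` of `dz_lattice`, `c_i = 2^E₁ (1+‖a i‖)^(-E₁)`; `dz_wt_le_tsum`, `dz_rsg_trW` with the translations `ρ • a i`:   `(fun z => bw R (z - ρ • a i - a)) = fun z => bw R (z - (a + ρ • a i))`;
`rsg(…)^(2/q) ≤ ∑' c_i^(2/q) (A Φ(a + ρ a_i)^(q/2))^(2/q) ≤ A^(2/q) Φ(a) ∑' c_i^(2/q) (1 + ‖a i‖)^E`   (`ρ ‖a i‖/R ≤ ‖a i‖`);   the series is `2^(2E₁/q) ∑' (1+‖a i‖)^(-(2E₁/q - E))`, finite.   Raise to the power `q/2`. -/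
theorem dz_rsl_polyW (q E E₁ : ℝ) (hq : 2 ≤ q) (hE : 0 ≤ E) (hE₁ : q / 2 * (E + (dd V : ℝ)) < E₁) : ∃ K : ℝ, ∀ (ρ R : ℝ) (F : V × ℝ → ℂ) (Φ : V × ℝ → ℝ≥0∞) (A : ℝ≥0∞),
    0 < ρ → ρ ≤ R → Measurable F → (∀ a b, Φ (a + b) ≤ ENNReal.ofReal ((1 + ‖b‖ / R) ^ E) * Φ a) →
    (∀ a, rsg q ρ (fun z => bw R (z - a)) (bw ρ) F ≤ A * Φ a ^ (q / 2)) →
    ∀ a, rsg q ρ (fun z => bw R (z - a)) (wt E₁ ρ) F ≤ ENNReal.ofReal K * A * Φ a ^ (q / 2) := by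
  obtain ⟨al, hnet, hsum⟩ := dz_lattice (V := V)
  obtain ⟨_, _, h2q, hq2, e⟩ := dzw_pq hq
  have hq0 : 0 < q := by linarith
  have hdd : (0 : ℝ) ≤ (dd V : ℝ) := Nat.cast_nonneg _
  have hE10 : 0 ≤ E₁ := le_trans (by positivity) hE₁.le
  have hE' : (dd V : ℝ) < E₁ * (2 / q) - E := by
    have h1 : (q / 2 * (E + (dd V : ℝ))) * (2 / q) < E₁ * (2 / q) := mul_lt_mul_of_pos_right hE₁ (by positivity)
    have e2 : (q / 2 * (E + (dd V : ℝ))) * (2 / q) = E + (dd V : ℝ) := by field_simp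
    linarith
  have hS := dzw_series hsum ((2 ^ E₁) ^ (2 / q)) (E₁ * (2 / q) - E) (by positivity) hE'
  refine ⟨((∑' i, ENNReal.ofReal ((2 ^ E₁) ^ (2 / q) * (1 + ‖al i‖) ^ (-(E₁ * (2 / q) - E)))) ^ (q / 2)).toReal, ?_⟩
  intro ρ R F Φ A hρ hρR hF hΦ hyp a
  have hR : 0 < R := lt_of_lt_of_le hρ hρR
  refine dzw_finish hq _ _ _ _ hS ?_
  have h1 := dz_rsg_trW hq ρ (Ω := fun z => bw R (z - a)) (W := wt E₁ ρ) (W₀ := bw ρ)
    ((dz_measurable_bw R).comp (measurable_id.sub_const _)) (dz_measurable_bw ρ) hF (fun i => ρ • al i)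
    (fun i => ENNReal.ofReal (2 ^ E₁ * (1 + ‖al i‖) ^ (-E₁))) (fun y => dz_wt_le_tsum hnet hE10 hρ y)
  refine h1.trans ?_
  rw [← ENNReal.tsum_mul_left]
  refine ENNReal.tsum_le_tsum fun i => ?_
  have e0 : (fun z : V × ℝ => bw R (z - ρ • al i - a)) = fun z => bw R (z - (a + ρ • al i)) := by
    funext z
    congr 1
    abel
  simp only [e0]
  have h2 := dzw_root hq _ _ _ (hyp (a + ρ • al i))
  have h3 := hΦ a (ρ • al i)
  have hu : (0 : ℝ) < 1 + ‖al i‖ := by positivity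
  have h4 : ENNReal.ofReal ((1 + ‖ρ • al i‖ / R) ^ E) ≤ ENNReal.ofReal ((1 + ‖al i‖) ^ E) := by
    refine ENNReal.ofReal_le_ofReal (Real.rpow_le_rpow (by positivity) ?_ hE)
    rw [norm_smul, Real.norm_eq_abs, abs_of_pos hρ]
    have : ρ * ‖al i‖ / R ≤ ‖al i‖ := by
      rw [div_le_iff₀ hR, mul_comm]
      exact mul_le_mul_of_nonneg_left hρR (norm_nonneg _)
    linarith
  calc ENNReal.ofReal (2 ^ E₁ * (1 + ‖al i‖) ^ (-E₁)) ^ (2 / q) * rsg q ρ (fun z => bw R (z - (a + ρ • al i))) (bw ρ) F ^ (2 / q)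
      ≤ ENNReal.ofReal (2 ^ E₁ * (1 + ‖al i‖) ^ (-E₁)) ^ (2 / q) * (A ^ (2 / q) * (ENNReal.ofReal ((1 + ‖al i‖) ^ E) * Φ a)) :=
        mul_le_mul' le_rfl (h2.trans (mul_le_mul' le_rfl (h3.trans (mul_le_mul' h4 le_rfl))))
    _ = A ^ (2 / q) * Φ a * (ENNReal.ofReal (2 ^ E₁ * (1 + ‖al i‖) ^ (-E₁)) ^ (2 / q) * ENNReal.ofReal ((1 + ‖al i‖) ^ E)) := by ring
    _ = A ^ (2 / q) * Φ a * ENNReal.ofReal ((2 ^ E₁) ^ (2 / q) * (1 + ‖al i‖) ^ (-(E₁ * (2 / q) - E))) := by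
        congr 1
        rw [ENNReal.ofReal_rpow_of_nonneg (by positivity) h2q, ← ENNReal.ofReal_mul (by positivity),
          Real.mul_rpow (by positivity) (by positivity), ← Real.rpow_mul hu.le, mul_assoc, ← Real.rpow_add hu]
        congr 3
        ring

/-- **LEAF L-DZ-W7: the centre weight** (~100 l.).    `dz_wt_le_tsum` at radius `R`, `dz_rsg_trO` with `Ωs i = fun z => bw R (z - (a + R • a i))`;  series `2^E₂ ∑' (1+‖a i‖)^(-(E₂ - E))`. -/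
theorem dz_rsl_polyO (q E E₂ : ℝ) (hq : 2 ≤ q) (hE : 0 ≤ E) (hE₂ : E + (dd V : ℝ) < E₂) : ∃ K : ℝ, ∀ (ρ R : ℝ) (W : V × ℝ → ℝ≥0∞) (F : V × ℝ → ℂ) (Φ : V × ℝ → ℝ≥0∞) (A : ℝ≥0∞),
    0 < R → Measurable W → Measurable F → (∀ a b, Φ (a + b) ≤ ENNReal.ofReal ((1 + ‖b‖ / R) ^ E) * Φ a) →
    (∀ a, rsg q ρ (fun z => bw R (z - a)) W F ≤ A * Φ a ^ (q / 2)) →
    ∀ a, rsg q ρ (fun z => wt E₂ R (z - a)) W F ≤ ENNReal.ofReal K * A * Φ a ^ (q / 2) := by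
  obtain ⟨al, hnet, hsum⟩ := dz_lattice (V := V)
  have hdd : (0 : ℝ) ≤ (dd V : ℝ) := Nat.cast_nonneg _
  have hE20 : 0 ≤ E₂ := by linarith
  have hS := dzw_series hsum (2 ^ E₂) (E₂ - E) (by positivity) (by linarith)
  refine ⟨((∑' i, ENNReal.ofReal (2 ^ E₂ * (1 + ‖al i‖) ^ (-(E₂ - E)))) ^ (q / 2)).toReal, ?_⟩
  intro ρ R W F Φ A hR hW hF hΦ hyp a
  refine dzw_finish hq _ _ _ _ hS ?_
  have h1 := dz_rsg_trO hq ρ (Ω := fun z => wt E₂ R (z - a)) (W := W) (fun i z => bw R (z - (a + R • al i)))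
    (fun i => (dz_measurable_bw R).comp (measurable_id.sub_const _)) hW hF
    (fun i => ENNReal.ofReal (2 ^ E₂ * (1 + ‖al i‖) ^ (-E₂))) (fun z => by
      have := dz_wt_le_tsum hnet hE20 hR (z - a)
      simpa only [sub_sub] using this)
  refine h1.trans ?_
  rw [← ENNReal.tsum_mul_left]
  refine ENNReal.tsum_le_tsum fun i => ?_
  have h2 := dzw_root hq _ _ _ (hyp (a + R • al i))
  have h3 := hΦ a (R • al i)
  have hu : (0 : ℝ) < 1 + ‖al i‖ := by positivity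
  have e1 : ‖R • al i‖ / R = ‖al i‖ := by
    rw [norm_smul, Real.norm_eq_abs, abs_of_pos hR]
    field_simp
  rw [e1] at h3
  calc ENNReal.ofReal (2 ^ E₂ * (1 + ‖al i‖) ^ (-E₂)) * rsg q ρ (fun z => bw R (z - (a + R • al i))) W F ^ (2 / q)
      ≤ ENNReal.ofReal (2 ^ E₂ * (1 + ‖al i‖) ^ (-E₂)) * (A ^ (2 / q) * (ENNReal.ofReal ((1 + ‖al i‖) ^ E) * Φ a)) :=
        mul_le_mul' le_rfl (h2.trans (mul_le_mul' le_rfl h3))
    _ = A ^ (2 / q) * Φ a * (ENNReal.ofReal (2 ^ E₂ * (1 + ‖al i‖) ^ (-E₂)) * ENNReal.ofReal ((1 + ‖al i‖) ^ E)) := by ring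
    _ = A ^ (2 / q) * Φ a * ENNReal.ofReal (2 ^ E₂ * (1 + ‖al i‖) ^ (-(E₂ - E))) := by
        congr 1
        rw [← ENNReal.ofReal_mul (by positivity), mul_assoc, ← Real.rpow_add hu]
        congr 3
        ring

end Claimed.Agent.DZ
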