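import Claimed.Agent.Lib.DZ.Ex
import Claimed.Agent.Lib.DZ.Wl
import Claimed.Agent.Lib.BD.Top

/-!
# Box DZ, file Rs: the LOCAL REFINED STRICHARTZ estimate `RSL` (`dz_rsl : RslPow V`).      CONTRACT (captain helper3)
PAPER-FREE.  Every `sorry` is a leaf `L-DZ-R*`.  Statements are frozen (tell helper3 at once if one looks false or awkward); auxiliary lemmas (prefix `dzr_`) directly above your theorem; edit only your block.

SCALES of one step (`r ≥ 1`):   cube radius `ρ = r²`, radius `R = r⁴`, cells `δ = r⁻²`, clusters `σ = r⁻¹`, `L = Lam u σ σ²` (`L (x,t) = (σ (x + 2 t u), σ² t)`).   New scales: cube radius `r = σ ρ`, radius `r² = σ² R`, cells `r⁻¹ = δ/σ`.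
`q = qq V = 2(k+2)/k`, `k q/2 = k + 2`:  the `L^q` norms are EXACTLY invariant.   `C₂ = 1 + 2 C₀`.
CHAIN for one cluster (`dz_rs_cluster`):   `rsg q r² (1_{B(a,r⁴)}) (1_{B(0,r²)}) F  ≤ [dz_bw_le_pw, dz_rsg_rsc]  r · rsg q r (pw (C₂ r³) r² (· - La)) (pw (C₂ r) 1) H  ≤ [dz_stack]  2 rsg q r (pw (C₂ r³) (r² + r) (· - La)) (bw ((C₂+1) r)) H`
`≤ [dz_bw_le_wt, dz_cover, dz_rsg_sumO]  (∑_{(b,e)} rsg q r (bw r² (· - (b, ·))) (wt E₁ r) H ^(2/q))^(q/2)  ≤ [dz_rsl_polyW, hypothesis at r]  K A' (∑_{(b,e)} ∑_j lm E' r² (h_j) (b,·))^(q/2)  ≤ [dz_lm_cover]  K A' (∑_j lm E r⁴ (G j) a)^(q/2)`.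
-/

set_option autoImplicit false
open MeasureTheory Set Metric
open scoped ENNReal NNReal RealInnerProductSpace

namespace Claimed.Agent.DZ

open Claimed.Agent.BD

variable {V : Type} [NormedAddCommGroup V] [InnerProductSpace ℝ V] [FiniteDimensional ℝ V] [MeasurableSpace V] [BorelSpace V]

/-! ## numerology -/

/-- **LEAF L-DZ-R0** (~30 l.). -/
theorem dz_qq (hk : 1 ≤ Module.finrank ℝ V) : 2 < qq V ∧ qq V ≤ 6 ∧ (Module.finrank ℝ V : ℝ) * qq V / 2 = (Module.finrank ℝ V : ℝ) + 2 ∧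
    qq V / 2 = 1 + 2 / (Module.finrank ℝ V : ℝ) ∧ 2 / qq V = (Module.finrank ℝ V : ℝ) / ((Module.finrank ℝ V : ℝ) + 2) := by
  have hk' : (1 : ℝ) ≤ (Module.finrank ℝ V : ℝ) := by exact_mod_cast hk
  unfold qq
  generalize (Module.finrank ℝ V : ℝ) = k at hk'
  have hk0 : 0 < k := by linarith
  refine ⟨?_, ?_, ?_, ?_, ?_⟩
  · rw [lt_div_iff₀ hk0]
    linarith
  · rw [div_le_iff₀ hk0]
    linarith
  · field_simp
  · field_simp
  · field_simp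

/-! ## rescaling -/

/-- dilation, arbitrary functions -/
theorem dzr_lint_smul {W : Type} [NormedAddCommGroup W] [InnerProductSpace ℝ W] [FiniteDimensional ℝ W] [MeasurableSpace W] [BorelSpace W]
    {σ : ℝ} (hσ : 0 < σ) (g : W → ℝ≥0∞) :
    ∫⁻ x, g (σ • x) = ENNReal.ofReal ((σ ^ Module.finrank ℝ W)⁻¹) * ∫⁻ x, g x := by
  have h := (measurableEmbedding_const_smul₀ (α := W) hσ.ne').lintegral_map (μ := volume) g
  rw [Measure.map_addHaar_smul _ hσ.ne', lintegral_smul_measure, abs_of_pos (by positivity)] at h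
  exact h.symm

/-- **LEAF L-DZ-R1a: exact invariance of the local `L^q` norms** (~60 l.;  `BD.bdlc_Lam_sub`, `BD.lintegral_Lam` for `f y' = ‖H y'‖ₑ^q * W' (y' - L z)`, `ENNReal.mul_rpow_of_nonneg`, `σ^(kq/2) (σ^k σ²)⁻¹ = 1` by `dz_qq`). -/
theorem dz_lqw_rsc (hk : 1 ≤ Module.finrank ℝ V) (u : V) {σ : ℝ} (hσ : 0 < σ) {F H : V × ℝ → ℂ}
    (hFH : ∀ y, ‖F y‖ₑ = ENNReal.ofReal (σ ^ ((Module.finrank ℝ V : ℝ) / 2)) * ‖H (Lam u σ (σ ^ 2) y)‖ₑ) (W' : V × ℝ → ℝ≥0∞) (z : V × ℝ) :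
    lqw (qq V) (fun y => W' (Lam u σ (σ ^ 2) y)) F z = lqw (qq V) W' H (Lam u σ (σ ^ 2) z) := by
  obtain ⟨hq2, _, hq3, _, _⟩ := dz_qq (V := V) hk
  have hq0 : 0 ≤ qq V := by linarith
  unfold lqw
  have h1 := lintegral_Lam u hσ (by positivity : 0 < σ ^ 2) (fun y' => ‖H y'‖ₑ ^ qq V * W' (y' - Lam u σ (σ ^ 2) z))
  have e : ∀ y, ‖F y‖ₑ ^ qq V * W' (Lam u σ (σ ^ 2) (y - z))
      = ENNReal.ofReal (σ ^ ((Module.finrank ℝ V : ℝ) + 2)) * (‖H (Lam u σ (σ ^ 2) y)‖ₑ ^ qq V * W' (Lam u σ (σ ^ 2) y - Lam u σ (σ ^ 2) z)) := by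
    intro y
    rw [hFH, ENNReal.mul_rpow_of_nonneg _ _ hq0, ENNReal.ofReal_rpow_of_nonneg (by positivity) hq0, ← Real.rpow_mul hσ.le,
      bdlc_Lam_sub, mul_assoc]
    congr 3
    rw [← hq3]
    ring
  simp only [e]
  rw [lintegral_const_mul' _ _ ENNReal.ofReal_ne_top, h1, ← mul_assoc, ← ENNReal.ofReal_mul (by positivity)]
  have e2 : σ ^ ((Module.finrank ℝ V : ℝ) + 2) * (σ ^ Module.finrank ℝ V * σ ^ 2)⁻¹ = 1 := by
    rw [Real.rpow_add hσ, Real.rpow_natCast, Real.rpow_ofNat]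
    field_simp
  rw [e2, ENNReal.ofReal_one, one_mul]

/-- **LEAF L-DZ-R1b: rescaling of the functional** (~120 l.).
PLAN.  `Ψ z' = Ω' z' * lqw q W' H z' ^ (2/q)` (`dz_lqw_rsc`).   For fixed `t`: `∫ Ψ (σ (x + 2tu), σ² t) dx = σ^(-k) ∫ Ψ (x', σ² t) dx'` (translation `lintegral_add_right_eq_self`, dilation: `Measure.addHaar_smul`/`MeasurableEquiv`/`lintegral_map_equiv`, true for every function);
`∫ J (σ² t) dt = σ^(-2) ∫ J`;   `ρ⁻¹ σ^(-2) = σ⁻¹ (σ ρ)⁻¹`, `ρ^(-k) σ^(-k) = (σ ρ)^(-k)`. -/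
theorem dz_rsg_rsc (hk : 1 ≤ Module.finrank ℝ V) (u : V) {σ ρ : ℝ} (hσ : 0 < σ) (hρ : 0 < ρ) {F H : V × ℝ → ℂ}
    (hFH : ∀ y, ‖F y‖ₑ = ENNReal.ofReal (σ ^ ((Module.finrank ℝ V : ℝ) / 2)) * ‖H (Lam u σ (σ ^ 2) y)‖ₑ) (Ω' W' : V × ℝ → ℝ≥0∞) :
    rsg (qq V) ρ (fun z => Ω' (Lam u σ (σ ^ 2) z)) (fun y => W' (Lam u σ (σ ^ 2) y)) F = ENNReal.ofReal σ⁻¹ * rsg (qq V) (σ * ρ) Ω' W' H := by
  unfold rsg
  simp only [dz_lqw_rsc hk u hσ hFH]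
  set Ψ : V × ℝ → ℝ≥0∞ := fun z' => Ω' z' * lqw (qq V) W' H z' ^ (2 / qq V) with hΨ
  have hin : ∀ t : ℝ, ∫⁻ x : V, Ψ (Lam u σ (σ ^ 2) (x, t))
      = ENNReal.ofReal ((σ ^ Module.finrank ℝ V)⁻¹) * ∫⁻ x : V, Ψ (x, σ ^ 2 • t) := by
    intro t
    have h1 := lintegral_add_right_eq_self (μ := (volume : Measure V)) (fun x : V => Ψ (σ • x, σ ^ 2 * t)) ((2 * t) • u)
    have h2 := dzr_lint_smul hσ (fun x : V => Ψ (x, σ ^ 2 * t))
    simp only [Lam, smul_eq_mul]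
    rw [h1, h2]
  have e1 : ∀ t : ℝ, ENNReal.ofReal (ρ ^ (-(Module.finrank ℝ V : ℝ))) * ∫⁻ x : V, Ω' (Lam u σ (σ ^ 2) (x, t)) * lqw (qq V) W' H (Lam u σ (σ ^ 2) (x, t)) ^ (2 / qq V)
      = ENNReal.ofReal ((σ * ρ) ^ (-(Module.finrank ℝ V : ℝ))) * ∫⁻ x : V, Ψ (x, σ ^ 2 • t) := by
    intro t
    have := hin t
    simp only [hΨ] at this ⊢
    rw [this, ← mul_assoc, ← ENNReal.ofReal_mul (by positivity)]
    congr 2
    rw [Real.mul_rpow hσ.le hρ.le, Real.rpow_neg hσ.le, Real.rpow_natCast, mul_comm]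
  simp only [e1]
  have h3 := dzr_lint_smul (W := ℝ) (by positivity : 0 < σ ^ 2)
    (fun t : ℝ => (ENNReal.ofReal ((σ * ρ) ^ (-(Module.finrank ℝ V : ℝ))) * ∫⁻ x : V, Ψ (x, t)) ^ (qq V / 2))
  rw [h3, ← mul_assoc, ← mul_assoc, ← ENNReal.ofReal_mul (by positivity), ← ENNReal.ofReal_mul (by positivity)]
  congr 2
  rw [Module.finrank_self, pow_one]
  field_simp

/-- **LEAF L-DZ-R1c: the image of a ball lies in a plate** (~30 l.). -/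
theorem dz_bw_le_pw {C₀ σ r : ℝ} {u : V} (hu : ‖u‖ ≤ C₀) (hσ : 0 < σ) (y : V × ℝ) :
    bw r y ≤ pw ((1 + 2 * C₀) * (σ * r)) (σ ^ 2 * r) (Lam u σ (σ ^ 2) y) := by
  unfold bw pw
  by_cases hy : y ∈ closedBall (0 : V × ℝ) r
  · rw [indicator_of_mem hy]
    rw [mem_closedBall_zero_iff, Prod.norm_def, max_le_iff, Real.norm_eq_abs] at hy
    obtain ⟨h1, h2⟩ := hy
    have hr : 0 ≤ r := (norm_nonneg _).trans h1
    have hmem : Lam u σ (σ ^ 2) y ∈ {y : V × ℝ | ‖y.1‖ ≤ (1 + 2 * C₀) * (σ * r) ∧ |y.2| ≤ σ ^ 2 * r} := ?_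
    · rw [indicator_of_mem hmem]
      exact le_rfl
    refine ⟨?_, ?_⟩
    · simp only [Lam]
      rw [norm_smul, Real.norm_eq_abs, abs_of_pos hσ]
      have h3 : ‖y.1 + (2 * y.2) • u‖ ≤ r + 2 * r * C₀ := by
        refine (norm_add_le _ _).trans (add_le_add h1 ?_)
        rw [norm_smul, Real.norm_eq_abs, abs_mul, abs_two]
        exact mul_le_mul (by linarith) hu (norm_nonneg _) (by positivity)
      calc σ * ‖y.1 + (2 * y.2) • u‖ ≤ σ * (r + 2 * r * C₀) := mul_le_mul_of_nonneg_left h3 hσ.le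
        _ = _ := by ring
    · simp only [Lam]
      rw [abs_mul, abs_of_pos (by positivity : 0 < σ ^ 2)]
      exact mul_le_mul_of_nonneg_left h2 (by positivity)
  · rw [indicator_of_notMem hy]
    exact zero_le

/-- **LEAF L-DZ-R1d: rescaling of the local mass** (~60 l.;  `dz_ext_rsc`, `BD.norm_ch`, `BD.lintegral_Lam`:  `(σ² R)⁻¹ σ^(k+2) σ^(-k) = R⁻¹`). -/
theorem dz_lm_rsc (u : V) {σ R : ℝ} (hσ : 0 < σ) (hR : 0 < R) (E' : ℝ) (g : V → ℂ) (a' : V × ℝ) :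
    MR.lm E' (σ ^ 2 * R) (rsc u σ g) a' = ENNReal.ofReal R⁻¹ * ∫⁻ y, ‖MR.ext g y‖ₑ ^ (2 : ℝ) * wt E' (σ ^ 2 * R) (Lam u σ (σ ^ 2) y - a') := by
  unfold MR.lm
  have h1 := lintegral_Lam u hσ (by positivity : 0 < σ ^ 2) (fun y' => ‖MR.ext (rsc u σ g) y'‖ₑ ^ (2 : ℝ) * wt E' (σ ^ 2 * R) (y' - a'))
  have e : ∀ y, ‖MR.ext g y‖ₑ ^ (2 : ℝ) * wt E' (σ ^ 2 * R) (Lam u σ (σ ^ 2) y - a')
      = ENNReal.ofReal (σ ^ Module.finrank ℝ V) * (‖MR.ext (rsc u σ g) (Lam u σ (σ ^ 2) y)‖ₑ ^ (2 : ℝ) * wt E' (σ ^ 2 * R) (Lam u σ (σ ^ 2) y - a')) := by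
    intro y
    rw [dz_ext_rsc u hσ g y, enorm_mul, enorm_mul, ← ofReal_norm (ch _), norm_ch, ENNReal.ofReal_one, one_mul,
      ← ofReal_norm (Complex.ofReal _), Complex.norm_real, Real.norm_eq_abs, abs_of_pos (by positivity),
      ENNReal.mul_rpow_of_nonneg _ _ (by norm_num), ENNReal.ofReal_rpow_of_nonneg (by positivity) (by norm_num), ← Real.rpow_mul hσ.le,
      mul_assoc]
    congr 2
    rw [← Real.rpow_natCast]
    congr 1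
    ring
  simp only [e]
  rw [lintegral_const_mul' _ _ ENNReal.ofReal_ne_top, h1, ← mul_assoc, ← mul_assoc, ← ENNReal.ofReal_mul (by positivity),
    ← ENNReal.ofReal_mul (by positivity)]
  congr 2
  field_simp

/-! ## stacking of unit plates -/

open Claimed.Agent.BD Claimed.Agent.DZ

variable {V : Type} [NormedAddCommGroup V] [InnerProductSpace ℝ V] [FiniteDimensional ℝ V] [MeasurableSpace V] [BorelSpace V]

/-- pointwise comparison of the plate at height `t ∈ J` with the ball at height `t''` -/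
theorem dzr_win_pt {ρ' C₂ : ℝ} (hρ' : 1 ≤ ρ') (hC₂ : 1 ≤ C₂) (τ t'' t : ℝ) (ht'' : t'' ∈ Icc τ (τ + ρ')) (ht : t ∈ Icc τ (τ + ρ')) (x : V) (y : V × ℝ) :
    pw (C₂ * ρ') 1 (y - (x, t)) ≤ bw ((C₂ + 1) * ρ') (y - (x, t'')) * (Icc (y.2 - 1) (y.2 + 1)).indicator 1 t := by
  unfold pw
  by_cases h : y - (x, t) ∈ {y : V × ℝ | ‖y.1‖ ≤ C₂ * ρ' ∧ |y.2| ≤ 1}
  · rw [indicator_of_mem h]
    obtain ⟨h1, h2⟩ := h
    simp only [Prod.fst_sub, Prod.snd_sub] at h1 h2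
    rw [abs_le] at h2
    have m1 : t ∈ Icc (y.2 - 1) (y.2 + 1) := ⟨by linarith [h2.2], by linarith [h2.1]⟩
    have m2 : y - (x, t'') ∈ closedBall (0 : V × ℝ) ((C₂ + 1) * ρ') := by
      rw [mem_closedBall_zero_iff, Prod.norm_def, max_le_iff, Real.norm_eq_abs]
      simp only [Prod.fst_sub, Prod.snd_sub]
      constructor
      · nlinarith
      · rw [abs_le]
        have h3 : 2 * ρ' ≤ (C₂ + 1) * ρ' := by nlinarith
        constructor <;> linarith [ht''.1, ht''.2, ht.1, ht.2, h2.1, h2.2]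
    unfold bw
    rw [indicator_of_mem m1, indicator_of_mem m2]
    simp
  · rw [indicator_of_notMem h]
    exact zero_le

/-- Tonelli: the time average of the plates is dominated by the ball -/
theorem dzr_win_tonelli (q : ℝ) {ρ' C₂ : ℝ} (hρ' : 1 ≤ ρ') (hC₂ : 1 ≤ C₂) {H : V × ℝ → ℂ} (hH : Measurable H)
    (τ t'' : ℝ) (ht : t'' ∈ Icc τ (τ + ρ')) (x : V) :
    ∫⁻ t in Icc τ (τ + ρ'), lqw q (pw (C₂ * ρ') 1) H (x, t) ≤ 2 * lqw q (bw ((C₂ + 1) * ρ')) H (x, t'') := by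
  unfold lqw
  have hm : Measurable (Function.uncurry fun (t : ℝ) (y : V × ℝ) => ‖H y‖ₑ ^ q * pw (C₂ * ρ') 1 (y - (x, t))) := by
    refine Measurable.mul ?_ ?_
    · exact (hH.comp measurable_snd).enorm.pow_const _
    · exact (dz_measurable_pw _ _).comp (measurable_snd.sub (measurable_const.prodMk measurable_fst))
  rw [lintegral_lintegral_swap hm.aemeasurable, ← lintegral_const_mul' _ _ (by norm_num)]
  refine lintegral_mono fun y => ?_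
  simp only
  calc ∫⁻ t in Icc τ (τ + ρ'), ‖H y‖ₑ ^ q * pw (C₂ * ρ') 1 (y - (x, t))
      ≤ ∫⁻ t in Icc τ (τ + ρ'), (‖H y‖ₑ ^ q * bw ((C₂ + 1) * ρ') (y - (x, t''))) * (Icc (y.2 - 1) (y.2 + 1)).indicator 1 t := by
        refine setLIntegral_mono' measurableSet_Icc fun t ht' => ?_
        rw [mul_assoc]
        exact mul_le_mul_right (dzr_win_pt hρ' hC₂ τ t'' t ht ht' x y) _
    _ ≤ ∫⁻ t, (‖H y‖ₑ ^ q * bw ((C₂ + 1) * ρ') (y - (x, t''))) * (Icc (y.2 - 1) (y.2 + 1)).indicator 1 t :=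
        setLIntegral_le_lintegral _ _
    _ = (‖H y‖ₑ ^ q * bw ((C₂ + 1) * ρ') (y - (x, t''))) * 2 := by
        rw [lintegral_const_mul _ (measurable_one.indicator measurableSet_Icc), lintegral_indicator_one measurableSet_Icc, Real.volume_Icc]
        congr 1
        have : y.2 + 1 - (y.2 - 1) = 2 := by ring
        rw [this]
        simp
    _ = _ := mul_comm _ _

/-- **LEAF L-DZ-R2a: one window** (~200 l.).    `P (x,t) = lqw q (pw (C₂ ρ') 1) H (x,t)`.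
(1) MINKOWSKI (`dz_minkowski_int`, `s = q/2`, `μ` = volume of `V`, `ν` = volume restricted to `Icc τ (τ + ρ')`, `f x t = ω x * P(x,t)^(2/q)`):   `(∫_J (∫ ω P^(2/q) dx)^(q/2) dt)^(2/q) ≤ ∫ ω(x) (∫_J P(x,t) dt)^(2/q) dx`.
(2) Tonelli: `∫_J P(x,t) dt = ∫ |H y|^q 1_{‖y.1 - x‖ ≤ C₂ ρ'} |{t ∈ J : |y.2 - t| ≤ 1}| dy ≤ 2 ∫ |H y|^q 1_{‖y.1 - x‖ ≤ C₂ ρ', y.2 ∈ [τ - 1, τ + ρ' + 1]} dy ≤ 2 lqw q (bw ((C₂+1) ρ')) H (x, t'')`   since `|y.2 - t''| ≤ ρ' + 1 ≤ 2 ρ' ≤ (C₂+1) ρ'`.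
(3) `(2 X)^(2/q)` and the power `q/2` give the factor `2`. -/
theorem dz_stack_window {q : ℝ} (hq : 2 ≤ q) {ρ' C₂ : ℝ} (hρ' : 1 ≤ ρ') (hC₂ : 1 ≤ C₂) {H : V × ℝ → ℂ} (hH : Measurable H) {ω : V → ℝ≥0∞} (hω : Measurable ω) (B : ℝ≥0∞)
    (τ t'' : ℝ) (ht : t'' ∈ Icc τ (τ + ρ')) :
    ∫⁻ t in Icc τ (τ + ρ'), (B * ∫⁻ x : V, ω x * lqw q (pw (C₂ * ρ') 1) H (x, t) ^ (2 / q)) ^ (q / 2)
      ≤ 2 * (B * ∫⁻ x : V, ω x * lqw q (bw ((C₂ + 1) * ρ')) H (x, t'') ^ (2 / q)) ^ (q / 2) := by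
  have hs : 1 ≤ q / 2 := by linarith
  have hs0 : 0 < q / 2 := by linarith
  have hqs : 2 / q = 1 / (q / 2) := by field_simp
  have hinv : 2 / q * (q / 2) = 1 := by field_simp
  have hinv0 : 0 ≤ 2 / q := by positivity
  set f : V → ℝ → ℝ≥0∞ := fun x t => ω x * lqw q (pw (C₂ * ρ') 1) H (x, t) ^ (2 / q) with hf
  have hfm : Measurable (Function.uncurry f) := by
    refine Measurable.mul (hω.comp measurable_fst) ?_
    exact ((dz_measurable_lqw q (dz_measurable_pw _ _) hH).comp (measurable_fst.prodMk measurable_snd)).pow_const _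
  have key := dz_minkowski_int (volume : Measure V) (volume.restrict (Icc τ (τ + ρ'))) hs f hfm
  -- the right side
  have hR : ∫⁻ x : V, (∫⁻ t in Icc τ (τ + ρ'), f x t ^ (q / 2)) ^ (1 / (q / 2))
      ≤ 2 ^ (2 / q) * ∫⁻ x : V, ω x * lqw q (bw ((C₂ + 1) * ρ')) H (x, t'') ^ (2 / q) := by
    rw [← lintegral_const_mul' _ _ (ENNReal.rpow_ne_top_of_nonneg hinv0 (by norm_num))]
    refine lintegral_mono fun x => ?_
    simp only [hf]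
    have e1 : ∀ t : ℝ, (ω x * lqw q (pw (C₂ * ρ') 1) H (x, t) ^ (2 / q)) ^ (q / 2)
        = ω x ^ (q / 2) * lqw q (pw (C₂ * ρ') 1) H (x, t) := by
      intro t
      rw [ENNReal.mul_rpow_of_nonneg _ _ hs0.le, ← ENNReal.rpow_mul, hinv, ENNReal.rpow_one]
    simp only [e1]
    have hmt : Measurable fun t : ℝ => lqw q (pw (C₂ * ρ') 1) H (x, t) :=
      (dz_measurable_lqw q (dz_measurable_pw _ _) hH).comp (measurable_const.prodMk measurable_id)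
    rw [lintegral_const_mul _ hmt, ← hqs, ENNReal.mul_rpow_of_nonneg _ _ hinv0, ← ENNReal.rpow_mul, mul_comm (q / 2), hinv,
      ENNReal.rpow_one, mul_left_comm]
    refine mul_le_mul_right ?_ _
    rw [← ENNReal.mul_rpow_of_nonneg _ _ hinv0]
    exact ENNReal.rpow_le_rpow (dzr_win_tonelli q hρ' hC₂ hH τ t'' ht x) hinv0
  have key2 := ENNReal.rpow_le_rpow (key.trans hR) hs0.le
  rw [← ENNReal.rpow_mul, one_div, inv_mul_cancel₀ hs0.ne', ENNReal.rpow_one, ENNReal.mul_rpow_of_nonneg _ _ hs0.le,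
    ← ENNReal.rpow_mul, hinv, ENNReal.rpow_one] at key2
  simp only [ENNReal.mul_rpow_of_nonneg _ _ hs0.le]
  have hmB : Measurable fun t : ℝ => (∫⁻ x : V, f x t) ^ (q / 2) :=
    (Measurable.lintegral_prod_left' hfm).pow_const _
  rw [lintegral_const_mul _ hmB, mul_left_comm]
  exact mul_le_mul_right key2 _

open Claimed.Agent.BD Claimed.Agent.DZ

variable {V : Type} [NormedAddCommGroup V] [InnerProductSpace ℝ V] [FiniteDimensional ℝ V] [MeasurableSpace V] [BorelSpace V]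

theorem dzr_meas_abs (c T : ℝ) : MeasurableSet {t : ℝ | |t - c| ≤ T} :=
  measurableSet_le (by fun_prop) measurable_const

/-- sliding windows (continuous version of the tiling) -/
theorem dzr_slide {φ ψ : ℝ → ℝ≥0∞} (hφ : Measurable φ) {ρ' : ℝ} (hρ' : 0 ≤ ρ') (c T : ℝ)
    (hwin : ∀ τ, ∫⁻ t in Icc τ (τ + ρ'), φ t ≤ 2 * ψ τ) :
    ENNReal.ofReal ρ' * ∫⁻ t in {t : ℝ | |t - c| ≤ T}, φ t ≤ 2 * ∫⁻ t in {t : ℝ | |t - c| ≤ T + ρ'}, ψ t := by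
  have hA : ENNReal.ofReal ρ' * ∫⁻ t in {t : ℝ | |t - c| ≤ T}, φ t
      = ∫⁻ t in {t : ℝ | |t - c| ≤ T}, ∫⁻ τ, (Icc (t - ρ') t).indicator (fun _ => φ t) τ := by
    rw [← lintegral_const_mul' _ _ ENNReal.ofReal_ne_top]
    refine lintegral_congr fun t => ?_
    rw [lintegral_indicator_const measurableSet_Icc, Real.volume_Icc, mul_comm]
    congr 2
    ring
  have hm : Measurable (Function.uncurry fun (t τ : ℝ) => (Icc (t - ρ') t).indicator (fun _ => φ t) τ) := by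
    have e : (Function.uncurry fun (t τ : ℝ) => (Icc (t - ρ') t).indicator (fun _ => φ t) τ)
        = {p : ℝ × ℝ | p.1 - ρ' ≤ p.2 ∧ p.2 ≤ p.1}.indicator (fun p => φ p.1) := by
      funext p
      simp only [Function.uncurry, indicator, mem_Icc, mem_ofPred_eq]
    rw [e]
    refine (hφ.comp measurable_fst).indicator ?_
    exact (measurableSet_le (by fun_prop) measurable_snd).inter (measurableSet_le measurable_snd measurable_fst)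
  rw [hA, lintegral_lintegral_swap hm.aemeasurable, ← lintegral_const_mul' _ _ (by norm_num),
    ← lintegral_indicator (dzr_meas_abs c (T + ρ'))]
  refine lintegral_mono fun τ => ?_
  simp only
  by_cases hτ : τ ∈ {t : ℝ | |t - c| ≤ T + ρ'}
  · rw [indicator_of_mem hτ]
    refine le_trans ?_ (hwin τ)
    rw [← lintegral_indicator measurableSet_Icc]
    refine (setLIntegral_le_lintegral _ _).trans (lintegral_mono fun t => ?_)
    simp only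
    by_cases h : τ ∈ Icc (t - ρ') t
    · rw [indicator_of_mem h, indicator_of_mem]
      exact ⟨h.2, by linarith [h.1]⟩
    · rw [indicator_of_notMem h]
      exact zero_le
  · rw [indicator_of_notMem hτ]
    refine le_of_eq ?_
    rw [← lintegral_zero (μ := volume.restrict {t : ℝ | |t - c| ≤ T})]
    refine setLIntegral_congr_fun (dzr_meas_abs c T) fun t ht => ?_
    rw [indicator_of_notMem]
    intro h
    apply hτ
    have ht' : |t - c| ≤ T := ht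
    rw [abs_le] at ht'
    show |τ - c| ≤ T + ρ'
    rw [abs_le]
    constructor <;> linarith [h.1, h.2, ht'.1, ht'.2]

/-- the centre weight `pw` splits into a weight in `x` and a time window -/
theorem dzr_stack_split {s : ℝ} (hs : 0 < s) (B : ℝ≥0∞) (r₁ T : ℝ) (a' : V × ℝ) (Lf : V × ℝ → ℝ≥0∞) :
    ∫⁻ t : ℝ, (B * ∫⁻ x : V, pw r₁ T ((x, t) - a') * Lf (x, t)) ^ s
      = ∫⁻ t in {t : ℝ | |t - a'.2| ≤ T}, (B * ∫⁻ x : V, {x : V | ‖x - a'.1‖ ≤ r₁}.indicator 1 x * Lf (x, t)) ^ s := by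
  rw [← lintegral_indicator (dzr_meas_abs a'.2 T)]
  refine lintegral_congr fun t => ?_
  by_cases ht : t ∈ {t : ℝ | |t - a'.2| ≤ T}
  · rw [indicator_of_mem ht]
    congr 2
    refine lintegral_congr fun x => ?_
    congr 1
    unfold pw
    have ht' : |t - a'.2| ≤ T := ht
    simp only [indicator, mem_ofPred_eq, Prod.fst_sub, Prod.snd_sub, ht', and_true, Pi.one_apply]
  · rw [indicator_of_notMem ht]
    have e : ∀ x : V, pw r₁ T ((x, t) - a') * Lf (x, t) = 0 := by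
      intro x
      unfold pw
      rw [indicator_of_notMem, zero_mul]
      intro h
      exact ht h.2
    simp only [e, lintegral_zero, mul_zero]
    exact ENNReal.zero_rpow_of_pos hs

/-- **LEAF L-DZ-R2b: stacking** (~150 l.).    `φ`, `ψ` = the two integrands (`ω x = 1_{‖x - a'.1‖ ≤ r₁}`, `B = ρ'^(-k)`).   `dz_stack_window`, averaged over `t'' ∈ J`:  `∫_J φ ≤ 2 ρ'⁻¹ ∫_J ψ` for every window `J` of length `ρ'`.
Tile `[a'.2 - T', a'.2 + T']` by the `N = ⌈2T'/ρ'⌉₊` windows `J_j = Icc (a'.2 - T' + j ρ') (a'.2 - T' + (j+1) ρ')` (they overlap in null sets; their union lies in `[a'.2 - T', a'.2 + T' + ρ']`):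
`∫_I φ ≤ ∑_j ∫_{J_j} φ ≤ 2 ρ'⁻¹ ∑_j ∫_{J_j} ψ ≤ 2 ρ'⁻¹ ∫_{I⁺} ψ`   (`lintegral_iUnion_le`-type bound on the left; on the right use half open windows `Ico`, or `AEDisjoint`).
`pw r₁ T' ((x,t) - a') = 1_{‖x - a'.1‖ ≤ r₁} 1_{|t - a'.2| ≤ T'}`; a factor `1_I(t)` inside `(·)^(q/2)` comes out. -/
theorem dz_stack {q : ℝ} (hq : 2 ≤ q) {ρ' C₂ r₁ T' : ℝ} (hρ' : 1 ≤ ρ') (hC₂ : 1 ≤ C₂) (hT' : 0 ≤ T') {H : V × ℝ → ℂ} (hH : Measurable H) (a' : V × ℝ) :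
    ENNReal.ofReal ρ' * rsg q ρ' (fun z => pw r₁ T' (z - a')) (pw (C₂ * ρ') 1) H ≤ 2 * rsg q ρ' (fun z => pw r₁ (T' + ρ') (z - a')) (bw ((C₂ + 1) * ρ')) H := by
  have hs : 0 < q / 2 := by linarith
  unfold rsg
  rw [dzr_stack_split hs _ r₁ T' a' (fun z => lqw q (pw (C₂ * ρ') 1) H z ^ (2 / q)),
    dzr_stack_split hs _ r₁ (T' + ρ') a' (fun z => lqw q (bw ((C₂ + 1) * ρ')) H z ^ (2 / q)), mul_left_comm, mul_left_comm 2]
  refine mul_le_mul_right ?_ _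
  have hω : Measurable ({x : V | ‖x - a'.1‖ ≤ r₁}.indicator 1 : V → ℝ≥0∞) :=
    measurable_one.indicator (measurableSet_le (by fun_prop) measurable_const)
  refine dzr_slide ?_ (by linarith) a'.2 T' fun τ => ?_
  · have h1 := dz_measurable_inner q (Ω := fun z : V × ℝ => {x : V | ‖x - a'.1‖ ≤ r₁}.indicator 1 z.1)
      (hω.comp measurable_fst) (dz_measurable_pw (C₂ * ρ') 1) hH
    exact (h1.const_mul _).pow_const _
  · exact dz_stack_window hq hρ' hC₂ hH hω _ τ τ ⟨le_rfl, by linarith⟩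

/-! ## covering -/

/-- **LEAF L-DZ-R3a** (~60 l.).   If `‖z.1 - a'.1‖ ≤ A R'` choose `b ∈ N` with `‖z.1 - b‖ ≤ R'`; if `|z.2 - a'.2| ≤ 2 R'` choose the sign `e` of `z.2 - a'.2`. -/
theorem dz_cover {A R' : ℝ} (hR' : 0 < R') (a' : V × ℝ) (N : Finset V) (hN : ∀ x : V, ‖x - a'.1‖ ≤ A * R' → ∃ b ∈ N, ‖x - b‖ ≤ R') (z : V × ℝ) :
    pw (A * R') (2 * R') (z - a') ≤ ∑ p ∈ N ×ˢ ({-1, 1} : Finset ℝ), bw R' (z - (p.1, a'.2 + p.2 * R')) := by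
  unfold pw
  by_cases hz : z - a' ∈ {y : V × ℝ | ‖y.1‖ ≤ A * R' ∧ |y.2| ≤ 2 * R'}
  · rw [indicator_of_mem hz]
    obtain ⟨h1, h2⟩ := hz
    simp only [Prod.fst_sub, Prod.snd_sub] at h1 h2
    obtain ⟨b, hb, hb2⟩ := hN z.1 h1
    rw [abs_le] at h2
    obtain ⟨e, he, he2⟩ : ∃ e ∈ ({-1, 1} : Finset ℝ), |z.2 - (a'.2 + e * R')| ≤ R' := by
      by_cases hs : 0 ≤ z.2 - a'.2
      · refine ⟨1, by simp, ?_⟩
        rw [abs_le]
        constructor <;> linarith [h2.2]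
      · refine ⟨-1, by simp, ?_⟩
        rw [abs_le]
        constructor <;> linarith [h2.1]
    have hmem : (b, e) ∈ N ×ˢ ({-1, 1} : Finset ℝ) := Finset.mem_product.2 ⟨hb, he⟩
    refine le_trans ?_ (Finset.single_le_sum (f := fun p : V × ℝ => bw R' (z - (p.1, a'.2 + p.2 * R'))) (fun _ _ => zero_le) hmem)
    unfold bw
    rw [indicator_of_mem]
    · exact le_rfl
    · rw [mem_closedBall_zero_iff, Prod.norm_def, max_le_iff, Real.norm_eq_abs]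
      exact ⟨hb2, he2⟩
  · rw [indicator_of_notMem hz]
    exact zero_le

theorem dzr_rpow_neg_le {x y c E : ℝ} (hx : 0 < x) (hy : 0 < y) (hc : 0 < c) (h : x ≤ c * y) (hE : 0 ≤ E) :
    y ^ (-E) ≤ c ^ E * x ^ (-E) := by
  rw [Real.rpow_neg hy.le, Real.rpow_neg hx.le]
  have h1 : x ^ E ≤ c ^ E * y ^ E := by
    rw [← Real.mul_rpow hc.le hy.le]
    exact Real.rpow_le_rpow hx.le h hE
  have hxE : 0 < x ^ E := Real.rpow_pos_of_pos hx _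
  have hyE : 0 < y ^ E := Real.rpow_pos_of_pos hy _
  rw [← div_eq_mul_inv, le_div_iff₀ hxE, mul_comm, ← div_eq_mul_inv, div_le_iff₀ hyE]
  exact h1

/-- the geometric inequality behind the kernel inequality -/
theorem dzr_ker_geo {C₀ R σ : ℝ} (hC₀ : 0 ≤ C₀) (hR : 0 < R) (hσ : 0 < σ) (hσ1 : σ ≤ 1) {u : V} (hu : ‖u‖ ≤ C₀) (a y : V × ℝ) (b : V) {e : ℝ} (he : |e| = 1)
    (hb : ‖b - (Lam u σ (σ ^ 2) a).1‖ ≤ (1 + 2 * C₀) * (σ * R)) :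
    1 + ‖y - a‖ / R ≤ 2 * (1 + 2 * C₀) * (1 + (1 + 2 * C₀)) * ((1 + ‖(Lam u σ (σ ^ 2) y).1 - b‖ / (σ ^ 2 * R)) *
      (1 + |(Lam u σ (σ ^ 2) y).2 - ((Lam u σ (σ ^ 2) a).2 + e * (σ ^ 2 * R))| / (σ ^ 2 * R))) := by
  have hR' : 0 < σ ^ 2 * R := by positivity
  set C₂ : ℝ := 1 + 2 * C₀ with hC₂
  have hC₂1 : 1 ≤ C₂ := by linarith
  set p : ℝ := ‖(Lam u σ (σ ^ 2) y).1 - b‖ / (σ ^ 2 * R) with hp
  set t : ℝ := |(Lam u σ (σ ^ 2) y).2 - ((Lam u σ (σ ^ 2) a).2 + e * (σ ^ 2 * R))| / (σ ^ 2 * R) with ht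
  have hp0 : 0 ≤ p := by positivity
  have ht0 : 0 ≤ t := by positivity
  have hs1 : ‖(Lam u σ (σ ^ 2) y).1 - b‖ = p * (σ ^ 2 * R) := by rw [hp]; field_simp
  have hs2 : |(Lam u σ (σ ^ 2) y).2 - ((Lam u σ (σ ^ 2) a).2 + e * (σ ^ 2 * R))| = t * (σ ^ 2 * R) := by rw [ht]; field_simp
  set η : V × ℝ := y - a with hη
  have hL : Lam u σ (σ ^ 2) y - Lam u σ (σ ^ 2) a = Lam u σ (σ ^ 2) η := (bdlc_Lam_sub u σ (σ ^ 2) y a).symm
  have hL1 : (Lam u σ (σ ^ 2) y).1 - (Lam u σ (σ ^ 2) a).1 = σ • (η.1 + (2 * η.2) • u) := by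
    have := congrArg Prod.fst hL
    simpa [Lam] using this
  have hL2 : (Lam u σ (σ ^ 2) y).2 - (Lam u σ (σ ^ 2) a).2 = σ ^ 2 * η.2 := by
    have := congrArg Prod.snd hL
    simpa [Lam] using this
  -- n3
  have h3 : σ * ‖η.1 + (2 * η.2) • u‖ ≤ p * (σ ^ 2 * R) + C₂ * (σ * R) := by
    have e1 : σ * ‖η.1 + (2 * η.2) • u‖ = ‖σ • (η.1 + (2 * η.2) • u)‖ := by
      rw [norm_smul, Real.norm_eq_abs, abs_of_pos hσ]
    rw [e1, ← hL1, ← hs1]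
    have e2 : (Lam u σ (σ ^ 2) y).1 - (Lam u σ (σ ^ 2) a).1 = ((Lam u σ (σ ^ 2) y).1 - b) + (b - (Lam u σ (σ ^ 2) a).1) := by abel
    rw [e2]
    exact (norm_add_le _ _).trans (add_le_add le_rfl hb)
  have h3' : ‖η.1 + (2 * η.2) • u‖ ≤ p * R + C₂ * R := by
    have h4 : σ * ‖η.1 + (2 * η.2) • u‖ ≤ σ * (p * R + C₂ * R) := by
      have : p * (σ ^ 2 * R) ≤ σ * (p * R) := by
        have h5 : σ ^ 2 ≤ σ := by nlinarith
        have h6 : 0 ≤ p * R := by positivity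
        nlinarith
      nlinarith
    exact le_of_mul_le_mul_left h4 hσ
  -- n2
  have h2 : |η.2| ≤ (t + 1) * R := by
    have h4 : σ ^ 2 * |η.2| ≤ σ ^ 2 * ((t + 1) * R) := by
      have e1 : σ ^ 2 * |η.2| = |σ ^ 2 * η.2| := by rw [abs_mul, abs_of_pos (by positivity : 0 < σ ^ 2)]
      rw [e1, ← hL2]
      have e2 : (Lam u σ (σ ^ 2) y).2 - (Lam u σ (σ ^ 2) a).2
          = ((Lam u σ (σ ^ 2) y).2 - ((Lam u σ (σ ^ 2) a).2 + e * (σ ^ 2 * R))) + e * (σ ^ 2 * R) := by ring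
      rw [e2]
      refine (abs_add_le _ _).trans ?_
      rw [hs2, abs_mul, he, abs_of_pos hR']
      linarith
    exact le_of_mul_le_mul_left h4 (by positivity)
  -- n1
  have h1 : ‖η.1‖ ≤ p * R + C₂ * R + C₂ * ((t + 1) * R) := by
    have e1 : η.1 = (η.1 + (2 * η.2) • u) - (2 * η.2) • u := by abel
    have h4 : ‖η.1‖ ≤ ‖η.1 + (2 * η.2) • u‖ + ‖(2 * η.2) • u‖ := by
      conv_lhs => rw [e1]
      exact norm_sub_le _ _
    have h5 : ‖(2 * η.2) • u‖ ≤ 2 * C₀ * ((t + 1) * R) := by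
      rw [norm_smul, Real.norm_eq_abs, abs_mul, abs_two]
      calc 2 * |η.2| * ‖u‖ ≤ 2 * ((t + 1) * R) * C₀ :=
            mul_le_mul (by linarith) hu (norm_nonneg _) (by positivity)
        _ = _ := by ring
    have h6 : 2 * C₀ * ((t + 1) * R) ≤ C₂ * ((t + 1) * R) :=
      mul_le_mul_of_nonneg_right (by linarith) (by positivity)
    linarith
  have hmax : ‖η‖ ≤ (p + C₂ + C₂ * (t + 1)) * R := by
    rw [Prod.norm_def, max_le_iff, Real.norm_eq_abs]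
    constructor
    · linarith
    · have h7 : (t + 1) * R ≤ C₂ * ((t + 1) * R) := le_mul_of_one_le_left (by positivity) hC₂1
      have h8 : 0 ≤ p * R + C₂ * R := by positivity
      nlinarith
  have hdiv : ‖η‖ / R ≤ p + C₂ + C₂ * (t + 1) := by
    rw [div_le_iff₀ hR]
    exact hmax
  have hpt : 0 ≤ p * t := by positivity
  nlinarith [mul_nonneg hp0 (by linarith : 0 ≤ C₂ - 1), mul_nonneg ht0 (by linarith : 0 ≤ C₂ - 1),
    mul_nonneg (by linarith : 0 ≤ C₂ - 1) (by linarith : 0 ≤ C₂ - 1), mul_nonneg hp0 (by positivity : 0 ≤ C₂ * C₂),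
    mul_nonneg ht0 (by positivity : 0 ≤ C₂ * C₂), mul_nonneg hpt (by positivity : 0 ≤ C₂ * (1 + C₂))]

/-- one term of the kernel inequality -/
theorem dzr_ker_term {C₀ E R σ : ℝ} (hC₀ : 0 ≤ C₀) (hE : 0 ≤ E) (hR : 0 < R) (hσ : 0 < σ) (hσ1 : σ ≤ 1) {u : V} (hu : ‖u‖ ≤ C₀) (a y : V × ℝ) (b : V)
    {e : ℝ} (he : |e| = 1) (hb : ‖b - (Lam u σ (σ ^ 2) a).1‖ ≤ (1 + 2 * C₀) * (σ * R)) :
    (1 + ‖Lam u σ (σ ^ 2) y - (b, (Lam u σ (σ ^ 2) a).2 + e * (σ ^ 2 * R))‖ / (σ ^ 2 * R)) ^ (-(2 * E + 2 * (Module.finrank ℝ V : ℝ) + 2))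
      ≤ (2 * (1 + 2 * C₀) * (1 + (1 + 2 * C₀))) ^ E * (1 + ‖y - a‖ / R) ^ (-E) *
        (1 + ‖b - (Lam u σ (σ ^ 2) y).1‖ / (σ ^ 2 * R)) ^ (-((Module.finrank ℝ V : ℝ) + 1)) := by
  have hR' : 0 < σ ^ 2 * R := by positivity
  have hgeo := dzr_ker_geo hC₀ hR hσ hσ1 hu a y b he hb
  set k : ℝ := (Module.finrank ℝ V : ℝ) with hk
  have hk0 : 0 ≤ k := by positivity
  rw [norm_sub_rev b]
  set A : ℝ := 1 + ‖(Lam u σ (σ ^ 2) y).1 - b‖ / (σ ^ 2 * R) with hA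
  set B : ℝ := 1 + |(Lam u σ (σ ^ 2) y).2 - ((Lam u σ (σ ^ 2) a).2 + e * (σ ^ 2 * R))| / (σ ^ 2 * R) with hB
  set M : ℝ := 1 + ‖Lam u σ (σ ^ 2) y - (b, (Lam u σ (σ ^ 2) a).2 + e * (σ ^ 2 * R))‖ / (σ ^ 2 * R) with hM
  have hA1 : 1 ≤ A := by rw [hA]; have : 0 ≤ ‖(Lam u σ (σ ^ 2) y).1 - b‖ / (σ ^ 2 * R) := by positivity
                         linarith
  have hB1 : 1 ≤ B := by rw [hB]; have : 0 ≤ |(Lam u σ (σ ^ 2) y).2 - ((Lam u σ (σ ^ 2) a).2 + e * (σ ^ 2 * R))| / (σ ^ 2 * R) := by positivity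
                         linarith
  have hAM : A ≤ M := by
    rw [hA, hM]
    have : ‖(Lam u σ (σ ^ 2) y).1 - b‖ ≤ ‖Lam u σ (σ ^ 2) y - (b, (Lam u σ (σ ^ 2) a).2 + e * (σ ^ 2 * R))‖ := by
      rw [Prod.norm_def]
      exact le_max_left _ _
    gcongr
  have hBM : B ≤ M := by
    rw [hB, hM]
    have : |(Lam u σ (σ ^ 2) y).2 - ((Lam u σ (σ ^ 2) a).2 + e * (σ ^ 2 * R))| ≤ ‖Lam u σ (σ ^ 2) y - (b, (Lam u σ (σ ^ 2) a).2 + e * (σ ^ 2 * R))‖ := by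
      rw [Prod.norm_def, ← Real.norm_eq_abs]
      exact le_max_right _ _
    gcongr
  have hM1 : 1 ≤ M := hA1.trans hAM
  have hA0 : 0 < A := by linarith
  have hB0 : 0 < B := by linarith
  have hM0 : 0 < M := by linarith
  have e1 : M ^ (-(2 * E + 2 * k + 2)) = M ^ (-(k + 1)) * M ^ (-E) * M ^ (-E) * M ^ (-(k + 1)) := by
    rw [← Real.rpow_add hM0, ← Real.rpow_add hM0, ← Real.rpow_add hM0]
    congr 1
    ring
  have i1 : M ^ (-(k + 1)) ≤ A ^ (-(k + 1)) := Real.rpow_le_rpow_of_nonpos hA0 hAM (by linarith)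
  have i2 : M ^ (-E) ≤ A ^ (-E) := Real.rpow_le_rpow_of_nonpos hA0 hAM (by linarith)
  have i3 : M ^ (-E) ≤ B ^ (-E) := Real.rpow_le_rpow_of_nonpos hB0 hBM (by linarith)
  have i4 : M ^ (-(k + 1)) ≤ 1 := Real.rpow_le_one_of_one_le_of_nonpos hM1 (by linarith)
  have hx : 0 < 1 + ‖y - a‖ / R := by positivity
  have i5 : (A * B) ^ (-E) ≤ (2 * (1 + 2 * C₀) * (1 + (1 + 2 * C₀))) ^ E * (1 + ‖y - a‖ / R) ^ (-E) :=
    dzr_rpow_neg_le hx (by positivity) (by positivity) hgeo hE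
  rw [Real.mul_rpow hA0.le hB0.le] at i5
  have p1 : 0 ≤ M ^ (-(k + 1)) := by positivity
  have p2 : 0 ≤ M ^ (-E) := by positivity
  have p3 : 0 ≤ A ^ (-(k + 1)) := by positivity
  have p4 : 0 ≤ A ^ (-E) := by positivity
  have p5 : 0 ≤ B ^ (-E) := by positivity
  rw [e1]
  calc M ^ (-(k + 1)) * M ^ (-E) * M ^ (-E) * M ^ (-(k + 1))
      ≤ A ^ (-(k + 1)) * A ^ (-E) * B ^ (-E) * 1 := by gcongr
    _ = A ^ (-E) * B ^ (-E) * A ^ (-(k + 1)) := by ring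
    _ ≤ _ := mul_le_mul_of_nonneg_right i5 p3

/-- **LEAF L-DZ-R3b: THE KERNEL INEQUALITY** (~250 l.).    `R' = σ² R`, `E' = 2E + 2k + 2`, `C₂ = 1 + 2 C₀`, `w = L (y - a)`, `X = ‖w.1‖/(σ R)`, `τ = |w.2|/R' = |(y-a).2|/R`.
(1) `wt E' R' (w - (b - (La).1, e R')) ≤ (1 + ‖w.1 - (b - (La).1)‖/R')^(-(E+k+1)) (1 + |w.2 - e R'|/R')^(-(E+k+1))` (`max ≥` both),  `1 + |τ - e| ≥ (1 + τ)/2`.
(2) `∑_b (1 + ‖·- b‖/R')^(-(k+1)) ≤ C` (`BD.exists_sum_sep_le`).   If `X ≥ 2 C₂`: every `b` has `‖w.1 - (b - (La).1)‖ ≥ X σ R/2 ≥ X R'/2` (`σ ≤ 1`), so `∑_b (…)^(-(E+k+1)) ≤ C (1 + X/2)^(-E)`;  if `X < 2 C₂`: `1 ≤ (1 + 2C₂)^E (1+X)^(-E)`.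
(3) `‖(y-a).1‖ ≤ X R + 2 C₀ τ R`, hence `1 + ‖y - a‖/R ≤ C₂ (1+X)(1+τ)` and `(1+X)^(-E) (1+τ)^(-E) ≤ C₂^E wt E R (y - a)`. -/
theorem dz_ker (C₀ E : ℝ) (hC₀ : 0 ≤ C₀) (hE : 0 ≤ E) : ∃ K : ℝ, ∀ (R σ : ℝ) (u : V) (a : V × ℝ) (N : Finset V), 0 < R → 0 < σ → σ ≤ 1 → ‖u‖ ≤ C₀ →
    (∀ b ∈ N, ‖b - (Lam u σ (σ ^ 2) a).1‖ ≤ (1 + 2 * C₀) * (σ * R)) → (∀ b ∈ N, ∀ b' ∈ N, b ≠ b' → σ ^ 2 * R ≤ ‖b - b'‖) →
    ∀ y : V × ℝ, ∑ p ∈ N ×ˢ ({-1, 1} : Finset ℝ), wt (2 * E + 2 * (Module.finrank ℝ V : ℝ) + 2) (σ ^ 2 * R) (Lam u σ (σ ^ 2) y - (p.1, (Lam u σ (σ ^ 2) a).2 + p.2 * (σ ^ 2 * R)))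
      ≤ ENNReal.ofReal K * wt E R (y - a) := by
  obtain ⟨Cs, hCs⟩ := exists_sum_sep_le (V := V) (E := (Module.finrank ℝ V : ℝ) + 1) (by linarith)
  refine ⟨2 * ((2 * (1 + 2 * C₀) * (1 + (1 + 2 * C₀))) ^ E * Cs), fun R σ u a N hR hσ hσ1 hu hb hsep y => ?_⟩
  have hR' : 0 < σ ^ 2 * R := by positivity
  unfold wt
  have hG : 0 ≤ (1 + ‖y - a‖ / R) ^ (-E) := by positivity
  rw [← ENNReal.ofReal_mul' hG, ← ENNReal.ofReal_sum_of_nonneg fun p _ => by positivity]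
  apply ENNReal.ofReal_le_ofReal
  set c₁ : ℝ := (2 * (1 + 2 * C₀) * (1 + (1 + 2 * C₀))) ^ E with hc₁
  have hc₁0 : 0 ≤ c₁ := by positivity
  calc ∑ p ∈ N ×ˢ ({-1, 1} : Finset ℝ), (1 + ‖Lam u σ (σ ^ 2) y - (p.1, (Lam u σ (σ ^ 2) a).2 + p.2 * (σ ^ 2 * R))‖ / (σ ^ 2 * R)) ^ (-(2 * E + 2 * (Module.finrank ℝ V : ℝ) + 2))
      ≤ ∑ p ∈ N ×ˢ ({-1, 1} : Finset ℝ), c₁ * (1 + ‖y - a‖ / R) ^ (-E) * (1 + ‖p.1 - (Lam u σ (σ ^ 2) y).1‖ / (σ ^ 2 * R)) ^ (-((Module.finrank ℝ V : ℝ) + 1)) := by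
        refine Finset.sum_le_sum fun p hp => ?_
        rw [Finset.mem_product] at hp
        have he : |p.2| = 1 := by
          have := hp.2
          simp only [Finset.mem_insert, Finset.mem_singleton] at this
          rcases this with h | h <;> rw [h] <;> simp
        exact dzr_ker_term hC₀ hE hR hσ hσ1 hu a y p.1 he (hb p.1 hp.1)
    _ = 2 * (c₁ * (1 + ‖y - a‖ / R) ^ (-E) * ∑ b ∈ N, (1 + ‖b - (Lam u σ (σ ^ 2) y).1‖ / (σ ^ 2 * R)) ^ (-((Module.finrank ℝ V : ℝ) + 1))) := by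
        rw [Finset.sum_product]
        simp only [Finset.sum_const]
        have hcard : ({-1, 1} : Finset ℝ).card = 2 := by
          rw [Finset.card_pair]
          norm_num
        rw [hcard, ← Finset.smul_sum, ← Finset.mul_sum]
        simp
    _ ≤ 2 * (c₁ * (1 + ‖y - a‖ / R) ^ (-E) * Cs) := by
        have := hCs (σ ^ 2 * R) N (Lam u σ (σ ^ 2) y).1 hR' hsep
        gcongr
    _ = _ := by ring

theorem dzr_sum_lintegral_le {α ι : Type} [MeasurableSpace α] (μ : Measure α) (s : Finset ι) (f : ι → α → ℝ≥0∞) :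
    ∑ i ∈ s, ∫⁻ x, f i x ∂μ ≤ ∫⁻ x, ∑ i ∈ s, f i x ∂μ := by
  classical
  induction s using Finset.induction_on with
  | empty => simp
  | insert i s hi ih =>
    simp only [Finset.sum_insert hi]
    exact (add_le_add le_rfl ih).trans (le_lintegral_add _ _)

/-- **LEAF L-DZ-R3c: the masses of the small balls add up to the mass of the big ball** (~60 l.;  `dz_lm_rsc`, `lintegral_finset_sum`, `dz_ker`, `lintegral_const_mul`). -/
theorem dz_lm_cover (C₀ E : ℝ) (hC₀ : 0 ≤ C₀) (hE : 0 ≤ E) : ∃ K : ℝ, ∀ (R σ : ℝ) (u : V) (a : V × ℝ) (N : Finset V) (g : V → ℂ), 0 < R → 0 < σ → σ ≤ 1 → ‖u‖ ≤ C₀ → Integrable g →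
    (∀ b ∈ N, ‖b - (Lam u σ (σ ^ 2) a).1‖ ≤ (1 + 2 * C₀) * (σ * R)) → (∀ b ∈ N, ∀ b' ∈ N, b ≠ b' → σ ^ 2 * R ≤ ‖b - b'‖) →
    ∑ p ∈ N ×ˢ ({-1, 1} : Finset ℝ), MR.lm (2 * E + 2 * (Module.finrank ℝ V : ℝ) + 2) (σ ^ 2 * R) (rsc u σ g) (p.1, (Lam u σ (σ ^ 2) a).2 + p.2 * (σ ^ 2 * R))
      ≤ ENNReal.ofReal K * MR.lm E R g a := by
  obtain ⟨K, hK⟩ := dz_ker (V := V) C₀ E hC₀ hE
  refine ⟨K, fun R σ u a N g hR hσ hσ1 hu _ hb hsep => ?_⟩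
  simp only [dz_lm_rsc u hσ hR]
  rw [← Finset.mul_sum]
  unfold MR.lm
  rw [mul_left_comm]
  refine mul_le_mul_right ?_ _
  refine (dzr_sum_lintegral_le _ _ _).trans ?_
  rw [← lintegral_const_mul' _ _ ENNReal.ofReal_ne_top]
  refine lintegral_mono fun y => ?_
  simp only
  rw [← Finset.mul_sum, mul_left_comm]
  exact mul_le_mul_right (hK R σ u a N hR hσ hσ1 hu hb hsep y) _

/-! ## one cluster -/

omit [InnerProductSpace ℝ V] [FiniteDimensional ℝ V] [MeasurableSpace V] [BorelSpace V] in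
theorem dzr_pw_mono {a a' b b' : ℝ} (ha : a ≤ a') (hb : b ≤ b') (y : V × ℝ) : pw a b y ≤ pw a' b' y := by
  unfold pw
  refine Set.indicator_le_indicator_of_subset ?_ (fun _ => zero_le) y
  intro z hz
  exact ⟨hz.1.trans ha, hz.2.trans hb⟩

/-- from `x^(2/q) ≤ y` to `x ≤ y^(q/2)` -/
theorem dzr_le_rpow {q : ℝ} (hq : 0 < q) {x y : ℝ≥0∞} (h : x ^ (2 / q) ≤ y) : x ≤ y ^ (q / 2) := by
  calc x = (x ^ (2 / q)) ^ (q / 2) := by
        rw [← ENNReal.rpow_mul, show 2 / q * (q / 2) = 1 by field_simp, ENNReal.rpow_one]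
    _ ≤ y ^ (q / 2) := ENNReal.rpow_le_rpow h (by positivity)

/-- `(B x^(q/2))^(2/q) = B^(2/q) x` -/
theorem dzr_rpow_mul {q : ℝ} (hq : 0 < q) (B x : ℝ≥0∞) : (B * x ^ (q / 2)) ^ (2 / q) = B ^ (2 / q) * x := by
  rw [ENNReal.mul_rpow_of_nonneg _ _ (by positivity), ← ENNReal.rpow_mul, show q / 2 * (2 / q) = 1 by field_simp,
    ENNReal.rpow_one]

/-- `(B^(2/q) x)^(q/2) = B x^(q/2)` -/
theorem dzr_rpow_mul' {q : ℝ} (hq : 0 < q) (B x : ℝ≥0∞) : (B ^ (2 / q) * x) ^ (q / 2) = B * x ^ (q / 2) := by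
  rw [ENNReal.mul_rpow_of_nonneg _ _ (by positivity), ← ENNReal.rpow_mul, show 2 / q * (q / 2) = 1 by field_simp,
    ENNReal.rpow_one]

/-- Peetre for a finite sum of local masses -/
theorem dzr_sum_peetre {E R : ℝ} (hE : 0 ≤ E) (hR : 0 < R) {ι : Type} (t : Finset ι) (g : ι → V → ℂ) (a b : V × ℝ) :
    ∑ j ∈ t, MR.lm E R (g j) (a + b) ≤ ENNReal.ofReal ((1 + ‖b‖ / R) ^ E) * ∑ j ∈ t, MR.lm E R (g j) a := by
  rw [Finset.mul_sum]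
  exact Finset.sum_le_sum fun j _ => dz_lm_peetre hE hR (g j) a b

/-- **LEAF L-DZ-R4: one cluster** (~300 l.;  GLUE, the chain of the header).    `σ = r⁻¹`, `H y' = ∑ j ∈ t, MR.ext (rsc u σ (G j)) y'` (`dz_sum_rsc`), `a' = L a`, `N` = `BD.exists_sep_net a'.1` with `A = C₂ r`, radius `r²`;
`Cl.rsc` gives `Cl 1 r⁻¹` (`(r²)⁻¹/r⁻¹ = r⁻¹`);  `E' = 2E + 2k + 2`, `E₁ = q/2 (E' + d) + 1`;  `dz_rsl_polyW` with `ρ = r`, `R = r²`, `Φ a'' = ∑ j ∈ t, MR.lm E' (r²) (rsc u σ (G j)) a''` (`dz_lm_peetre`);  `r² + r ≤ 2 r²`. -/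
theorem dz_rs_cluster (hk : 1 ≤ Module.finrank ℝ V) (C₀ E : ℝ) (hC₀ : 0 ≤ C₀) (hE : 0 ≤ E) : ∃ K : ℝ, ∀ (r : ℝ) (A' : ℝ≥0∞), 1 ≤ r →
    RslLe V 1 (2 * E + 2 * (Module.finrank ℝ V : ℝ) + 2) r A' →
    ∀ (ι : Type) (t : Finset ι) (c : ι → V) (G : ι → V → ℂ) (u : V), Cl C₀ (r ^ 2)⁻¹ t c G → ‖u‖ ≤ C₀ → (∀ j ∈ t, ‖c j - u‖ ≤ r⁻¹) → ∀ a : V × ℝ,
    rsg (qq V) (r ^ 2) (fun z => bw ((r ^ 2) ^ 2) (z - a)) (bw (r ^ 2)) (fun y => ∑ j ∈ t, MR.ext (G j) y)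
      ≤ ENNReal.ofReal K * A' * (∑ j ∈ t, MR.lm E ((r ^ 2) ^ 2) (G j) a) ^ (qq V / 2) := by
  obtain ⟨hq2, hq6, -, -, -⟩ := dz_qq (V := V) hk
  have hq0 : 0 < qq V := by linarith
  obtain ⟨E', hE'⟩ : ∃ E' : ℝ, E' = 2 * E + 2 * (Module.finrank ℝ V : ℝ) + 2 := ⟨_, rfl⟩
  have hE'0 : 0 ≤ E' := by rw [hE']; positivity
  obtain ⟨E₁, hE₁⟩ : ∃ E₁ : ℝ, E₁ = qq V / 2 * (E' + (dd V : ℝ)) + 1 := ⟨_, rfl⟩
  have hE₁0 : 0 ≤ E₁ := by rw [hE₁]; positivity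
  obtain ⟨K₁, hK₁⟩ := dz_rsl_polyW (V := V) (qq V) E' E₁ hq2.le hE'0 (by rw [hE₁]; linarith)
  obtain ⟨K₂, hK₂⟩ := dz_lm_cover (V := V) C₀ E hC₀ hE
  rw [← hE'] at hK₂
  obtain ⟨C₂, hC₂⟩ : ∃ C₂ : ℝ, C₂ = 1 + 2 * C₀ := ⟨_, rfl⟩
  have hC₂1 : 1 ≤ C₂ := by rw [hC₂]; linarith
  rw [← hC₂] at hK₂
  refine ⟨2 * (1 + (C₂ + 1)) ^ E₁ * max K₁ 0 * max K₂ 0 ^ (qq V / 2), ?_⟩
  intro r A' hr hA' ι t c G u hcl hu hcu a
  rw [← hE'] at hA'
  have hr0 : 0 < r := by linarith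
  obtain ⟨σ, hσr⟩ : ∃ σ : ℝ, σ = r⁻¹ := ⟨_, rfl⟩
  have hσ : 0 < σ := by rw [hσr]; positivity
  have hσ1 : σ ≤ 1 := by rw [hσr]; exact inv_le_one_of_one_le₀ hr
  rw [← hσr] at hcu
  have e1 : σ * (r ^ 2) ^ 2 = r ^ 3 := by rw [hσr]; field_simp
  have e2 : σ ^ 2 * (r ^ 2) ^ 2 = r ^ 2 := by rw [hσr]; field_simp
  have e3 : σ * r ^ 2 = r := by rw [hσr]; field_simp
  have e4 : σ ^ 2 * r ^ 2 = 1 := by rw [hσr]; field_simp
  have e5 : σ⁻¹ = r := by rw [hσr, inv_inv]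
  have e6 : (r ^ 2)⁻¹ / σ = r⁻¹ := by rw [hσr]; field_simp
  obtain ⟨a', ha'⟩ : ∃ a' : V × ℝ, a' = Lam u σ (σ ^ 2) a := ⟨_, rfl⟩
  obtain ⟨H, hH⟩ : ∃ H : V × ℝ → ℂ, H = fun y' => ∑ j ∈ t, MR.ext (rsc u σ (G j)) y' := ⟨_, rfl⟩
  obtain ⟨Φ, hΦ⟩ : ∃ Φ : V × ℝ → ℝ≥0∞, Φ = fun a'' => ∑ j ∈ t, MR.lm E' (r ^ 2) (rsc u σ (G j)) a'' := ⟨_, rfl⟩
  obtain ⟨Ψ, hΨ⟩ : ∃ Ψ : ℝ≥0∞, Ψ = ∑ j ∈ t, MR.lm E ((r ^ 2) ^ 2) (G j) a := ⟨_, rfl⟩
  have hcl' := hcl.rsc u hσ hcu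
  rw [e6] at hcl'
  have hHm : Measurable H := by
    rw [hH]
    exact (continuous_finsetSum _ fun j hj => MR.ext_continuous (hcl'.integrable hj)).measurable
  have hyp : ∀ a'', rsg (qq V) r (fun z => bw (r ^ 2) (z - a'')) (bw r) H ≤ A' * Φ a'' ^ (qq V / 2) := by
    intro a''
    rw [hH, hΦ]
    exact hA' ι t _ _ hcl' a''
  have hPe : ∀ a'' b, Φ (a'' + b) ≤ ENNReal.ofReal ((1 + ‖b‖ / r ^ 2) ^ E') * Φ a'' := by
    intro a'' b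
    rw [hΦ]
    exact dzr_sum_peetre hE'0 (by positivity) t _ a'' b
  have hup := hK₁ r (r ^ 2) H Φ A' hr0 (by nlinarith) hHm hPe hyp
  obtain ⟨N, hN1, hN2, hN3⟩ := exists_sep_net a'.1 (A := C₂ * r) (r := r ^ 2) (by positivity) (by positivity)
  -- step 1: rescaling
  have s1 : rsg (qq V) (r ^ 2) (fun z => bw ((r ^ 2) ^ 2) (z - a)) (bw (r ^ 2)) (fun y => ∑ j ∈ t, MR.ext (G j) y)
      ≤ ENNReal.ofReal r * rsg (qq V) r (fun z => pw (C₂ * r ^ 3) (r ^ 2) (z - a')) (pw (C₂ * r) 1) H := by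
    have h1 := dz_rsg_rsc hk u hσ (ρ := r ^ 2) (by positivity) (F := fun y => ∑ j ∈ t, MR.ext (G j) y) (H := H)
      (by intro y; rw [hH]; exact dz_sum_rsc t G u hσ y) (fun z => pw (C₂ * r ^ 3) (r ^ 2) (z - a')) (pw (C₂ * r) 1)
    rw [e5, e3] at h1
    rw [← h1]
    refine dz_rsg_mono hq0 _ (fun z => ?_) (fun y => ?_) _
    · have h2 := dz_bw_le_pw (r := (r ^ 2) ^ 2) hu hσ (z - a)
      rw [e1, e2, bdlc_Lam_sub, ← ha', ← hC₂] at h2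
      exact h2
    · have h2 := dz_bw_le_pw (r := r ^ 2) hu hσ y
      rw [e3, e4, ← hC₂] at h2
      exact h2
  -- step 2: stacking
  have s2 := dz_stack hq2.le (r₁ := C₂ * r ^ 3) (T' := r ^ 2) hr hC₂1 (by positivity) hHm a'
  -- step 3: weights
  have s3 : rsg (qq V) r (fun z => pw (C₂ * r ^ 3) (r ^ 2 + r) (z - a')) (bw ((C₂ + 1) * r)) H
      ≤ ENNReal.ofReal ((1 + (C₂ + 1)) ^ E₁) * rsg (qq V) r (fun z => pw (C₂ * r ^ 3) (r ^ 2 + r) (z - a')) (wt E₁ r) H := by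
    rw [← dz_rsg_smulW hq0]
    exact dz_rsg_mono hq0 _ (fun z => le_rfl) (fun y => dz_bw_le_wt hE₁0 hr0 (by linarith) y) _
  have s4 : rsg (qq V) r (fun z => pw (C₂ * r ^ 3) (r ^ 2 + r) (z - a')) (wt E₁ r) H ^ (2 / qq V)
      ≤ ∑ p ∈ N ×ˢ ({-1, 1} : Finset ℝ), rsg (qq V) r (fun z => bw (r ^ 2) (z - (p.1, a'.2 + p.2 * r ^ 2))) (wt E₁ r) H ^ (2 / qq V) := by
    have hcov : ∀ z : V × ℝ, pw (C₂ * r ^ 3) (r ^ 2 + r) (z - a')
        ≤ ∑ p ∈ N ×ˢ ({-1, 1} : Finset ℝ), bw (r ^ 2) (z - (p.1, a'.2 + p.2 * r ^ 2)) := by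
      intro z
      refine le_trans ?_ (dz_cover (A := C₂ * r) (by positivity) a' N hN3 z)
      exact dzr_pw_mono (le_of_eq (by ring)) (by nlinarith) _
    have hmeas : ∀ p ∈ N ×ˢ ({-1, 1} : Finset ℝ), Measurable fun z : V × ℝ => bw (r ^ 2) (z - (p.1, a'.2 + p.2 * r ^ 2)) :=
      fun p _ => (dz_measurable_bw _).comp (measurable_id.sub_const _)
    exact dz_rsg_sumO (V := V) (ι := V × ℝ) hq2.le r (Ω := fun z => pw (C₂ * r ^ 3) (r ^ 2 + r) (z - a')) (W := wt E₁ r)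
      (N ×ˢ ({-1, 1} : Finset ℝ)) (fun (p : V × ℝ) (z : V × ℝ) => bw (r ^ 2) (z - (p.1, a'.2 + p.2 * r ^ 2)))
      hmeas (measurable_wt _ _) hHm hcov
  have s5 : ∑ p ∈ N ×ˢ ({-1, 1} : Finset ℝ), rsg (qq V) r (fun z => bw (r ^ 2) (z - (p.1, a'.2 + p.2 * r ^ 2))) (wt E₁ r) H ^ (2 / qq V)
      ≤ (ENNReal.ofReal K₁ * A') ^ (2 / qq V) * ∑ p ∈ N ×ˢ ({-1, 1} : Finset ℝ), Φ (p.1, a'.2 + p.2 * r ^ 2) := by
    rw [Finset.mul_sum]
    refine Finset.sum_le_sum fun p _ => ?_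
    rw [← dzr_rpow_mul hq0]
    exact ENNReal.rpow_le_rpow (hup _) (by positivity)
  have s6 : ∑ p ∈ N ×ˢ ({-1, 1} : Finset ℝ), Φ (p.1, a'.2 + p.2 * r ^ 2) ≤ ENNReal.ofReal K₂ * Ψ := by
    rw [hΦ, hΨ, Finset.sum_comm, Finset.mul_sum]
    refine Finset.sum_le_sum fun j hj => ?_
    have h1 := hK₂ ((r ^ 2) ^ 2) σ u a N (G j) (by positivity) hσ hσ1 hu (hcl.integrable hj)
      (by
        intro b hb
        rw [e1, ← ha']
        exact (hN1 b hb).trans (le_of_eq (by ring)))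
      (by
        intro b hb b' hb' hne
        rw [e2]
        exact hN2 b hb b' hb' hne)
    rw [e2, ← ha'] at h1
    exact h1
  have s7 : rsg (qq V) r (fun z => pw (C₂ * r ^ 3) (r ^ 2 + r) (z - a')) (wt E₁ r) H
      ≤ ENNReal.ofReal K₁ * A' * (ENNReal.ofReal K₂ * Ψ) ^ (qq V / 2) := by
    rw [← dzr_rpow_mul' hq0]
    exact dzr_le_rpow hq0 (s4.trans (s5.trans (mul_le_mul' le_rfl s6)))
  rw [← hΨ]
  calc rsg (qq V) (r ^ 2) (fun z => bw ((r ^ 2) ^ 2) (z - a)) (bw (r ^ 2)) (fun y => ∑ j ∈ t, MR.ext (G j) y)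
      ≤ 2 * (ENNReal.ofReal ((1 + (C₂ + 1)) ^ E₁) * (ENNReal.ofReal K₁ * A' * (ENNReal.ofReal K₂ * Ψ) ^ (qq V / 2))) :=
        s1.trans (s2.trans (mul_le_mul' le_rfl (s3.trans (mul_le_mul' le_rfl s7))))
    _ ≤ 2 * (ENNReal.ofReal ((1 + (C₂ + 1)) ^ E₁) * (ENNReal.ofReal (max K₁ 0) * A' * (ENNReal.ofReal (max K₂ 0) * Ψ) ^ (qq V / 2))) := by
        gcongr
        · exact le_max_left _ _
        · exact le_max_left _ _
    _ = _ := by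
        rw [ENNReal.mul_rpow_of_nonneg _ _ (by positivity), ENNReal.ofReal_rpow_of_nonneg (le_max_right _ _) (by positivity),
          ENNReal.ofReal_mul (by positivity), ENNReal.ofReal_mul (by positivity), ENNReal.ofReal_mul (by norm_num)]
        norm_num
        ring


/-! ## local decoupling into clusters -/

open scoped Classical in
/-- **LEAF L-DZ-R5: local decoupling** (~200 l.).    `BD.bd_main` (`p = q`, `p k = 2(k+2)`: `dz_qq`), `BD.fc_strip_zero`, `BD.fc_sd_loc` (`r = 0`) give `SdLe V 0 q C σ Ew (A D²)`, `D = D₀ σ^(-η/2)`, `σ = r⁻¹`;  `NearFlat 0` is trivial (`Fin 0`).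
`LRob C σ (s.image π) c (gsum s π fun j => MR.ext (G j))` with `C = max (C₀, 3^k, 2)`:  `bdd` by `Grp.rep`, `mult` by `Grp.mult`, `fs`: `dz_mfs_sum`, `dz_ext_mfs` with the cap `(c J, 2σ, 0)` (`‖ξ - c J‖ ≤ δ + σ ≤ 2σ`), `BD.Mfs.mono`, `BD.cap_mono`.
`BD.wip p Ew R F z = lqw p (wt Ew R) F z` by `rfl`;   `BD.sum_gsum`;   radius `R = r² = (σ⁻¹)²`. -/
theorem dz_loc_dec (hk : 1 ≤ Module.finrank ℝ V) (C₀ η Ew : ℝ) (hC₀ : 0 ≤ C₀) (hη : 0 < η) (hEw : 0 ≤ Ew) : ∃ D : ℝ, ∀ (r : ℝ) (ι : Type) (s : Finset ι) (c : ι → V) (G : ι → V → ℂ) (π : ι → ι),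
    1 ≤ r → Cl C₀ (r ^ 2)⁻¹ s c G → Grp ((3 : ℝ) ^ Module.finrank ℝ V) r⁻¹ s c π c → ∀ z : V × ℝ,
    lqw (qq V) (wt Ew (r ^ 2)) (fun y => ∑ j ∈ s, MR.ext (G j) y) z ^ (2 / qq V)
      ≤ ENNReal.ofReal (D * r ^ η) * ∑ J ∈ s.image π, lqw (qq V) (wt Ew (r ^ 2)) (gsum s π (fun j => MR.ext (G j)) J) z ^ (2 / qq V) := by
  obtain ⟨hq2, -, hkq, -, -⟩ := dz_qq (V := V) hk
  have hC2 : (2 : ℝ) ≤ max (max C₀ ((3 : ℝ) ^ Module.finrank ℝ V)) 2 := le_max_right _ _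
  obtain ⟨D₀, hD₀⟩ := bd_main (V := V) (p := qq V) hq2.le (by linarith) (half_pos hη) (7 * max (max C₀ ((3 : ℝ) ^ Module.finrank ℝ V)) 2)
  obtain ⟨A, hA, hloc⟩ := fc_sd_loc (V := V) 0 (qq V) hq2.le (max (max C₀ ((3 : ℝ) ^ Module.finrank ℝ V)) 2) (by linarith) Ew hEw
  refine ⟨A * (max D₀ 0) ^ 2, fun r ι s c G π hr hcl hgrp z => ?_⟩
  have hCa : C₀ ≤ max (max C₀ ((3 : ℝ) ^ Module.finrank ℝ V)) 2 := (le_max_left _ _).trans (le_max_left _ _)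
  have hCb : (3 : ℝ) ^ Module.finrank ℝ V ≤ max (max C₀ ((3 : ℝ) ^ Module.finrank ℝ V)) 2 := (le_max_right _ _).trans (le_max_left _ _)
  generalize max (max C₀ ((3 : ℝ) ^ Module.finrank ℝ V)) 2 = C at hC2 hD₀ hloc hCa hCb
  have hr0 : 0 < r := by linarith
  have hσ0 : 0 < r⁻¹ := inv_pos.2 hr0
  have hσ1 : r⁻¹ ≤ 1 := inv_le_one_of_one_le₀ hr
  have hδσ : (r ^ 2)⁻¹ ≤ r⁻¹ := by
    rw [inv_le_inv₀ (by positivity) hr0]
    nlinarith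
  have hsd := hloc r⁻¹ _ hσ0 hσ1 (fc_strip_zero (hD₀ r⁻¹ hσ0 hσ1))
  have hrob : LRob C r⁻¹ (s.image π) c (gsum s π fun j => MR.ext (G j)) := by
    refine ⟨fun J hJ => ?_, fun ξ t ht hξ => (hgrp.mult ξ t ht hξ).trans hCb, fun J hJ => ?_⟩
    · obtain ⟨θ, hθ, rfl⟩ := Finset.mem_image.1 hJ
      obtain ⟨θ', hθ', h⟩ := hgrp.rep θ hθ
      rw [h]
      exact (hcl.bdd θ' hθ').trans hCa
    · refine dz_mfs_sum _ fun j hj => ?_
      obtain ⟨hjs, hjJ⟩ := Finset.mem_filter.1 hj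
      refine (dz_ext_mfs (hcl.integrable hjs) (v := c J) (a := 2 * r⁻¹) fun ξ hξ => hcl.supp j hjs ξ ?_).mono
        (cap_mono (mul_le_mul_of_nonneg_right hC2 hσ0.le) (by positivity))
      have h1 := hgrp.near j hjs
      rw [hjJ] at h1
      have h2 : ‖ξ - c J‖ ≤ ‖ξ - c j‖ + ‖c j - c J‖ := by
        have := norm_add_le (ξ - c j) (c j - c J)
        rwa [sub_add_sub_cancel] at this
      linarith
  have hflat : NearFlat 0 (C * r⁻¹) (s.image π) c :=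
    ⟨fun i => i.elim0, fun i => i.elim0, ⟨fun i => i.elim0, fun i => i.elim0⟩, fun i => i.elim0⟩
  have key := hsd ι (s.image π) c (gsum s π fun j => MR.ext (G j)) hrob hflat (r ^ 2) z (by rw [inv_inv])
  simp only [sum_gsum] at key
  refine le_trans key (mul_le_mul_left ?_ _)
  have hx : 0 ≤ r⁻¹ ^ (-(η / 2)) := by positivity
  calc ENNReal.ofReal A * ENNReal.ofReal (D₀ * r⁻¹ ^ (-(η / 2))) ^ (2 : ℝ)
      ≤ ENNReal.ofReal A * ENNReal.ofReal (max D₀ 0 * r⁻¹ ^ (-(η / 2))) ^ (2 : ℝ) :=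
        mul_le_mul_right (ENNReal.rpow_le_rpow (ENNReal.ofReal_le_ofReal (mul_le_mul_of_nonneg_right (le_max_left _ _) hx)) (by norm_num)) _
    _ = _ := by
        have hm : 0 ≤ max D₀ 0 := le_max_right _ _
        rw [ENNReal.rpow_two, ← ENNReal.ofReal_pow (by positivity), ← ENNReal.ofReal_mul hA]
        congr 1
        rw [mul_pow, ← Real.rpow_natCast (r⁻¹ ^ (-(η / 2))) 2, ← Real.rpow_mul hσ0.le, Real.inv_rpow hr0.le, ← Real.rpow_neg hr0.le]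
        rw [mul_assoc]
        congr 3
        push_cast
        ring

/-! ## step, base, iteration -/

/-- **LEAF L-DZ-R6: ONE STEP** (~250 l.;  GLUE).    `ρ = r²`, `R = ρ²`, `E₁ = q/2 (E + d) + 1`, `π` of `BD.exists_grp s c (σ := r⁻¹)`.
`bw ρ ≤ 2^E₁ wt E₁ ρ` (`dz_bw_le_wt`, `C = 1`), `dz_rsg_mono`, `dz_rsg_smulW`;   `dz_loc_dec` + `dz_rsg_dec`:  `rsg(F)^(2/q) ≤ D r^η' ∑_J rsg (wt E₁ ρ) (F_J)^(2/q)`;
for every `J`: `dz_rs_cluster` for `t = s.filter (π · = J)` (`Cl.subset`, `u = c J`, `Grp.near`, `Grp.rep`) for ALL centres `a`, upgraded by `dz_rsl_polyW` (`Φ_J a = ∑ j ∈ t, MR.lm E R (G j) a`, `dz_lm_peetre`);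
`∑_J Φ_J a = ∑ j ∈ s, MR.lm E R (G j) a` (`Finset.sum_fiberwise_of_maps_to`).   Raise to the power `q/2`:  `(D r^η')^(q/2) ≤ K (r²)^η` with `η' = 4 η/q`. -/
theorem dz_rs_step (hk : 1 ≤ Module.finrank ℝ V) (C₀ E η : ℝ) (hC₀ : 0 ≤ C₀) (hE : 0 ≤ E) (hη : 0 < η) : ∃ K : ℝ, ∀ (r : ℝ) (A' : ℝ≥0∞), 1 ≤ r →
    RslLe V 1 (2 * E + 2 * (Module.finrank ℝ V : ℝ) + 2) r A' → RslLe V C₀ E (r ^ 2) (ENNReal.ofReal (K * (r ^ 2) ^ η) * A') := by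
  classical
  obtain ⟨hq2, hq6, -, -, -⟩ := dz_qq (V := V) hk
  have hq0 : 0 < qq V := by linarith
  obtain ⟨E₁, hE₁⟩ : ∃ E₁ : ℝ, E₁ = qq V / 2 * (E + (dd V : ℝ)) + 1 := ⟨_, rfl⟩
  have hE₁0 : 0 ≤ E₁ := by rw [hE₁]; positivity
  obtain ⟨Kc, hKc⟩ := dz_rs_cluster hk C₀ E hC₀ hE
  obtain ⟨KW, hKW⟩ := dz_rsl_polyW (V := V) (qq V) E E₁ hq2.le hE (by rw [hE₁]; linarith)
  obtain ⟨D, hD⟩ := dz_loc_dec hk C₀ (4 * η / qq V) E₁ hC₀ (by positivity) hE₁0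
  refine ⟨2 ^ E₁ * max D 0 ^ (qq V / 2) * max KW 0 * max Kc 0, ?_⟩
  intro r A' hr hA' ι s c G hcl a
  have hr0 : 0 < r := by linarith
  have hr2 : 1 ≤ r ^ 2 := one_le_pow₀ hr
  obtain ⟨π, hπ⟩ := exists_grp s c (σ := r⁻¹) (by positivity)
  obtain ⟨Ψ, hΨ⟩ : ∃ Ψ : ℝ≥0∞, Ψ = ∑ j ∈ s, MR.lm E ((r ^ 2) ^ 2) (G j) a := ⟨_, rfl⟩
  obtain ⟨B, hB⟩ : ∃ B : ℝ≥0∞, B = ENNReal.ofReal KW * (ENNReal.ofReal Kc * A') := ⟨_, rfl⟩
  have hΩm : Measurable fun z : V × ℝ => bw ((r ^ 2) ^ 2) (z - a) := (dz_measurable_bw _).comp (measurable_id.sub_const _)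
  have hFm : ∀ J ∈ s.image π, Measurable (gsum s π (fun j => MR.ext (G j)) J) := by
    intro J _
    unfold gsum
    exact (continuous_finsetSum _ fun j hj => MR.ext_continuous (hcl.integrable (Finset.mem_filter.1 hj).1)).measurable
  -- sharp weight to polynomial weight
  have s1 : rsg (qq V) (r ^ 2) (fun z => bw ((r ^ 2) ^ 2) (z - a)) (bw (r ^ 2)) (fun y => ∑ j ∈ s, MR.ext (G j) y)
      ≤ ENNReal.ofReal (2 ^ E₁) * rsg (qq V) (r ^ 2) (fun z => bw ((r ^ 2) ^ 2) (z - a)) (wt E₁ (r ^ 2)) (fun y => ∑ j ∈ s, MR.ext (G j) y) := by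
    rw [← dz_rsg_smulW hq0]
    refine dz_rsg_mono hq0 _ (fun z => le_rfl) (fun y => ?_) _
    have h1 := dz_bw_le_wt (E := E₁) (ρ := r ^ 2) (C := 1) hE₁0 (by positivity) zero_le_one y
    rw [one_mul, show (1 : ℝ) + 1 = 2 by norm_num] at h1
    exact h1
  -- decoupling
  have s2 := dz_rsg_dec hq2.le (r ^ 2) hΩm (measurable_wt E₁ (r ^ 2)) (s.image π) (fun y => ∑ j ∈ s, MR.ext (G j) y)
    (gsum s π fun j => MR.ext (G j)) hFm _ (hD r ι s c G π hr hcl hπ)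
  -- clusters
  have s3 : ∀ J ∈ s.image π, rsg (qq V) (r ^ 2) (fun z => bw ((r ^ 2) ^ 2) (z - a)) (wt E₁ (r ^ 2)) (gsum s π (fun j => MR.ext (G j)) J)
      ≤ B * (∑ j ∈ s.filter (fun j => π j = J), MR.lm E ((r ^ 2) ^ 2) (G j) a) ^ (qq V / 2) := by
    intro J hJ
    obtain ⟨θ, hθ, rfl⟩ := Finset.mem_image.1 hJ
    have hu : ‖c (π θ)‖ ≤ C₀ := by
      obtain ⟨θ', hθ', h1⟩ := hπ.rep θ hθ
      rw [h1]
      exact hcl.bdd θ' hθ'
    have hnear : ∀ j ∈ s.filter (fun j => π j = π θ), ‖c j - c (π θ)‖ ≤ r⁻¹ := by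
      intro j hj
      obtain ⟨hj1, hj2⟩ := Finset.mem_filter.1 hj
      rw [← hj2]
      exact hπ.near j hj1
    have h1 := hKc r A' hr hA' ι (s.filter fun j => π j = π θ) c G (c (π θ)) (hcl.subset (Finset.filter_subset _ _)) hu hnear
    have h2 := hKW (r ^ 2) ((r ^ 2) ^ 2) (gsum s π (fun j => MR.ext (G j)) (π θ))
      (fun a'' => ∑ j ∈ s.filter (fun j => π j = π θ), MR.lm E ((r ^ 2) ^ 2) (G j) a'') (ENNReal.ofReal Kc * A') (by positivity)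
      (by nlinarith) (hFm _ hJ) (fun a'' b => dzr_sum_peetre hE (by positivity) _ _ a'' b) h1 a
    rw [hB]
    exact h2
  have s4 : ∑ J ∈ s.image π, ∑ j ∈ s.filter (fun j => π j = J), MR.lm E ((r ^ 2) ^ 2) (G j) a = Ψ := by
    rw [hΨ]
    exact Finset.sum_fiberwise_of_maps_to (fun j hj => Finset.mem_image_of_mem π hj) _
  have s5 : ∑ J ∈ s.image π, rsg (qq V) (r ^ 2) (fun z => bw ((r ^ 2) ^ 2) (z - a)) (wt E₁ (r ^ 2)) (gsum s π (fun j => MR.ext (G j)) J) ^ (2 / qq V)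
      ≤ B ^ (2 / qq V) * Ψ := by
    rw [← s4, Finset.mul_sum]
    refine Finset.sum_le_sum fun J hJ => ?_
    rw [← dzr_rpow_mul hq0]
    exact ENNReal.rpow_le_rpow (s3 J hJ) (by positivity)
  have s6 : rsg (qq V) (r ^ 2) (fun z => bw ((r ^ 2) ^ 2) (z - a)) (wt E₁ (r ^ 2)) (fun y => ∑ j ∈ s, MR.ext (G j) y)
      ≤ ENNReal.ofReal (max D 0 ^ (qq V / 2) * (r ^ 2) ^ η) * (B * Ψ ^ (qq V / 2)) := by
    refine (dzr_le_rpow hq0 (s2.trans (mul_le_mul' le_rfl s5))).trans ?_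
    rw [ENNReal.mul_rpow_of_nonneg _ _ (by positivity), dzr_rpow_mul' hq0]
    refine mul_le_mul' ?_ le_rfl
    calc ENNReal.ofReal (D * r ^ (4 * η / qq V)) ^ (qq V / 2)
        ≤ ENNReal.ofReal (max D 0 * r ^ (4 * η / qq V)) ^ (qq V / 2) := by
          refine ENNReal.rpow_le_rpow (ENNReal.ofReal_le_ofReal ?_) (by positivity)
          exact mul_le_mul_of_nonneg_right (le_max_left _ _) (by positivity)
      _ = ENNReal.ofReal (max D 0 ^ (qq V / 2) * (r ^ 2) ^ η) := by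
          rw [ENNReal.ofReal_rpow_of_nonneg (by positivity) (by positivity), Real.mul_rpow (le_max_right _ _) (by positivity),
            ← Real.rpow_mul hr0.le, ← Real.rpow_natCast r 2, ← Real.rpow_mul hr0.le]
          congr 3
          push_cast
          field_simp
          norm_num
  rw [← hΨ]
  calc rsg (qq V) (r ^ 2) (fun z => bw ((r ^ 2) ^ 2) (z - a)) (bw (r ^ 2)) (fun y => ∑ j ∈ s, MR.ext (G j) y)
      ≤ ENNReal.ofReal (2 ^ E₁) * (ENNReal.ofReal (max D 0 ^ (qq V / 2) * (r ^ 2) ^ η) * (B * Ψ ^ (qq V / 2))) :=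
        s1.trans (mul_le_mul' le_rfl s6)
    _ ≤ ENNReal.ofReal (2 ^ E₁) * (ENNReal.ofReal (max D 0 ^ (qq V / 2) * (r ^ 2) ^ η)
          * (ENNReal.ofReal (max KW 0) * (ENNReal.ofReal (max Kc 0) * A') * Ψ ^ (qq V / 2))) := by
        rw [hB]
        gcongr
        · exact le_max_left _ _
        · exact le_max_left _ _
    _ = _ := by
        have e : ENNReal.ofReal (2 ^ E₁ * max D 0 ^ (qq V / 2) * max KW 0 * max Kc 0 * (r ^ 2) ^ η)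
            = ENNReal.ofReal (2 ^ E₁) * (ENNReal.ofReal (max D 0 ^ (qq V / 2) * (r ^ 2) ^ η)
              * (ENNReal.ofReal (max KW 0) * ENNReal.ofReal (max Kc 0))) := by
          rw [← ENNReal.ofReal_mul (le_max_right _ _), ← ENNReal.ofReal_mul (by positivity),
            ← ENNReal.ofReal_mul (by positivity)]
          congr 1
          ring
        rw [e]
        ring


/-- recentring of the weight inside the ball of radius `2R` -/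
theorem dzr_R7_wt {E R : ℝ} (hE : 0 ≤ E) (hR : 1 ≤ R) {y a : V × ℝ} (hy : ‖y - a‖ ≤ 2 * R) (y' : V × ℝ) :
    wt E 1 (y' - y) ≤ ENNReal.ofReal (3 ^ E) * wt E R (y' - a) := by
  have hR0 : 0 < R := by linarith
  have h1 : wt E 1 (y' - y) ≤ wt E R (y' - y) := wt_mono_R hE one_pos hR _
  have h2 : ENNReal.ofReal (3 ^ (-E)) ≤ wt E R (y - a) := by
    unfold wt
    refine ENNReal.ofReal_le_ofReal (Real.rpow_le_rpow_of_nonpos (by positivity) ?_ (by linarith))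
    have : ‖y - a‖ / R ≤ 2 := by rw [div_le_iff₀ hR0]; exact hy
    linarith
  have h3 := wt_peetre hE hR0 (y' - y) (y - a)
  rw [sub_add_sub_cancel] at h3
  calc wt E 1 (y' - y) ≤ wt E R (y' - y) := h1
    _ = ENNReal.ofReal (3 ^ E) * (wt E R (y' - y) * ENNReal.ofReal (3 ^ (-E))) := by
        rw [mul_left_comm, ← ENNReal.ofReal_mul (by positivity), ← Real.rpow_add (by norm_num), add_neg_cancel, Real.rpow_zero,
          ENNReal.ofReal_one, mul_one]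
    _ ≤ ENNReal.ofReal (3 ^ E) * (wt E R (y' - y) * wt E R (y - a)) := mul_le_mul_right (mul_le_mul_right h2 _) _
    _ ≤ _ := mul_le_mul_right h3 _

/-- pointwise bound of an exact field by its local mass -/
theorem dzr_R7_pt {E R A₁ : ℝ} (hE : 0 ≤ E) (hR : 1 ≤ R) {g : V → ℂ}
    (hloc : ∀ y : V × ℝ, ‖MR.ext g y‖ₑ ^ (2 : ℝ) ≤ ENNReal.ofReal A₁ * ∫⁻ y', ‖MR.ext g y'‖ₑ ^ (2 : ℝ) * wt E 1 (y' - y))
    {y a : V × ℝ} (hy : ‖y - a‖ ≤ 2 * R) : ‖MR.ext g y‖ₑ ^ (2 : ℝ) ≤ ENNReal.ofReal A₁ * ENNReal.ofReal (3 ^ E * R) * MR.lm E R g a := by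
  have hR0 : 0 < R := by linarith
  have h1 : ∫⁻ y', ‖MR.ext g y'‖ₑ ^ (2 : ℝ) * wt E 1 (y' - y) ≤ ENNReal.ofReal (3 ^ E) * ∫⁻ y', ‖MR.ext g y'‖ₑ ^ (2 : ℝ) * wt E R (y' - a) := by
    rw [← lintegral_const_mul' _ _ ENNReal.ofReal_ne_top]
    refine lintegral_mono fun y' => ?_
    rw [mul_left_comm]
    exact mul_le_mul_right (dzr_R7_wt hE hR hy y') _
  have h2 : ∫⁻ y', ‖MR.ext g y'‖ₑ ^ (2 : ℝ) * wt E R (y' - a) = ENNReal.ofReal R * MR.lm E R g a := by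
    unfold MR.lm
    rw [← mul_assoc, ← ENNReal.ofReal_mul hR0.le, mul_inv_cancel₀ hR0.ne', ENNReal.ofReal_one, one_mul]
  calc ‖MR.ext g y‖ₑ ^ (2 : ℝ) ≤ ENNReal.ofReal A₁ * ∫⁻ y', ‖MR.ext g y'‖ₑ ^ (2 : ℝ) * wt E 1 (y' - y) := hloc y
    _ ≤ ENNReal.ofReal A₁ * (ENNReal.ofReal (3 ^ E) * (ENNReal.ofReal R * MR.lm E R g a)) := by
        rw [← h2]; exact mul_le_mul_right h1 _
    _ = _ := by rw [ENNReal.ofReal_mul (by positivity)]; ring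

theorem dzr_R7_bw_one {r : ℝ} {y : V × ℝ} (h : ‖y‖ ≤ r) : bw r y = 1 := by
  unfold bw
  rw [indicator_of_mem (by rwa [mem_closedBall, dist_zero_right])]
  rfl

theorem dzr_R7_bw_zero {r : ℝ} {y : V × ℝ} (h : ¬ ‖y‖ ≤ r) : bw r y = 0 := by
  unfold bw
  rw [indicator_of_notMem (by rwa [mem_closedBall, dist_zero_right])]

theorem dzr_R7_lint_bw (r : ℝ) (z : V × ℝ) : ∫⁻ y, bw r (y - z) = volume (closedBall (0 : V × ℝ) r) := by
  have := wt_haar (V := V)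
  rw [lintegral_sub_right_eq_self (fun y => bw r y) z]
  unfold bw
  rw [lintegral_indicator_one measurableSet_closedBall]

/-- the functional of a field which is bounded on the ball of radius `2R` -/
theorem dzr_R7_rsg {q ρ R : ℝ} (hq : 0 < q) (hρR : ρ ≤ R) {F : V × ℝ → ℂ} {a : V × ℝ} {X : ℝ≥0∞}
    (hF : ∀ y, ‖y - a‖ ≤ 2 * R → ‖F y‖ₑ ^ (2 : ℝ) ≤ X) :
    rsg q ρ (fun z => bw R (z - a)) (bw ρ) F ≤ ENNReal.ofReal ρ⁻¹ * ((ENNReal.ofReal (ρ ^ (-(Module.finrank ℝ V : ℝ))) *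
      (volume (closedBall a.1 R) * (X * volume (closedBall (0 : V × ℝ) ρ) ^ (2 / q)))) ^ (q / 2) * ENNReal.ofReal (2 * R)) := by
  have hq2 : 0 < q / 2 := by positivity
  have h2q : 0 < 2 / q := by positivity
  have h1 : ∀ z : V × ℝ, ‖z - a‖ ≤ R → lqw q (bw ρ) F z ^ (2 / q) ≤ X * volume (closedBall (0 : V × ℝ) ρ) ^ (2 / q) := by
    intro z hz
    have hm : Measurable fun y : V × ℝ => bw ρ (y - z) := (dz_measurable_bw ρ).comp (measurable_id.sub_const z)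
    have h2 : lqw q (bw ρ) F z ≤ X ^ (q / 2) * volume (closedBall (0 : V × ℝ) ρ) := by
      unfold lqw
      rw [← dzr_R7_lint_bw ρ z, ← lintegral_const_mul _ hm]
      refine lintegral_mono fun y => ?_
      by_cases hy : ‖y - z‖ ≤ ρ
      · refine mul_le_mul_left ?_ _
        have h3 : ‖y - a‖ ≤ 2 * R := by
          have := norm_add_le (y - z) (z - a)
          rw [sub_add_sub_cancel] at this
          linarith
        calc ‖F y‖ₑ ^ q = (‖F y‖ₑ ^ (2 : ℝ)) ^ (q / 2) := by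
              rw [← ENNReal.rpow_mul]; congr 1; ring
          _ ≤ _ := ENNReal.rpow_le_rpow (hF y h3) hq2.le
      · rw [dzr_R7_bw_zero hy, mul_zero, mul_zero]
    refine (ENNReal.rpow_le_rpow h2 h2q.le).trans (le_of_eq ?_)
    rw [ENNReal.mul_rpow_of_nonneg _ _ h2q.le, ← ENNReal.rpow_mul]
    congr 1
    rw [show q / 2 * (2 / q) = 1 by field_simp, ENNReal.rpow_one]
  have h4 : ∀ t : ℝ, ∫⁻ x : V, bw R ((x, t) - a) * lqw q (bw ρ) F (x, t) ^ (2 / q) ≤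
      (Icc (a.2 - R) (a.2 + R)).indicator (fun _ => volume (closedBall a.1 R) * (X * volume (closedBall (0 : V × ℝ) ρ) ^ (2 / q))) t := by
    intro t
    by_cases ht : t ∈ Icc (a.2 - R) (a.2 + R)
    · rw [indicator_of_mem ht]
      calc ∫⁻ x : V, bw R ((x, t) - a) * lqw q (bw ρ) F (x, t) ^ (2 / q)
          ≤ ∫⁻ x : V, (closedBall a.1 R).indicator 1 x * (X * volume (closedBall (0 : V × ℝ) ρ) ^ (2 / q)) := by
            refine lintegral_mono fun x => ?_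
            by_cases hx : ‖((x, t) : V × ℝ) - a‖ ≤ R
            · have hx1 : x ∈ closedBall a.1 R := by
                rw [mem_closedBall, dist_eq_norm]
                exact (norm_fst_le (((x, t) : V × ℝ) - a)).trans hx
              rw [dzr_R7_bw_one hx, indicator_of_mem hx1]
              exact mul_le_mul_right (h1 _ hx) _
            · rw [dzr_R7_bw_zero hx, zero_mul]
              exact zero_le
        _ = _ := by
            rw [lintegral_mul_const _ (measurable_one.indicator measurableSet_closedBall),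
              lintegral_indicator_one measurableSet_closedBall]
    · rw [indicator_of_notMem ht]
      have h0 : ∀ x : V, bw R ((x, t) - a) * lqw q (bw ρ) F (x, t) ^ (2 / q) = 0 := by
        intro x
        have hx : ¬ ‖((x, t) : V × ℝ) - a‖ ≤ R := by
          intro hx
          apply ht
          have h5 : |t - a.2| ≤ R := (norm_snd_le (((x, t) : V × ℝ) - a)).trans hx
          rw [abs_le] at h5
          exact ⟨by linarith [h5.1], by linarith [h5.2]⟩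
        rw [dzr_R7_bw_zero hx, zero_mul]
      simp only [h0, lintegral_zero, le_refl]
  unfold rsg
  refine mul_le_mul_right ?_ _
  calc ∫⁻ t : ℝ, (ENNReal.ofReal (ρ ^ (-(Module.finrank ℝ V : ℝ))) * ∫⁻ x : V, bw R ((x, t) - a) * lqw q (bw ρ) F (x, t) ^ (2 / q)) ^ (q / 2)
      ≤ ∫⁻ t : ℝ, (Icc (a.2 - R) (a.2 + R)).indicator (fun _ => (ENNReal.ofReal (ρ ^ (-(Module.finrank ℝ V : ℝ))) *
          (volume (closedBall a.1 R) * (X * volume (closedBall (0 : V × ℝ) ρ) ^ (2 / q)))) ^ (q / 2)) t := by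
        refine lintegral_mono fun t => ?_
        refine (ENNReal.rpow_le_rpow (mul_le_mul_right (h4 t) _) hq2.le).trans (le_of_eq ?_)
        by_cases ht : t ∈ Icc (a.2 - R) (a.2 + R)
        · rw [indicator_of_mem ht, indicator_of_mem ht]
        · rw [indicator_of_notMem ht, indicator_of_notMem ht, mul_zero, ENNReal.zero_rpow_of_pos hq2]
    _ = _ := by
        rw [lintegral_indicator_const measurableSet_Icc, Real.volume_Icc]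
        congr 2
        ring

theorem dzr_R7_ofReal5 {x1 x2 x3 x4 x5 : ℝ} (h1 : 0 ≤ x1) (h2 : 0 ≤ x2) (h3 : 0 ≤ x3) (h4 : 0 ≤ x4) (Φ : ℝ≥0∞) :
    1 * (ENNReal.ofReal x1 * (ENNReal.ofReal x2 * (ENNReal.ofReal x3 * ENNReal.ofReal x4 * Φ) * ENNReal.ofReal x5)) =
      ENNReal.ofReal (x1 * (x2 * (x3 * x4) * x5)) * Φ := by
  rw [ENNReal.ofReal_mul h1, ENNReal.ofReal_mul (by positivity), ENNReal.ofReal_mul h2, ENNReal.ofReal_mul h3]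
  ring

/-- **LEAF L-DZ-R7: THE POLYNOMIAL BOUND** (~250 l.).    `R = ρ²`, `Φ = ∑ j ∈ s, MR.lm E R (G j) a`, `F = ∑ j ∈ s, MR.ext (G j)`.
(1) `#s ≤ (2 C₀ ρ + 1)^k` (`BD.card_le_of_sep`).   (2) for `‖y - a‖ ≤ 2R`:  `|F y|² ≤ #s ∑_j |ext (G j) y|²` (Cauchy-Schwarz), `dz_loc_const` (`p = 2`, radius `C₀ + 1`), `wt E 1 (y' - y) ≤ wt E R (y' - y) ≤ 3^E wt E R (y' - a)`:   `|F y|² ≤ K ρ^(k+2) Φ`.
(3) if `bw R (z - a) ≠ 0` then `B(z,ρ) ⊆ B(a,2R)`:  `lqw q (bw ρ) F z ≤ vol(B_ρ) (K ρ^(k+2) Φ)^(q/2)` (`BD.exists_volume_closedBall`).   (4) the `x`-integral is over a ball of `V` of radius `R`, the `t`-integral over an interval of length `2R`.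
Total power of `ρ`:  `≤ 3 (3k+3) + 1 ≤ 12 k + 12`  (`q/2 ≤ 3`, `2/q ≤ 1`, `ρ ≥ 1`). -/
theorem dz_rs_base (hk : 1 ≤ Module.finrank ℝ V) (C₀ E : ℝ) (hC₀ : 0 ≤ C₀) (hE : 0 ≤ E) : ∃ K : ℝ, ∀ ρ : ℝ, 1 ≤ ρ →
    RslLe V C₀ E ρ (ENNReal.ofReal (K * ρ ^ (12 * (Module.finrank ℝ V : ℝ) + 12))) := by
  classical
  obtain ⟨A₁, hA₁⟩ := dz_loc_const (V := V) (C₀ + 1) E 2 (by linarith) hE (by norm_num)
  obtain ⟨cd, hcd, hvol⟩ := exists_volume_closedBall (V := V)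
  obtain ⟨hq2, hq6, -, -, -⟩ := dz_qq (V := V) hk
  have hq0 : 0 < qq V := by linarith
  have hck : volume (ball (0 : V) 1) ≠ ⊤ := measure_ball_lt_top.ne
  refine ⟨2 * (max ((volume (ball (0 : V) 1)).toReal * (2 * C₀ + 1) ^ Module.finrank ℝ V * max A₁ 0 * 3 ^ E * max cd 1) 1) ^ 3,
    fun ρ hρ ι s c G hcl a => ?_⟩
  generalize hZ : max ((volume (ball (0 : V) 1)).toReal * (2 * C₀ + 1) ^ Module.finrank ℝ V * max A₁ 0 * 3 ^ E * max cd 1) 1 = Z₁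
  have hZ1 : 1 ≤ Z₁ := hZ ▸ le_max_right _ _
  have hZ0 : (volume (ball (0 : V) 1)).toReal * (2 * C₀ + 1) ^ Module.finrank ℝ V * max A₁ 0 * 3 ^ E * max cd 1 ≤ Z₁ := hZ ▸ le_max_left _ _
  have hρ0 : 0 < ρ := by linarith
  have hR1 : 1 ≤ ρ ^ 2 := one_le_pow₀ hρ
  have hρR : ρ ≤ ρ ^ 2 := by nlinarith
  have hinv : ρ⁻¹ ≤ 1 := inv_le_one_of_one_le₀ hρ
  -- counting
  have hinj : Set.InjOn c (s : Set ι) := by
    intro j hj j' hj' h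
    by_contra hne
    have := hcl.sep j hj j' hj' hne
    rw [h, sub_self, norm_zero] at this
    have : 0 < ρ⁻¹ := inv_pos.2 hρ0
    linarith
  have hcard : (s.card : ℝ) ≤ ((2 * C₀ + 1) * ρ) ^ Module.finrank ℝ V := by
    have h1 := card_le_of_sep (A := C₀ * ρ) (r := ρ⁻¹) (by positivity) (inv_pos.2 hρ0) (s.image c) 0
      (fun x hx => by
        obtain ⟨j, hj, rfl⟩ := Finset.mem_image.1 hx
        rw [sub_zero, mul_assoc, mul_inv_cancel₀ hρ0.ne', mul_one]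
        exact hcl.bdd j hj)
      (fun x hx x' hx' hne => by
        obtain ⟨j, hj, rfl⟩ := Finset.mem_image.1 hx
        obtain ⟨j', hj', rfl⟩ := Finset.mem_image.1 hx'
        exact hcl.sep j hj j' hj' fun h => hne (by rw [h]))
    rw [Finset.card_image_of_injOn hinj] at h1
    refine h1.trans (pow_le_pow_left₀ (by positivity) ?_ _)
    nlinarith
  -- pointwise bound
  have hF : ∀ y, ‖y - a‖ ≤ 2 * ρ ^ 2 → ‖∑ j ∈ s, MR.ext (G j) y‖ₑ ^ (2 : ℝ) ≤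
      (s.card : ℝ≥0∞) * (ENNReal.ofReal A₁ * ENNReal.ofReal (3 ^ E * ρ ^ 2) * ∑ j ∈ s, MR.lm E (ρ ^ 2) (G j) a) := by
    intro y hy
    have h1 := ENNReal.rpow_sum_le_const_mul_sum_rpow s (fun j => ‖MR.ext (G j) y‖ₑ) (p := 2) (by norm_num)
    have h2 : (s.card : ℝ≥0∞) ^ ((2 : ℝ) - 1) = s.card := by norm_num
    rw [h2] at h1
    refine (ENNReal.rpow_le_rpow (enorm_sum_le _ _) (by norm_num)).trans (h1.trans (mul_le_mul_right ?_ _))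
    rw [Finset.mul_sum]
    refine Finset.sum_le_sum fun j hj => dzr_R7_pt hE hR1 (hA₁ (G j) (hcl.integrable hj) fun ξ hξ => hcl.supp j hj ξ ?_) hy
    have h3 := hcl.bdd j hj
    have h4 : ‖ξ‖ ≤ ‖ξ - c j‖ + ‖c j‖ := by
      have := norm_add_le (ξ - c j) (c j)
      rwa [sub_add_cancel] at this
    linarith
  refine (dzr_R7_rsg hq0 hρR hF).trans ?_
  generalize (∑ j ∈ s, MR.lm E (ρ ^ 2) (G j) a) = Φ
  -- numerics
  have p1 : ENNReal.ofReal (ρ ^ (-(Module.finrank ℝ V : ℝ))) ≤ 1 := by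
    rw [← ENNReal.ofReal_one]
    exact ENNReal.ofReal_le_ofReal (Real.rpow_le_one_of_one_le_of_nonpos hρ (by simp))
  have p2 : volume (closedBall a.1 (ρ ^ 2)) = ENNReal.ofReal ((volume (ball (0 : V) 1)).toReal * ρ ^ (2 * Module.finrank ℝ V)) := by
    rw [Measure.addHaar_closedBall volume a.1 (by positivity), ENNReal.ofReal_mul ENNReal.toReal_nonneg, ENNReal.ofReal_toReal hck, ← pow_mul,
      mul_comm]
  have p3 : (s.card : ℝ≥0∞) ≤ ENNReal.ofReal ((2 * C₀ + 1) ^ Module.finrank ℝ V * ρ ^ Module.finrank ℝ V) := by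
    rw [← ENNReal.ofReal_natCast, ← mul_pow]
    exact ENNReal.ofReal_le_ofReal hcard
  have p4 : ENNReal.ofReal A₁ ≤ ENNReal.ofReal (max A₁ 0) := ENNReal.ofReal_le_ofReal (le_max_left _ _)
  have p5 : volume (closedBall (0 : V × ℝ) ρ) ^ (2 / qq V) ≤ ENNReal.ofReal (max cd 1 * ρ ^ (Module.finrank ℝ V + 1)) := by
    have h1 : volume (closedBall (0 : V × ℝ) ρ) ≤ ENNReal.ofReal (max cd 1 * ρ ^ (Module.finrank ℝ V + 1)) := by
      rw [hvol 0 ρ hρ0, Real.rpow_natCast]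
      exact ENNReal.ofReal_le_ofReal (mul_le_mul_of_nonneg_right (le_max_left _ _) (by positivity))
    have h2 : 1 ≤ ENNReal.ofReal (max cd 1 * ρ ^ (Module.finrank ℝ V + 1)) := by
      rw [← ENNReal.ofReal_one]
      refine ENNReal.ofReal_le_ofReal ?_
      have := one_le_pow₀ hρ (n := Module.finrank ℝ V + 1)
      have h3 : (1 : ℝ) ≤ max cd 1 := le_max_right _ _
      nlinarith
    refine (ENNReal.rpow_le_rpow h1 (by positivity)).trans ?_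
    have h3 := ENNReal.rpow_le_rpow_of_exponent_le h2 (show 2 / qq V ≤ 1 by rw [div_le_one hq0]; linarith)
    rwa [ENNReal.rpow_one] at h3
  have hm0 : 0 ≤ max A₁ 0 := le_max_right _ _
  have hc0 : 0 < max cd 1 := lt_of_lt_of_le one_pos (le_max_right _ _)
  have hT : ENNReal.ofReal (ρ ^ (-(Module.finrank ℝ V : ℝ))) * (volume (closedBall a.1 (ρ ^ 2)) *
      ((s.card : ℝ≥0∞) * (ENNReal.ofReal A₁ * ENNReal.ofReal (3 ^ E * ρ ^ 2) * Φ) * volume (closedBall (0 : V × ℝ) ρ) ^ (2 / qq V))) ≤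
      ENNReal.ofReal (Z₁ * ρ ^ (4 * Module.finrank ℝ V + 3)) * Φ := by
    calc _ ≤ 1 * (ENNReal.ofReal ((volume (ball (0 : V) 1)).toReal * ρ ^ (2 * Module.finrank ℝ V)) *
          (ENNReal.ofReal ((2 * C₀ + 1) ^ Module.finrank ℝ V * ρ ^ Module.finrank ℝ V) *
            (ENNReal.ofReal (max A₁ 0) * ENNReal.ofReal (3 ^ E * ρ ^ 2) * Φ) * ENNReal.ofReal (max cd 1 * ρ ^ (Module.finrank ℝ V + 1)))) := by
          rw [p2]
          exact mul_le_mul' p1 (mul_le_mul_right (mul_le_mul' (mul_le_mul' p3 (mul_le_mul_left (mul_le_mul_left p4 _) _)) p5) _)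
      _ = ENNReal.ofReal (((volume (ball (0 : V) 1)).toReal * ρ ^ (2 * Module.finrank ℝ V)) *
          (((2 * C₀ + 1) ^ Module.finrank ℝ V * ρ ^ Module.finrank ℝ V) * ((max A₁ 0) * (3 ^ E * ρ ^ 2)) * (max cd 1 * ρ ^ (Module.finrank ℝ V + 1)))) * Φ := by
          exact dzr_R7_ofReal5 (by positivity) (by positivity) hm0 (by positivity) Φ
      _ ≤ _ := by
          refine mul_le_mul_left (ENNReal.ofReal_le_ofReal ?_) _
          calc _ = ((volume (ball (0 : V) 1)).toReal * (2 * C₀ + 1) ^ Module.finrank ℝ V * max A₁ 0 * 3 ^ E * max cd 1) *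
                ρ ^ (4 * Module.finrank ℝ V + 3) := by ring
            _ ≤ _ := mul_le_mul_of_nonneg_right hZ0 (by positivity)
  have hW1 : 1 ≤ ENNReal.ofReal (Z₁ * ρ ^ (4 * Module.finrank ℝ V + 3)) := by
    rw [← ENNReal.ofReal_one]
    refine ENNReal.ofReal_le_ofReal ?_
    have := one_le_pow₀ hρ (n := 4 * Module.finrank ℝ V + 3)
    nlinarith
  have hW3 : ENNReal.ofReal (Z₁ * ρ ^ (4 * Module.finrank ℝ V + 3)) ^ (qq V / 2) ≤ ENNReal.ofReal (Z₁ * ρ ^ (4 * Module.finrank ℝ V + 3)) ^ 3 := by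
    have := ENNReal.rpow_le_rpow_of_exponent_le hW1 (show qq V / 2 ≤ (3 : ℕ) by push_cast; linarith)
    rwa [ENNReal.rpow_natCast] at this
  calc _ ≤ ENNReal.ofReal ρ⁻¹ * ((ENNReal.ofReal (Z₁ * ρ ^ (4 * Module.finrank ℝ V + 3)) * Φ) ^ (qq V / 2) * ENNReal.ofReal (2 * ρ ^ 2)) :=
        mul_le_mul_right (mul_le_mul_left (ENNReal.rpow_le_rpow hT (by positivity)) _) _
    _ ≤ ENNReal.ofReal ρ⁻¹ * ((ENNReal.ofReal (Z₁ * ρ ^ (4 * Module.finrank ℝ V + 3)) ^ 3 * Φ ^ (qq V / 2)) * ENNReal.ofReal (2 * ρ ^ 2)) := by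
        rw [ENNReal.mul_rpow_of_nonneg _ _ (by positivity)]
        exact mul_le_mul_right (mul_le_mul_left (mul_le_mul_left hW3 _) _) _
    _ = ENNReal.ofReal (ρ⁻¹ * (Z₁ * ρ ^ (4 * Module.finrank ℝ V + 3)) ^ 3 * (2 * ρ ^ 2)) * Φ ^ (qq V / 2) := by
        conv_rhs => rw [ENNReal.ofReal_mul (by positivity), ENNReal.ofReal_mul (by positivity), ENNReal.ofReal_pow (by positivity)]
        ring
    _ ≤ _ := by
        refine mul_le_mul_left (ENNReal.ofReal_le_ofReal ?_) _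
        have e1 : ρ ^ (12 * (Module.finrank ℝ V : ℝ) + 12) = ρ ^ (12 * Module.finrank ℝ V + 12) := by
          rw [← Real.rpow_natCast]
          congr 1
          push_cast
          ring
        have e2 : ρ⁻¹ * (Z₁ * ρ ^ (4 * Module.finrank ℝ V + 3)) ^ 3 * (2 * ρ ^ 2) = 2 * Z₁ ^ 3 * ρ ^ (12 * Module.finrank ℝ V + 10) := by
          field_simp
          ring
        rw [e1, e2]
        exact mul_le_mul_of_nonneg_left (pow_le_pow_right₀ hρ (by omega)) (by positivity)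

theorem RslLe.mono {C₀ E ρ : ℝ} {A A' : ℝ≥0∞} (h : RslLe V C₀ E ρ A) (hA : A ≤ A') : RslLe V C₀ E ρ A' :=
  fun ι s c G hcl a => le_trans (h ι s c G hcl a) (mul_le_mul_left hA _)

/-- **LEAF L-DZ-R8: `J` steps** (~100 l.).    Induction on `J`.   `J = 0`: `dz_rs_base`, `ρ^M ≤ ρ^(2η + M)`.   `J + 1`: the induction hypothesis for `(C₀, E) := (1, 2E + 2k + 2)` at `r = √ρ` (`Real.sq_sqrt`, `1 ≤ √ρ`), `dz_rs_step`:
`K_s (r²)^η K' r^(2η + M/2^J) = K_s K' ρ^(2η + M/2^(J+1))`. -/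
theorem dz_rs_iter (hk : 1 ≤ Module.finrank ℝ V) (η : ℝ) (hη : 0 < η) (J : ℕ) : ∀ C₀ E : ℝ, 0 ≤ C₀ → 0 ≤ E → ∃ K : ℝ, ∀ ρ : ℝ, 1 ≤ ρ →
    RslLe V C₀ E ρ (ENNReal.ofReal (K * ρ ^ (2 * η + (12 * (Module.finrank ℝ V : ℝ) + 12) / 2 ^ J))) := by
  induction J with
  | zero =>
    intro C₀ E hC₀ hE
    obtain ⟨K, hK⟩ := dz_rs_base (V := V) hk C₀ E hC₀ hE
    refine ⟨|K|, fun ρ hρ => (hK ρ hρ).mono (ENNReal.ofReal_le_ofReal ?_)⟩
    have h1 : ρ ^ (12 * (Module.finrank ℝ V : ℝ) + 12) ≤ ρ ^ (2 * η + (12 * (Module.finrank ℝ V : ℝ) + 12) / 2 ^ 0) :=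
      Real.rpow_le_rpow_of_exponent_le hρ (by rw [pow_zero, div_one]; linarith)
    have h0 : 0 ≤ ρ ^ (12 * (Module.finrank ℝ V : ℝ) + 12) := by positivity
    calc K * ρ ^ (12 * (Module.finrank ℝ V : ℝ) + 12) ≤ |K| * ρ ^ (12 * (Module.finrank ℝ V : ℝ) + 12) :=
          mul_le_mul_of_nonneg_right (le_abs_self K) h0
      _ ≤ _ := mul_le_mul_of_nonneg_left h1 (abs_nonneg K)
  | succ J ih =>
    intro C₀ E hC₀ hE
    obtain ⟨K', hK'⟩ := ih 1 (2 * E + 2 * (Module.finrank ℝ V : ℝ) + 2) zero_le_one (by positivity)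
    obtain ⟨Ks, hKs⟩ := dz_rs_step (V := V) hk C₀ E η hC₀ hE hη
    refine ⟨|Ks| * |K'|, fun ρ hρ => ?_⟩
    have hρ0 : 0 < ρ := by linarith
    have hr : 1 ≤ √ρ := Real.one_le_sqrt.2 hρ
    have h1 := hKs (√ρ) _ hr (hK' (√ρ) hr)
    rw [Real.sq_sqrt hρ0.le] at h1
    refine h1.mono ?_
    have e1 : √ρ ^ (2 * η + (12 * (Module.finrank ℝ V : ℝ) + 12) / 2 ^ J) = ρ ^ (η + (12 * (Module.finrank ℝ V : ℝ) + 12) / 2 ^ (J + 1)) := by
      rw [Real.sqrt_eq_rpow, ← Real.rpow_mul hρ0.le]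
      congr 1
      rw [pow_succ]
      field_simp
    rw [e1]
    have e2 : |Ks| * |K'| * ρ ^ (2 * η + (12 * (Module.finrank ℝ V : ℝ) + 12) / 2 ^ (J + 1))
        = (|Ks| * ρ ^ η) * (|K'| * ρ ^ (η + (12 * (Module.finrank ℝ V : ℝ) + 12) / 2 ^ (J + 1))) := by
      rw [show 2 * η + (12 * (Module.finrank ℝ V : ℝ) + 12) / 2 ^ (J + 1) = η + (η + (12 * (Module.finrank ℝ V : ℝ) + 12) / 2 ^ (J + 1)) by ring,
        Real.rpow_add hρ0 η]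
      ring
    rw [e2, ENNReal.ofReal_mul (p := |Ks| * ρ ^ η) (by positivity)]
    refine mul_le_mul' (ENNReal.ofReal_le_ofReal ?_) (ENNReal.ofReal_le_ofReal ?_)
    · exact mul_le_mul_of_nonneg_right (le_abs_self _) (by positivity)
    · exact mul_le_mul_of_nonneg_right (le_abs_self _) (by positivity)

/-- **`RSL`** (LEAF L-DZ-R9, ~40 l.:  `η = ε/4`, `J` with `(12k+12)/2^J ≤ ε/2`, `RslLe.mono`; replace `K` by `max K 0`). -/
theorem dz_rsl (hk : 1 ≤ Module.finrank ℝ V) : RslPow V := by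
  intro C₀ E ε hC₀ hE hε
  obtain ⟨J, hJ⟩ := pow_unbounded_of_one_lt ((12 * (Module.finrank ℝ V : ℝ) + 12) / (ε / 2)) (one_lt_two : (1 : ℝ) < 2)
  obtain ⟨K, hK⟩ := dz_rs_iter (V := V) hk (ε / 4) (by positivity) J C₀ E hC₀ hE
  refine ⟨|K|, fun ρ hρ => (hK ρ hρ).mono (ENNReal.ofReal_le_ofReal ?_)⟩
  have h2 : (12 * (Module.finrank ℝ V : ℝ) + 12) / 2 ^ J ≤ ε / 2 := by
    rw [div_lt_iff₀ (by positivity)] at hJ
    rw [div_le_iff₀ (by positivity)]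
    linarith
  have h1 : ρ ^ (2 * (ε / 4) + (12 * (Module.finrank ℝ V : ℝ) + 12) / 2 ^ J) ≤ ρ ^ ε :=
    Real.rpow_le_rpow_of_exponent_le hρ (by linarith)
  have h0 : 0 ≤ ρ ^ (2 * (ε / 4) + (12 * (Module.finrank ℝ V : ℝ) + 12) / 2 ^ J) := by positivity
  calc K * ρ ^ (2 * (ε / 4) + (12 * (Module.finrank ℝ V : ℝ) + 12) / 2 ^ J) ≤ |K| * ρ ^ (2 * (ε / 4) + (12 * (Module.finrank ℝ V : ℝ) + 12) / 2 ^ J) :=
        mul_le_mul_of_nonneg_right (le_abs_self K) h0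
    _ ≤ _ := mul_le_mul_of_nonneg_left h1 (abs_nonneg K)

/-- **EXIT of the file: `RSL` with polynomial weights** (LEAF L-DZ-R10, ~100 l.:  `dz_rsl`, `dz_rsl_polyW`, `dz_rsl_polyO` with `Φ a = ∑ j ∈ s, MR.lm E (ρ²) (G j) a`, `dz_lm_peetre`). -/
theorem dz_rsl_wt (hk : 1 ≤ Module.finrank ℝ V) (C₀ E ε E₁ E₂ : ℝ) (hC₀ : 0 ≤ C₀) (hE : 0 ≤ E) (hε : 0 < ε) (hE₁ : qq V / 2 * (E + (dd V : ℝ)) < E₁) (hE₂ : E + (dd V : ℝ) < E₂) :
    ∃ C : ℝ, ∀ (ρ : ℝ) (ι : Type) (s : Finset ι) (c : ι → V) (G : ι → V → ℂ), 1 ≤ ρ → Cl C₀ ρ⁻¹ s c G → ∀ a : V × ℝ,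
    rsg (qq V) ρ (fun z => wt E₂ (ρ ^ 2) (z - a)) (wt E₁ ρ) (fun y => ∑ j ∈ s, MR.ext (G j) y) ≤ ENNReal.ofReal (C * ρ ^ ε) * (∑ j ∈ s, MR.lm E (ρ ^ 2) (G j) a) ^ (qq V / 2) := by
  obtain ⟨hq2, -⟩ := dz_qq (V := V) hk
  obtain ⟨C, hC⟩ := dz_rsl (V := V) hk C₀ E ε hC₀ hE hε
  obtain ⟨K₁, hK₁⟩ := dz_rsl_polyW (V := V) (qq V) E E₁ hq2.le hE hE₁
  obtain ⟨K₂, hK₂⟩ := dz_rsl_polyO (V := V) (qq V) E E₂ hq2.le hE hE₂
  refine ⟨|K₂| * |K₁| * |C|, fun ρ ι s c G hρ hcl a => ?_⟩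
  have hρ0 : 0 < ρ := by linarith
  have hR0 : 0 < ρ ^ 2 := by positivity
  have hFm : Measurable (fun y => ∑ j ∈ s, MR.ext (G j) y) :=
    (continuous_finsetSum s fun j hj => MR.ext_continuous (hcl.integrable hj)).measurable
  have hΦ : ∀ a b : V × ℝ, (∑ j ∈ s, MR.lm E (ρ ^ 2) (G j) (a + b)) ≤ ENNReal.ofReal ((1 + ‖b‖ / ρ ^ 2) ^ E) * ∑ j ∈ s, MR.lm E (ρ ^ 2) (G j) a := by
    intro a b
    rw [Finset.mul_sum]
    exact Finset.sum_le_sum fun j _ => dz_lm_peetre hE hR0 (G j) a b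
  have h1 := hK₁ ρ (ρ ^ 2) _ (fun a => ∑ j ∈ s, MR.lm E (ρ ^ 2) (G j) a) _ hρ0 (by nlinarith) hFm hΦ (fun a => hC ρ hρ ι s c G hcl a)
  have h2 := hK₂ ρ (ρ ^ 2) _ _ (fun a => ∑ j ∈ s, MR.lm E (ρ ^ 2) (G j) a) _ hR0 (measurable_wt E₁ ρ) hFm hΦ h1 a
  refine h2.trans (mul_le_mul' ?_ le_rfl)
  rw [mul_assoc, mul_assoc, ENNReal.ofReal_mul (abs_nonneg _), ENNReal.ofReal_mul (abs_nonneg _)]
  refine mul_le_mul' (ENNReal.ofReal_le_ofReal (le_abs_self _)) (mul_le_mul' (ENNReal.ofReal_le_ofReal (le_abs_self _)) (ENNReal.ofReal_le_ofReal ?_))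
  exact mul_le_mul_of_nonneg_right (le_abs_self _) (by positivity)

end Claimed.Agent.DZ
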