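import Claimed.Agent.Lib.DZ.MDefs
import Claimed.Agent.Lib.DZ.Rs

/-!
# Box DZ, file Mr: the MASS factor of `MRS*` (step (d) of `MDefs.lean`), in the rescaled coordinates of one cluster.      CONTRACT (captain helper3)
PAPER-FREE.  Every `sorry` is a leaf `L-DZ-M*`.  Statements are frozen (tell helper3 at once if one looks false or awkward); auxiliary lemmas (prefix `dzm_`) directly above your theorem; edit only your block.
`H` = a continuous bounded field, not identically `0`;  `m : V → ℝ≥0∞` = a positive finite slowly varying function;  cube radius `r ≥ 1`, ball radius `r²`.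
`xs z = lqw q (wt E₁ r) H z ^(2/q)`,   `Xs z = r^(-k) ∫ wv E₂ r² (x - z.1) xs (x, z.2) dx`,   `ys z = xs z * m z.1 / Xs z`.
-/

set_option autoImplicit false
open MeasureTheory Set Metric
open scoped ENNReal NNReal RealInnerProductSpace

namespace Claimed.Agent.DZ

open Claimed.Agent.BD

variable {V : Type} [NormedAddCommGroup V] [InnerProductSpace ℝ V] [FiniteDimensional ℝ V] [MeasurableSpace V] [BorelSpace V]

/-! ## measurability, positivity, finiteness -/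

/-- **LEAF L-DZ-M0** (this and the next three, ~80 l.;  `dz_measurable_lqw`, `BD.measurable_wt`, `Measurable.lintegral_prod_right'`). -/
theorem dz_measurable_wr (E R : ℝ) : Measurable (wr E R) := by
  unfold wr
  exact ENNReal.measurable_ofReal.comp (Measurable.pow_const (by fun_prop) _)

theorem dz_measurable_xs (q E₁ r : ℝ) {H : V × ℝ → ℂ} (hH : Measurable H) : Measurable (xs q E₁ r H) := by
  unfold xs
  exact (dz_measurable_lqw q (measurable_wt E₁ r) hH).pow_const _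

theorem dz_measurable_Xs (q E₁ E₂ r : ℝ) {H : V × ℝ → ℂ} (hH : Measurable H) : Measurable (Xs q E₁ E₂ r H) := by
  unfold Xs
  have h : Measurable fun p : (V × ℝ) × V => wv E₂ (r ^ 2) (p.2 - p.1.1) * xs q E₁ r H (p.2, p.1.2) :=
    ((dz_measurable_wv E₂ (r ^ 2)).comp (measurable_snd.sub measurable_fst.fst)).mul
      ((dz_measurable_xs q E₁ r hH).comp (measurable_snd.prodMk measurable_fst.snd))
  exact h.lintegral_prod_right'.const_mul _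

theorem dz_measurable_ys (q E₁ E₂ r : ℝ) {H : V × ℝ → ℂ} (hH : Measurable H) {m : V → ℝ≥0∞} (hm : Measurable m) : Measurable (ys q E₁ E₂ r H m) := by
  unfold ys
  exact ((dz_measurable_xs q E₁ r hH).mul (hm.comp measurable_fst)).div (dz_measurable_Xs q E₁ E₂ r hH)

/-- a uniform bound of the local norms of a bounded field -/
theorem dzm_lqw_le {q E₁ r : ℝ} (hq : 0 ≤ q) {H : V × ℝ → ℂ} {B : ℝ} (hB : ∀ z, ‖H z‖ ≤ B) (z : V × ℝ) :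
    lqw q (wt E₁ r) H z ≤ ENNReal.ofReal B ^ q * ∫⁻ y : V × ℝ, wt E₁ r y := by
  have := wt_haar (V := V)
  unfold lqw
  rw [← lintegral_sub_right_eq_self (wt E₁ r) z, ← lintegral_const_mul' _ _ (ENNReal.rpow_ne_top_of_nonneg hq ENNReal.ofReal_ne_top)]
  refine lintegral_mono fun y => mul_le_mul_left ?_ _
  refine ENNReal.rpow_le_rpow ?_ hq
  rw [← ofReal_norm]
  exact ENNReal.ofReal_le_ofReal (hB y)

theorem dzm_xs_le {q E₁ r : ℝ} (hq : 0 < q) {H : V × ℝ → ℂ} {B : ℝ} (hB : ∀ z, ‖H z‖ ≤ B) (z : V × ℝ) :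
    xs q E₁ r H z ≤ (ENNReal.ofReal B ^ q * ∫⁻ y : V × ℝ, wt E₁ r y) ^ (2 / q) := by
  unfold xs
  exact ENNReal.rpow_le_rpow (dzm_lqw_le hq.le hB z) (by positivity)

theorem dzm_xs_bd_ne_top {q E₁ r : ℝ} (hq : 0 < q) (hE₁ : (dd V : ℝ) < E₁) (hr : 0 < r) (B : ℝ) :
    (ENNReal.ofReal B ^ q * ∫⁻ y : V × ℝ, wt E₁ r y) ^ (2 / q) ≠ ⊤ := by
  obtain ⟨c, -, h⟩ := exists_lintegral_wt (V := V) hE₁
  rw [h r hr]
  exact ENNReal.rpow_ne_top_of_nonneg (by positivity)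
    (ENNReal.mul_ne_top (ENNReal.rpow_ne_top_of_nonneg hq.le ENNReal.ofReal_ne_top) ENNReal.ofReal_ne_top)
/-- **LEAF L-DZ-M1a** (~120 l.).   `> 0`: `H` is continuous and `≠ 0` at a point, the weight is positive everywhere (`BD.wt_pos`): `lintegral_pos_iff_support`, an open nonempty set has positive volume.
`< ⊤`: `|H|^q ≤ B^q`, `BD.exists_lintegral_wt`. -/
theorem dz_xs_pos_fin {q E₁ r : ℝ} (hq : 0 < q) (hE₁ : (dd V : ℝ) < E₁) (hr : 0 < r) {H : V × ℝ → ℂ} (hc : Continuous H) {B : ℝ} (hB : ∀ z, ‖H z‖ ≤ B) (h0 : ∃ z, H z ≠ 0) (z : V × ℝ) :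
    0 < xs q E₁ r H z ∧ xs q E₁ r H z < ⊤ := by
  have hfin : xs q E₁ r H z < ⊤ := lt_of_le_of_lt (dzm_xs_le hq hB z) (dzm_xs_bd_ne_top hq hE₁ hr B).lt_top
  refine ⟨?_, hfin⟩
  have hl0 : lqw q (wt E₁ r) H z ≠ 0 := by
    intro h
    obtain ⟨z₀, hz₀⟩ := h0
    refine hz₀ (eq_zero_of_avp_eq_zero (t := q) (E := E₁) (R := r) hq hr hc (z := z) ?_ z₀)
    unfold avp
    unfold lqw at h
    rw [h, mul_zero]
  have hlt : lqw q (wt E₁ r) H z ≠ ⊤ := by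
    obtain ⟨c, -, h⟩ := exists_lintegral_wt (V := V) hE₁
    refine ne_top_of_le_ne_top ?_ (dzm_lqw_le hq.le hB z)
    rw [h r hr]
    exact ENNReal.mul_ne_top (ENNReal.rpow_ne_top_of_nonneg hq.le ENNReal.ofReal_ne_top) ENNReal.ofReal_ne_top
  unfold xs
  exact ENNReal.rpow_pos (pos_iff_ne_zero.2 hl0) hlt

theorem dzm_wv_pos (E : ℝ) {R : ℝ} (hR : 0 < R) (x : V) : 0 < wv E R x := by
  unfold wv
  have : 0 ≤ ‖x‖ / R := by positivity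
  exact ENNReal.ofReal_pos.2 (Real.rpow_pos_of_pos (by linarith) _)

/-- the integral of the weight on `V` -/
theorem dzm_lintegral_wv {E : ℝ} (hE : (Module.finrank ℝ V : ℝ) < E) :
    ∃ c : ℝ, 0 < c ∧ ∀ R : ℝ, 0 < R → ∫⁻ x : V, wv E R x = ENNReal.ofReal (c * R ^ (Module.finrank ℝ V : ℝ)) := by
  have hint : Integrable (fun y : V => (1 + ‖y‖) ^ (-E)) volume := integrable_one_add_norm hE
  have hpos : ∀ y : V, 0 < (1 + ‖y‖) ^ (-E) := fun y => Real.rpow_pos_of_pos (by positivity) _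
  refine ⟨∫ y : V, (1 + ‖y‖) ^ (-E), ?_, fun R hR => ?_⟩
  · rw [integral_pos_iff_support_of_nonneg (fun y => (hpos y).le) hint]
    have : Function.support (fun y : V => (1 + ‖y‖) ^ (-E)) = univ := by
      ext y
      simp [(hpos y).ne']
    rw [this]
    exact Measure.measure_univ_pos.2 (NeZero.ne _)
  · have e1 : ∀ y : V, (1 + ‖y‖ / R) ^ (-E) = (fun y : V => (1 + ‖y‖) ^ (-E)) (R⁻¹ • y) := by
      intro y
      simp only
      rw [norm_smul, norm_inv, Real.norm_of_nonneg hR.le, inv_mul_eq_div]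
    have hint' : Integrable (fun y : V => (1 + ‖y‖ / R) ^ (-E)) volume := by
      simp_rw [e1]
      exact hint.comp_smul (inv_ne_zero hR.ne')
    unfold wv
    rw [← ofReal_integral_eq_lintegral_ofReal hint' (Filter.Eventually.of_forall fun y => by positivity)]
    congr 1
    simp_rw [e1]
    rw [Measure.integral_comp_inv_smul_of_nonneg volume (fun y : V => (1 + ‖y‖) ^ (-E)) hR.le, smul_eq_mul,
      ← Real.rpow_natCast, mul_comm]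
/-- **LEAF L-DZ-M1b** (~120 l.).   `xs` is positive everywhere and uniformly bounded (proof of M1a: the bound does not depend on `z`), `∫ wv E₂ r² < ⊤` for `E₂ > k` (`integrable_one_add_norm` on `V`, dilation). -/
theorem dz_Xs_pos_fin {q E₁ E₂ r : ℝ} (hq : 0 < q) (hE₁ : (dd V : ℝ) < E₁) (hE₂ : (Module.finrank ℝ V : ℝ) < E₂) (hr : 0 < r) {H : V × ℝ → ℂ} (hc : Continuous H) {B : ℝ} (hB : ∀ z, ‖H z‖ ≤ B)
    (h0 : ∃ z, H z ≠ 0) (z : V × ℝ) : 0 < Xs q E₁ E₂ r H z ∧ Xs q E₁ E₂ r H z < ⊤ := by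
  have hr2 : 0 < r ^ 2 := by positivity
  have hm : Measurable fun x : V => wv E₂ (r ^ 2) (x - z.1) * xs q E₁ r H (x, z.2) :=
    ((dz_measurable_wv E₂ (r ^ 2)).comp (measurable_id.sub measurable_const)).mul
      ((dz_measurable_xs q E₁ r hc.measurable).comp (measurable_id.prodMk measurable_const))
  unfold Xs
  constructor
  · refine ENNReal.mul_pos (ENNReal.ofReal_pos.2 (Real.rpow_pos_of_pos hr _)).ne' ?_
    rw [← pos_iff_ne_zero, lintegral_pos_iff_support hm]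
    have : Function.support (fun x : V => wv E₂ (r ^ 2) (x - z.1) * xs q E₁ r H (x, z.2)) = univ := by
      ext x
      simp only [Function.mem_support, mem_univ, iff_true]
      exact (ENNReal.mul_pos (dzm_wv_pos E₂ hr2 _).ne' (dz_xs_pos_fin hq hE₁ hr hc hB h0 _).1.ne').ne'
    rw [this]
    exact Measure.measure_univ_pos.2 (NeZero.ne _)
  · refine ENNReal.mul_lt_top ENNReal.ofReal_lt_top ?_
    obtain ⟨c, -, h⟩ := dzm_lintegral_wv (V := V) hE₂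
    have h1 : ∫⁻ x : V, wv E₂ (r ^ 2) (x - z.1) * xs q E₁ r H (x, z.2) ≤
        ∫⁻ x : V, wv E₂ (r ^ 2) (x - z.1) * (ENNReal.ofReal B ^ q * ∫⁻ y : V × ℝ, wt E₁ r y) ^ (2 / q) :=
      lintegral_mono fun x => mul_le_mul_right (dzm_xs_le hq hB _) _
    refine lt_of_le_of_lt h1 ?_
    rw [lintegral_mul_const' _ _ (dzm_xs_bd_ne_top hq hE₁ hr B), lintegral_sub_right_eq_self (wv E₂ (r ^ 2)) z.1, h _ hr2]
    exact ENNReal.mul_lt_top ENNReal.ofReal_lt_top (dzm_xs_bd_ne_top hq hE₁ hr B).lt_top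

/-! ## slow variation -/

/-- the base of a Peetre constant -/
theorem dzm_base_ge {R : ℝ} (hR : 0 < R) {a : ℝ} (ha : 0 ≤ a) : 1 ≤ 1 + a / R := by
  have : 0 ≤ a / R := by positivity
  linarith

/-- `(1+a)^E (1+a)^(-E) = 1` in `ℝ≥0∞` -/
theorem dzm_ofReal_cancel {b : ℝ} (hb : 1 ≤ b) (E : ℝ) : ENNReal.ofReal (b ^ E) * ENNReal.ofReal (b ^ (-E)) = 1 := by
  have hb0 : 0 < b := by linarith
  rw [← ENNReal.ofReal_mul (by positivity), ← Real.rpow_add hb0, add_neg_cancel, Real.rpow_zero, ENNReal.ofReal_one]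

/-- Peetre in the form of a shift -/
theorem dzm_wt_shift {E R : ℝ} (hE : 0 ≤ E) (hR : 0 < R) (y w : V × ℝ) : wt E R (y - w) ≤ ENNReal.ofReal ((1 + ‖w‖ / R) ^ E) * wt E R y := by
  have h1 := wt_peetre hE hR (y - w) w
  rw [sub_add_cancel] at h1
  have h2 := dzm_ofReal_cancel (dzm_base_ge hR (norm_nonneg w)) E
  calc wt E R (y - w) = (ENNReal.ofReal ((1 + ‖w‖ / R) ^ E) * ENNReal.ofReal ((1 + ‖w‖ / R) ^ (-E))) * wt E R (y - w) := by rw [h2, one_mul]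
    _ = ENNReal.ofReal ((1 + ‖w‖ / R) ^ E) * (wt E R (y - w) * wt E R w) := by
        unfold wt; ring
    _ ≤ _ := mul_le_mul_right h1 _

theorem dzm_ofReal_rpow {b : ℝ} (hb : 1 ≤ b) (E s : ℝ) (hs : 0 ≤ s) : ENNReal.ofReal (b ^ E) ^ s = ENNReal.ofReal (b ^ (E * s)) := by
  have hb0 : 0 < b := by linarith
  rw [ENNReal.ofReal_rpow_of_nonneg (by positivity) hs, ← Real.rpow_mul hb0.le]
/-- **LEAF L-DZ-M2a** (~60 l.;  `BD.wt_peetre`: `wt E₁ r (y - (z + w)) ≤ ofReal ((1+‖w‖/r)^E₁) * wt E₁ r (y - z)`; `lintegral_const_mul'`; `ENNReal.mul_rpow_of_nonneg`, `ENNReal.ofReal_rpow_of_nonneg`). -/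
theorem dz_xs_peetre {q E₁ r : ℝ} (hq : 0 < q) (hE₁ : 0 ≤ E₁) (hr : 0 < r) (H : V × ℝ → ℂ) (z w : V × ℝ) :
    xs q E₁ r H (z + w) ≤ ENNReal.ofReal ((1 + ‖w‖ / r) ^ (2 * E₁ / q)) * xs q E₁ r H z := by
  have h1 : lqw q (wt E₁ r) H (z + w) ≤ ENNReal.ofReal ((1 + ‖w‖ / r) ^ E₁) * lqw q (wt E₁ r) H z := by
    unfold lqw
    rw [← lintegral_const_mul' _ _ ENNReal.ofReal_ne_top]
    refine lintegral_mono fun y => ?_
    have h2 := dzm_wt_shift hE₁ hr (y - z) w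
    rw [sub_sub] at h2
    calc ‖H y‖ₑ ^ q * wt E₁ r (y - (z + w)) ≤ ‖H y‖ₑ ^ q * (ENNReal.ofReal ((1 + ‖w‖ / r) ^ E₁) * wt E₁ r (y - z)) := mul_le_mul_right h2 _
      _ = _ := by ring
  have hs : 0 ≤ 2 / q := by positivity
  unfold xs
  refine (ENNReal.rpow_le_rpow h1 hs).trans ?_
  rw [ENNReal.mul_rpow_of_nonneg _ _ hs, dzm_ofReal_rpow (dzm_base_ge hr (norm_nonneg w)) _ _ hs]
  have : E₁ * (2 / q) = 2 * E₁ / q := by ring
  rw [this]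

theorem dzm_wv_shift {E R : ℝ} (hE : 0 ≤ E) (hR : 0 < R) (y w : V) : wv E R (y - w) ≤ ENNReal.ofReal ((1 + ‖w‖ / R) ^ E) * wv E R y := by
  have hb1 := dzm_base_ge hR (norm_nonneg w)
  have hb2 := dzm_base_ge hR (norm_nonneg y)
  have hb3 := dzm_base_ge hR (norm_nonneg (y - w))
  unfold wv
  rw [← ENNReal.ofReal_mul (by positivity)]
  refine ENNReal.ofReal_le_ofReal ?_
  -- `(1+|y|/R) ≤ (1+|w|/R)(1+|y-w|/R)`
  have h4 : 1 + ‖y‖ / R ≤ (1 + ‖w‖ / R) * (1 + ‖y - w‖ / R) := by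
    have h5 : ‖y‖ / R ≤ ‖w‖ / R + ‖y - w‖ / R := by
      rw [← add_div]
      refine div_le_div_of_nonneg_right ?_ hR.le
      calc ‖y‖ = ‖w + (y - w)‖ := by rw [add_sub_cancel]
        _ ≤ _ := norm_add_le _ _
    have h6 : 0 ≤ ‖w‖ / R * (‖y - w‖ / R) := by positivity
    nlinarith
  have h7 : (1 + ‖y‖ / R) ^ E ≤ (1 + ‖w‖ / R) ^ E * (1 + ‖y - w‖ / R) ^ E := by
    rw [← Real.mul_rpow (by linarith) (by linarith)]
    exact Real.rpow_le_rpow (by linarith) h4 hE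
  rw [Real.rpow_neg (by linarith), Real.rpow_neg (by linarith)]
  have p1 : 0 < (1 + ‖y‖ / R) ^ E := Real.rpow_pos_of_pos (by linarith) _
  have p3 : 0 < (1 + ‖y - w‖ / R) ^ E := Real.rpow_pos_of_pos (by linarith) _
  rw [← div_eq_mul_inv, le_div_iff₀ p1, inv_mul_le_iff₀ p3]
  linarith
/-- **LEAF L-DZ-M2b** (~80 l.;  Peetre for `wv` in `x`, `dz_xs_peetre` with the shift `(0, w.2)`). -/
theorem dz_Xs_peetre {q E₁ E₂ r : ℝ} (hq : 0 < q) (hE₁ : 0 ≤ E₁) (hE₂ : 0 ≤ E₂) (hr : 0 < r) (H : V × ℝ → ℂ) (z w : V × ℝ) :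
    Xs q E₁ E₂ r H (z + w) ≤ ENNReal.ofReal ((1 + ‖w.1‖ / r ^ 2) ^ E₂ * (1 + |w.2| / r) ^ (2 * E₁ / q)) * Xs q E₁ E₂ r H z := by
  have hr2 : 0 < r ^ 2 := by positivity
  have hb1 := dzm_base_ge hr2 (norm_nonneg w.1)
  have hb2 := dzm_base_ge hr (abs_nonneg w.2)
  unfold Xs
  rw [mul_left_comm, ← lintegral_const_mul' (ENNReal.ofReal ((1 + ‖w.1‖ / r ^ 2) ^ E₂ * (1 + |w.2| / r) ^ (2 * E₁ / q))) _ ENNReal.ofReal_ne_top]
  refine mul_le_mul_right (lintegral_mono fun x => ?_) _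
  have h1 := dzm_wv_shift hE₂ hr2 (x - z.1) w.1
  rw [sub_sub] at h1
  have h2 := dz_xs_peetre hq hE₁ hr H (x, z.2) ((0 : V), w.2)
  have e1 : ((x, z.2) : V × ℝ) + ((0 : V), w.2) = (x, (z + w).2) := by
    simp
  have e2 : ‖((0 : V), w.2)‖ = |w.2| := by
    rw [Prod.norm_def]
    simp
  rw [e1, e2] at h2
  rw [ENNReal.ofReal_mul (by positivity)]
  calc wv E₂ (r ^ 2) (x - (z + w).1) * xs q E₁ r H (x, (z + w).2)
      ≤ (ENNReal.ofReal ((1 + ‖w.1‖ / r ^ 2) ^ E₂) * wv E₂ (r ^ 2) (x - z.1)) * (ENNReal.ofReal ((1 + |w.2| / r) ^ (2 * E₁ / q)) * xs q E₁ r H (x, z.2)) :=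
        mul_le_mul' h1 h2
    _ = _ := by ring

theorem dzm_inv_le {c X X' : ℝ≥0∞} (hc0 : c ≠ 0) (hct : c ≠ ⊤) (h : X ≤ c * X') : X'⁻¹ ≤ c * X⁻¹ := by
  have h1 : (c * X')⁻¹ ≤ X⁻¹ := ENNReal.inv_le_inv.2 h
  rw [ENNReal.mul_inv (Or.inl hc0) (Or.inl hct)] at h1
  calc X'⁻¹ = c * (c⁻¹ * X'⁻¹) := by rw [← mul_assoc, ENNReal.mul_inv_cancel hc0 hct, one_mul]
    _ ≤ c * X⁻¹ := mul_le_mul_right h1 _

theorem dzm_ofReal_rpow_ne {b : ℝ} (hb : 1 ≤ b) (E : ℝ) : ENNReal.ofReal (b ^ E) ≠ 0 ∧ ENNReal.ofReal (b ^ E) ≠ ⊤ :=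
  ⟨(ENNReal.ofReal_pos.2 (Real.rpow_pos_of_pos (by linarith) _)).ne', ENNReal.ofReal_ne_top⟩

theorem dzm_fst_le {r : ℝ} (hr : 1 ≤ r) (w : V × ℝ) : ‖w.1‖ / r ^ 2 ≤ ‖w‖ / r := by
  have hr0 : 0 < r := by linarith
  have h1 : ‖w.1‖ ≤ ‖w‖ := norm_fst_le w
  rw [div_le_div_iff₀ (by positivity) hr0]
  have h2 : ‖w‖ * r ≤ ‖w‖ * r ^ 2 := mul_le_mul_of_nonneg_left (by nlinarith) (norm_nonneg _)
  nlinarith [norm_nonneg w.1]

theorem dzm_snd_le {r R : ℝ} (hr : 0 < r) (hrR : r ≤ R) (w : V × ℝ) : |w.2| / R ≤ ‖w‖ / r := by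
  have h1 : |w.2| ≤ ‖w‖ := norm_snd_le w
  exact div_le_div₀ (norm_nonneg _) h1 hr hrR
/-- **LEAF L-DZ-M2c** (~120 l.).   `xs (z+w) ≤ …xs z`, `m (z.1 + w.1) ≤ … m z.1`, and `Xs z = Xs ((z+w) + (-w)) ≤ … Xs (z+w)`, so `(Xs (z+w))⁻¹ ≤ … (Xs z)⁻¹` (`ENNReal.inv_le_inv`, `ENNReal.mul_inv`; the constants are positive and finite);
`‖w.1‖/r² ≤ ‖w‖/r`, `|w.2|/r ≤ ‖w‖/r` (`r ≥ 1`).   No positivity of `xs`, `Xs`, `m` is needed. -/
theorem dz_ys_peetre {q E₁ E₂ E r : ℝ} (hq : 0 < q) (hE₁ : 0 ≤ E₁) (hE₂ : 0 ≤ E₂) (hE : 0 ≤ E) (hr : 1 ≤ r) (H : V × ℝ → ℂ) {m : V → ℝ≥0∞}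
    (hm : ∀ b b', m (b + b') ≤ ENNReal.ofReal ((1 + ‖b'‖ / r ^ 2) ^ E) * m b) (z w : V × ℝ) :
    ys q E₁ E₂ r H m (z + w) ≤ ENNReal.ofReal ((1 + ‖w‖ / r) ^ (4 * E₁ / q + E + E₂)) * ys q E₁ E₂ r H m z := by
  have hr0 : 0 < r := by linarith
  have hr2 : 0 < r ^ 2 := by positivity
  obtain ⟨b, hb⟩ : ∃ b : ℝ, b = 1 + ‖w‖ / r := ⟨_, rfl⟩
  have hb1 : 1 ≤ b := hb ▸ dzm_base_ge hr0 (norm_nonneg w)
  have hb0 : 0 < b := by linarith
  have hs : 0 ≤ 2 * E₁ / q := by positivity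
  have f1 : 1 + ‖w.1‖ / r ^ 2 ≤ b := by rw [hb]; linarith [dzm_fst_le hr w]
  have f2 : 1 + |w.2| / r ≤ b := by rw [hb]; linarith [dzm_snd_le hr0 le_rfl w]
  have g1 := dzm_base_ge hr2 (norm_nonneg w.1)
  have g2 := dzm_base_ge hr0 (abs_nonneg w.2)
  have a1 : xs q E₁ r H (z + w) ≤ ENNReal.ofReal (b ^ (2 * E₁ / q)) * xs q E₁ r H z := by
    rw [hb]; exact dz_xs_peetre hq hE₁ hr0 H z w
  have a2 : m (z + w).1 ≤ ENNReal.ofReal (b ^ E) * m z.1 :=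
    (hm z.1 w.1).trans (mul_le_mul_left (ENNReal.ofReal_le_ofReal (Real.rpow_le_rpow (by linarith) f1 hE)) _)
  have a3 : Xs q E₁ E₂ r H z ≤ ENNReal.ofReal (b ^ (E₂ + 2 * E₁ / q)) * Xs q E₁ E₂ r H (z + w) := by
    have h := dz_Xs_peetre hq hE₁ hE₂ hr0 H (z + w) (-w)
    rw [add_neg_cancel_right] at h
    refine h.trans (mul_le_mul_left (ENNReal.ofReal_le_ofReal ?_) _)
    rw [Real.rpow_add hb0]
    simp only [Prod.fst_neg, Prod.snd_neg, norm_neg, abs_neg]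
    exact mul_le_mul (Real.rpow_le_rpow (by linarith) f1 hE₂) (Real.rpow_le_rpow (by linarith) f2 hs) (by positivity) (by positivity)
  have a4 := dzm_inv_le (dzm_ofReal_rpow_ne hb1 _).1 (dzm_ofReal_rpow_ne hb1 _).2 a3
  unfold ys
  rw [← hb, ENNReal.div_eq_inv_mul, ENNReal.div_eq_inv_mul, mul_comm (Xs q E₁ E₂ r H (z + w))⁻¹, mul_comm (Xs q E₁ E₂ r H z)⁻¹]
  calc xs q E₁ r H (z + w) * m (z + w).1 * (Xs q E₁ E₂ r H (z + w))⁻¹
      ≤ (ENNReal.ofReal (b ^ (2 * E₁ / q)) * xs q E₁ r H z) * (ENNReal.ofReal (b ^ E) * m z.1) * (ENNReal.ofReal (b ^ (E₂ + 2 * E₁ / q)) * (Xs q E₁ E₂ r H z)⁻¹) :=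
        mul_le_mul' (mul_le_mul' a1 a2) a4
    _ = (ENNReal.ofReal (b ^ (2 * E₁ / q)) * ENNReal.ofReal (b ^ E) * ENNReal.ofReal (b ^ (E₂ + 2 * E₁ / q))) * (xs q E₁ r H z * m z.1 * (Xs q E₁ E₂ r H z)⁻¹) := by ring
    _ = _ := by
        rw [← ENNReal.ofReal_mul (by positivity), ← ENNReal.ofReal_mul (by positivity), ← Real.rpow_add hb0, ← Real.rpow_add hb0]
        congr 3
        ring

theorem dzm_wr_shift {E R : ℝ} (hE : 0 ≤ E) (hR : 0 < R) (y w : ℝ) : wr E R (y + w) ≤ ENNReal.ofReal ((1 + |w| / R) ^ E) * wr E R y := by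
  have hb1 := dzm_base_ge hR (abs_nonneg w)
  have hb2 := dzm_base_ge hR (abs_nonneg y)
  have hb3 := dzm_base_ge hR (abs_nonneg (y + w))
  unfold wr
  rw [← ENNReal.ofReal_mul (by positivity)]
  refine ENNReal.ofReal_le_ofReal ?_
  have h4 : 1 + |y| / R ≤ (1 + |w| / R) * (1 + |y + w| / R) := by
    have h5 : |y| / R ≤ |w| / R + |y + w| / R := by
      rw [← add_div]
      refine div_le_div_of_nonneg_right ?_ hR.le
      calc |y| = |(y + w) + (-w)| := by rw [add_neg_cancel_right]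
        _ ≤ |y + w| + |-w| := abs_add_le _ _
        _ = |w| + |y + w| := by rw [abs_neg, add_comm]
    have h6 : 0 ≤ |w| / R * (|y + w| / R) := by positivity
    nlinarith
  have h7 : (1 + |y| / R) ^ E ≤ (1 + |w| / R) ^ E * (1 + |y + w| / R) ^ E := by
    rw [← Real.mul_rpow (by linarith) (by linarith)]
    exact Real.rpow_le_rpow (by linarith) h4 hE
  rw [Real.rpow_neg (by linarith), Real.rpow_neg (by linarith)]
  have p1 : 0 < (1 + |y| / R) ^ E := Real.rpow_pos_of_pos (by linarith) _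
  have p3 : 0 < (1 + |y + w| / R) ^ E := Real.rpow_pos_of_pos (by linarith) _
  rw [← div_eq_mul_inv, le_div_iff₀ p1, inv_mul_le_iff₀ p3]
  linarith
/-- **LEAF L-DZ-M2d** (~80 l.).   From `Y z ≤ c Y (z + w)` (hypothesis at `(z + w, -w)`):  `Y (z+w)^(-a) ≤ c^a Y z^(-a)` (`ENNReal.rpow_le_rpow_of_nonpos`/`ENNReal.rpow_neg`, `ENNReal.inv_le_inv`);  Peetre for `wr`, `|w.2|/R ≤ ‖w‖/r`. -/
theorem dz_gam_peetre {E_t E_y a r R t₀ : ℝ} (hEt : 0 ≤ E_t) (hEy : 0 ≤ E_y) (ha : 0 ≤ a) (hr : 0 < r) (hrR : r ≤ R) {Y : V × ℝ → ℝ≥0∞}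
    (hY : ∀ z w, Y (z + w) ≤ ENNReal.ofReal ((1 + ‖w‖ / r) ^ E_y) * Y z) (z w : V × ℝ) :
    wr E_t R ((z + w).2 - t₀) * Y (z + w) ^ (-a) ≤ ENNReal.ofReal ((1 + ‖w‖ / r) ^ (E_t + a * E_y)) * (wr E_t R (z.2 - t₀) * Y z ^ (-a)) := by
  have hR : 0 < R := hr.trans_le hrR
  obtain ⟨b, hb⟩ : ∃ b : ℝ, b = 1 + ‖w‖ / r := ⟨_, rfl⟩
  have hb1 : 1 ≤ b := hb ▸ dzm_base_ge hr (norm_nonneg w)
  have hb0 : 0 < b := by linarith
  have f2 : 1 + |w.2| / R ≤ b := by rw [hb]; linarith [dzm_snd_le hr hrR w]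
  have g2 := dzm_base_ge hR (abs_nonneg w.2)
  have a1 : wr E_t R ((z + w).2 - t₀) ≤ ENNReal.ofReal (b ^ E_t) * wr E_t R (z.2 - t₀) := by
    have h := dzm_wr_shift hEt hR (z.2 - t₀) w.2
    have e : z.2 - t₀ + w.2 = (z + w).2 - t₀ := by simp; ring
    rw [e] at h
    exact h.trans (mul_le_mul_left (ENNReal.ofReal_le_ofReal (Real.rpow_le_rpow (by linarith) f2 hEt)) _)
  have a2 : Y z ≤ ENNReal.ofReal (b ^ E_y) * Y (z + w) := by
    have h := hY (z + w) (-w)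
    rwa [add_neg_cancel_right, norm_neg, ← hb] at h
  have a3 := dzm_inv_le (dzm_ofReal_rpow_ne hb1 _).1 (dzm_ofReal_rpow_ne hb1 _).2 a2
  have a4 : Y (z + w) ^ (-a) ≤ ENNReal.ofReal (b ^ (a * E_y)) * Y z ^ (-a) := by
    rw [ENNReal.rpow_neg, ENNReal.rpow_neg, ← ENNReal.inv_rpow, ← ENNReal.inv_rpow]
    refine (ENNReal.rpow_le_rpow a3 ha).trans ?_
    rw [ENNReal.mul_rpow_of_nonneg _ _ ha, dzm_ofReal_rpow hb1 _ _ ha, mul_comm E_y a]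
  rw [← hb]
  calc wr E_t R ((z + w).2 - t₀) * Y (z + w) ^ (-a)
      ≤ (ENNReal.ofReal (b ^ E_t) * wr E_t R (z.2 - t₀)) * (ENNReal.ofReal (b ^ (a * E_y)) * Y z ^ (-a)) := mul_le_mul' a1 a4
    _ = (ENNReal.ofReal (b ^ E_t) * ENNReal.ofReal (b ^ (a * E_y))) * (wr E_t R (z.2 - t₀) * Y z ^ (-a)) := by ring
    _ = _ := by rw [← ENNReal.ofReal_mul (by positivity), ← Real.rpow_add hb0]

/-! ## three abstract smoothing inequalities (Tonelli + slow variation) -/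

/-- the plate weight is an isotropic weight in rescaled coordinates -/
theorem dzm_pwt_eq (E : ℝ) {r : ℝ} (hr : 0 < r) (w : V × ℝ) : pwt E r 1 w = wt E 1 (Lam 0 r⁻¹ 1 w) := by
  unfold pwt wt Lam
  congr 3
  rw [Prod.norm_def]
  simp only [smul_zero, add_zero, one_mul, div_one, norm_smul, norm_inv, Real.norm_eq_abs, abs_of_pos hr]
  rw [inv_mul_eq_div]

theorem dzm_lintegral_pwt {E : ℝ} (hE : (dd V : ℝ) < E) : ∃ c : ℝ, 0 < c ∧ ∀ r : ℝ, 0 < r →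
    ENNReal.ofReal (r ^ (-(Module.finrank ℝ V : ℝ))) * ∫⁻ w : V × ℝ, pwt E r 1 w = ENNReal.ofReal c := by
  obtain ⟨c, hc, h⟩ := exists_lintegral_wt (V := V) hE
  refine ⟨c, hc, fun r hr => ?_⟩
  simp_rw [dzm_pwt_eq E hr]
  rw [lintegral_Lam (0 : V) (inv_pos.2 hr) one_pos (wt E 1), h 1 one_pos, ← mul_assoc, ← ENNReal.ofReal_mul (by positivity)]
  have e : r ^ (-(Module.finrank ℝ V : ℝ)) * (r⁻¹ ^ Module.finrank ℝ V * 1)⁻¹ = 1 := by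
    rw [Real.rpow_neg hr.le, Real.rpow_natCast, mul_one, inv_pow, inv_inv]
    exact inv_mul_cancel₀ (by positivity)
  rw [e, ENNReal.ofReal_one, one_mul, Real.one_rpow, mul_one]

theorem dzm_pwt_absorb {E₀ E_Γ r : ℝ} (hΓ : 0 ≤ E_Γ) (hr : 1 ≤ r) (u : V × ℝ) :
    ENNReal.ofReal ((1 + ‖u‖ / r) ^ E_Γ) * pwt E₀ r 1 u ≤ pwt (E₀ - E_Γ) r 1 u := by
  have hr0 : 0 < r := by linarith
  unfold pwt
  obtain ⟨M, hM⟩ : ∃ M : ℝ, M = max (‖u.1‖ / r) (|u.2| / 1) := ⟨_, rfl⟩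
  rw [← hM]
  have hM0 : 0 ≤ M := by rw [hM]; exact le_max_of_le_left (by positivity)
  have h1 : ‖u‖ / r ≤ M := by
    rw [hM, Prod.norm_def, div_le_iff₀ hr0]
    refine max_le ?_ ?_
    · have : ‖u.1‖ / r ≤ max (‖u.1‖ / r) (|u.2| / 1) := le_max_left _ _
      rwa [div_le_iff₀ hr0] at this
    · have h2 : |u.2| / 1 ≤ max (‖u.1‖ / r) (|u.2| / 1) := le_max_right _ _
      have h3 : 0 ≤ max (‖u.1‖ / r) (|u.2| / 1) := le_max_of_le_left (by positivity)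
      rw [Real.norm_eq_abs]
      calc |u.2| = |u.2| / 1 := (div_one _).symm
        _ ≤ max (‖u.1‖ / r) (|u.2| / 1) := h2
        _ = max (‖u.1‖ / r) (|u.2| / 1) * 1 := (mul_one _).symm
        _ ≤ max (‖u.1‖ / r) (|u.2| / 1) * r := mul_le_mul_of_nonneg_left hr h3
  have h0 : 0 ≤ ‖u‖ / r := by positivity
  rw [← ENNReal.ofReal_mul (by positivity)]
  refine ENNReal.ofReal_le_ofReal ?_
  have e : (1 + M) ^ (-(E₀ - E_Γ)) = (1 + M) ^ E_Γ * (1 + M) ^ (-E₀) := by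
    rw [← Real.rpow_add (by linarith)]
    congr 1
    ring
  rw [e]
  exact mul_le_mul_of_nonneg_right (Real.rpow_le_rpow (by linarith) (by linarith) hΓ) (by positivity)
/-- **LEAF L-DZ-M3a** (~150 l.).   Tonelli (`lintegral_lintegral_swap`).   For fixed `y`: `Γ z ≤ (1 + ‖z - y‖/r)^E_Γ Γ y`, `1 + ‖w‖/r ≤ 1 + max (‖w.1‖/r) |w.2|` (`r ≥ 1`), so the inner integral is `≤ Γ y · r^(-k) ∫ pwt (E₀ - E_Γ) r 1`,
and `r^(-k) ∫ pwt E r 1 = ∫ wt E 1` (`pwt E r 1 w = wt E 1 (Lam 0 r⁻¹ 1 w)`, `BD.lintegral_Lam`), finite by `BD.exists_lintegral_wt`. -/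
theorem dz_smooth1 (E₀ E_Γ : ℝ) (hΓ : 0 ≤ E_Γ) (hE₀ : E_Γ + (dd V : ℝ) < E₀) : ∃ K : ℝ, ∀ (r : ℝ) (φ Γ : V × ℝ → ℝ≥0∞), 1 ≤ r → Measurable φ → Measurable Γ →
    (∀ z w, Γ (z + w) ≤ ENNReal.ofReal ((1 + ‖w‖ / r) ^ E_Γ) * Γ z) →
    ENNReal.ofReal (r ^ (-(Module.finrank ℝ V : ℝ))) * ∫⁻ z, Γ z * ∫⁻ y, φ y * pwt E₀ r 1 (y - z) ≤ ENNReal.ofReal K * ∫⁻ y, φ y * Γ y := by
  have := wt_haar (V := V)
  obtain ⟨c, hc, hint⟩ := dzm_lintegral_pwt (V := V) (E := E₀ - E_Γ) (by linarith)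
  refine ⟨c, fun r φ Γ hr hφ hΓm hP => ?_⟩
  have hr0 : 0 < r := by linarith
  have hjoint : Measurable fun p : (V × ℝ) × (V × ℝ) => Γ p.1 * (φ p.2 * pwt E₀ r 1 (p.2 - p.1)) :=
    (hΓm.comp measurable_fst).mul ((hφ.comp measurable_snd).mul ((dz_measurable_pwt E₀ r 1).comp (measurable_snd.sub measurable_fst)))
  have s1 : ∫⁻ z, Γ z * ∫⁻ y, φ y * pwt E₀ r 1 (y - z) = ∫⁻ y, ∫⁻ z, Γ z * (φ y * pwt E₀ r 1 (y - z)) := by
    rw [← lintegral_lintegral_swap hjoint.aemeasurable]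
    refine lintegral_congr fun z => ?_
    have hm1 : Measurable fun y : V × ℝ => φ y * pwt E₀ r 1 (y - z) :=
      hφ.mul ((dz_measurable_pwt E₀ r 1).comp (measurable_id.sub measurable_const))
    rw [lintegral_const_mul _ hm1]
  have s2 : ∀ y, ∫⁻ z, Γ z * (φ y * pwt E₀ r 1 (y - z)) ≤ φ y * Γ y * ∫⁻ w : V × ℝ, pwt (E₀ - E_Γ) r 1 w := by
    intro y
    have hm2 : Measurable fun z : V × ℝ => pwt (E₀ - E_Γ) r 1 (y - z) :=
      (dz_measurable_pwt _ r 1).comp (measurable_const.sub measurable_id)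
    rw [← lintegral_sub_left_eq_self (pwt (E₀ - E_Γ) r 1) y, ← lintegral_const_mul _ hm2]
    refine lintegral_mono fun z => ?_
    have h1 := hP y (z - y)
    rw [add_sub_cancel, ← norm_neg, neg_sub] at h1
    have h2 := dzm_pwt_absorb (E₀ := E₀) hΓ hr (y - z)
    calc Γ z * (φ y * pwt E₀ r 1 (y - z)) ≤ (ENNReal.ofReal ((1 + ‖y - z‖ / r) ^ E_Γ) * Γ y) * (φ y * pwt E₀ r 1 (y - z)) := mul_le_mul_left h1 _
      _ = φ y * Γ y * (ENNReal.ofReal ((1 + ‖y - z‖ / r) ^ E_Γ) * pwt E₀ r 1 (y - z)) := by ring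
      _ ≤ _ := mul_le_mul_right h2 _
  rw [s1]
  calc ENNReal.ofReal (r ^ (-(Module.finrank ℝ V : ℝ))) * ∫⁻ y, ∫⁻ z, Γ z * (φ y * pwt E₀ r 1 (y - z))
      ≤ ENNReal.ofReal (r ^ (-(Module.finrank ℝ V : ℝ))) * ∫⁻ y, φ y * Γ y * ∫⁻ w : V × ℝ, pwt (E₀ - E_Γ) r 1 w :=
        mul_le_mul_right (lintegral_mono s2) _
    _ = (ENNReal.ofReal (r ^ (-(Module.finrank ℝ V : ℝ))) * ∫⁻ w : V × ℝ, pwt (E₀ - E_Γ) r 1 w) * ∫⁻ y, φ y * Γ y := by
        have hm3 : Measurable fun y : V × ℝ => φ y * Γ y := hφ.mul hΓm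
        rw [lintegral_mul_const _ hm3]; ring
    _ = _ := by rw [hint r hr0]

/-- **LEAF L-DZ-M3b** (~120 l.).   Tonelli.   For fixed `y`:  `r^(-d) ∫ Γ w wt E₁ r (y - w) dw ≥ r^(-d) ∫_{‖w - y‖ ≤ r} 2^(-E_Γ) Γ y 2^(-E₁) dw = c 2^(-E_Γ - E₁) Γ y` (`BD.exists_volume_closedBall`, `BD.wt_ge_of_le`). -/
theorem dz_smooth2 (E₁ E_Γ : ℝ) (hΓ : 0 ≤ E_Γ) (hE₁ : 0 ≤ E₁) : ∃ K : ℝ, ∀ (r : ℝ) (φ Γ : V × ℝ → ℝ≥0∞), 0 < r → Measurable φ → Measurable Γ →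
    (∀ z w, Γ (z + w) ≤ ENNReal.ofReal ((1 + ‖w‖ / r) ^ E_Γ) * Γ z) →
    ∫⁻ y, φ y * Γ y ≤ ENNReal.ofReal K * (ENNReal.ofReal (r ^ (-(dd V : ℝ))) * ∫⁻ w, Γ w * ∫⁻ y, φ y * wt E₁ r (y - w)) := by
  have := wt_haar (V := V)
  obtain ⟨c, hc, hvol⟩ := exists_volume_closedBall (V := V)
  refine ⟨2 ^ E_Γ * 2 ^ E₁ / c, fun r φ Γ hr hφ hΓm hP => ?_⟩
  have hjoint : Measurable fun p : (V × ℝ) × (V × ℝ) => Γ p.1 * (φ p.2 * wt E₁ r (p.2 - p.1)) :=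
    (hΓm.comp measurable_fst).mul ((hφ.comp measurable_snd).mul ((measurable_wt E₁ r).comp (measurable_snd.sub measurable_fst)))
  have s1 : ∫⁻ w, Γ w * ∫⁻ y, φ y * wt E₁ r (y - w) = ∫⁻ y, ∫⁻ w, Γ w * (φ y * wt E₁ r (y - w)) := by
    rw [← lintegral_lintegral_swap hjoint.aemeasurable]
    refine lintegral_congr fun z => ?_
    have hm1 : Measurable fun y : V × ℝ => φ y * wt E₁ r (y - z) :=
      hφ.mul ((measurable_wt E₁ r).comp (measurable_id.sub measurable_const))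
    rw [lintegral_const_mul _ hm1]
  obtain ⟨κ, hκ⟩ : ∃ κ : ℝ≥0∞, κ = ENNReal.ofReal (2 ^ (-E_Γ)) * ENNReal.ofReal (2 ^ (-E₁)) * ENNReal.ofReal (c * r ^ (dd V : ℝ)) := ⟨_, rfl⟩
  have s2 : ∀ y, κ * (φ y * Γ y) ≤ ∫⁻ w, Γ w * (φ y * wt E₁ r (y - w)) := by
    intro y
    refine le_trans ?_ (setLIntegral_le_lintegral (closedBall y r) _)
    have h3 : ∫⁻ _w in closedBall y r, (ENNReal.ofReal (2 ^ (-E_Γ)) * Γ y) * (φ y * ENNReal.ofReal (2 ^ (-E₁))) ≤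
        ∫⁻ w in closedBall y r, Γ w * (φ y * wt E₁ r (y - w)) := by
      refine setLIntegral_mono' isClosed_closedBall.measurableSet fun w hw => ?_
      have hw' : ‖y - w‖ ≤ r := by rw [← dist_eq_norm, dist_comm]; exact hw
      have h1 := hP w (y - w)
      rw [add_sub_cancel] at h1
      have h0 : 0 ≤ ‖y - w‖ / r := by positivity
      have h2 : ‖y - w‖ / r ≤ 1 := by rw [div_le_one hr]; exact hw'
      have h4 : Γ y ≤ ENNReal.ofReal (2 ^ E_Γ) * Γ w :=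
        h1.trans (mul_le_mul_left (ENNReal.ofReal_le_ofReal (Real.rpow_le_rpow (by linarith) (by linarith) hΓ)) _)
      have h5 : ENNReal.ofReal (2 ^ (-E_Γ)) * Γ y ≤ Γ w := by
        calc ENNReal.ofReal (2 ^ (-E_Γ)) * Γ y ≤ ENNReal.ofReal (2 ^ (-E_Γ)) * (ENNReal.ofReal (2 ^ E_Γ) * Γ w) := mul_le_mul_right h4 _
          _ = (ENNReal.ofReal (2 ^ E_Γ) * ENNReal.ofReal (2 ^ (-E_Γ))) * Γ w := by ring
          _ = Γ w := by rw [dzm_ofReal_cancel one_le_two, one_mul]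
      have h6 : ENNReal.ofReal (2 ^ (-E₁)) ≤ wt E₁ r (y - w) := by
        have := wt_ge_of_le (A := 1) hE₁ hr (y := y - w) (by rw [one_mul]; exact hw')
        norm_num at this
        exact this
      exact mul_le_mul' h5 (mul_le_mul_right h6 _)
    refine le_trans (le_of_eq ?_) h3
    rw [setLIntegral_const, hvol y r hr, hκ]
    ring
  have hK : ENNReal.ofReal (2 ^ E_Γ * 2 ^ E₁ / c) * ENNReal.ofReal (r ^ (-(dd V : ℝ))) * κ = 1 := by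
    rw [hκ, ← ENNReal.ofReal_mul (by positivity), ← ENNReal.ofReal_mul (by positivity), ← ENNReal.ofReal_mul (by positivity),
      ← ENNReal.ofReal_mul (by positivity)]
    have : 2 ^ E_Γ * 2 ^ E₁ / c * r ^ (-(dd V : ℝ)) * (2 ^ (-E_Γ) * 2 ^ (-E₁) * (c * r ^ (dd V : ℝ))) = 1 := by
      rw [Real.rpow_neg (x := 2) (by norm_num) E_Γ, Real.rpow_neg (x := 2) (by norm_num) E₁, Real.rpow_neg hr.le]
      have p1 : (0 : ℝ) < 2 ^ E_Γ := by positivity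
      have p2 : (0 : ℝ) < 2 ^ E₁ := by positivity
      have p3 : (0 : ℝ) < r ^ (dd V : ℝ) := by positivity
      field_simp
    rw [this, ENNReal.ofReal_one]
  rw [s1]
  calc ∫⁻ y, φ y * Γ y = (ENNReal.ofReal (2 ^ E_Γ * 2 ^ E₁ / c) * ENNReal.ofReal (r ^ (-(dd V : ℝ))) * κ) * ∫⁻ y, φ y * Γ y := by rw [hK, one_mul]
    _ = ENNReal.ofReal (2 ^ E_Γ * 2 ^ E₁ / c) * (ENNReal.ofReal (r ^ (-(dd V : ℝ))) * ∫⁻ y, κ * (φ y * Γ y)) := by
        have hm3 : Measurable fun y : V × ℝ => φ y * Γ y := hφ.mul hΓm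
        rw [lintegral_const_mul _ hm3]; ring
    _ ≤ _ := mul_le_mul_right (mul_le_mul_right (lintegral_mono s2) _) _

/-- **LEAF L-DZ-M3c** (~120 l.).   the same on `V` (`Measure.addHaar_closedBall`). -/
theorem dz_smooth3 (E₂ : ℝ) (hE₂ : 0 ≤ E₂) : ∃ K : ℝ, ∀ (R' : ℝ) (B : ℝ≥0∞) (x Γ : V → ℝ≥0∞), 0 < R' → Measurable x → Measurable Γ →
    (∀ p b, ‖p - b‖ ≤ R' → Γ p ≤ B * Γ b) →
    ∫⁻ p, x p * Γ p ≤ ENNReal.ofReal K * B * (ENNReal.ofReal (R' ^ (-(Module.finrank ℝ V : ℝ))) * ∫⁻ b, Γ b * ∫⁻ p, wv E₂ R' (p - b) * x p) := by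
  obtain ⟨v₁, hv₁⟩ : ∃ v₁ : ℝ, v₁ = (volume (ball (0 : V) 1)).toReal := ⟨_, rfl⟩
  have hv0 : 0 < v₁ := by
    rw [hv₁]
    exact ENNReal.toReal_pos (measure_ball_pos volume _ one_pos).ne' measure_ball_lt_top.ne
  have hvE : volume (ball (0 : V) 1) = ENNReal.ofReal v₁ := by
    rw [hv₁, ENNReal.ofReal_toReal measure_ball_lt_top.ne]
  refine ⟨2 ^ E₂ / v₁, fun R' B x Γ hR hx hΓm hP => ?_⟩
  have hjoint : Measurable fun p : V × V => Γ p.1 * (wv E₂ R' (p.2 - p.1) * x p.2) :=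
    (hΓm.comp measurable_fst).mul (((dz_measurable_wv E₂ R').comp (measurable_snd.sub measurable_fst)).mul (hx.comp measurable_snd))
  have s1 : ∫⁻ b, Γ b * ∫⁻ p, wv E₂ R' (p - b) * x p = ∫⁻ p, ∫⁻ b, Γ b * (wv E₂ R' (p - b) * x p) := by
    rw [← lintegral_lintegral_swap hjoint.aemeasurable]
    refine lintegral_congr fun z => ?_
    have hm1 : Measurable fun p : V => wv E₂ R' (p - z) * x p :=
      ((dz_measurable_wv E₂ R').comp (measurable_id.sub measurable_const)).mul hx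
    rw [lintegral_const_mul _ hm1]
  obtain ⟨κ, hκ⟩ : ∃ κ : ℝ≥0∞, κ = ENNReal.ofReal (2 ^ (-E₂)) * (ENNReal.ofReal (R' ^ Module.finrank ℝ V) * ENNReal.ofReal v₁) := ⟨_, rfl⟩
  have s2 : ∀ p, κ * (x p * Γ p) ≤ B * ∫⁻ b, Γ b * (wv E₂ R' (p - b) * x p) := by
    intro p
    have hm2 : Measurable fun b : V => Γ b * (wv E₂ R' (p - b) * x p) :=
      hΓm.mul (((dz_measurable_wv E₂ R').comp (measurable_const.sub measurable_id)).mul measurable_const)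
    rw [← lintegral_const_mul _ hm2]
    refine le_trans ?_ (setLIntegral_le_lintegral (closedBall p R') _)
    have h3 : ∫⁻ _b in closedBall p R', Γ p * (ENNReal.ofReal (2 ^ (-E₂)) * x p) ≤
        ∫⁻ b in closedBall p R', B * (Γ b * (wv E₂ R' (p - b) * x p)) := by
      refine setLIntegral_mono' isClosed_closedBall.measurableSet fun b hb => ?_
      have hb' : ‖p - b‖ ≤ R' := by rw [← dist_eq_norm, dist_comm]; exact hb
      have h0 : 0 ≤ ‖p - b‖ / R' := by positivity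
      have h2 : ‖p - b‖ / R' ≤ 1 := by rw [div_le_one hR]; exact hb'
      have h6 : ENNReal.ofReal (2 ^ (-E₂)) ≤ wv E₂ R' (p - b) := by
        unfold wv
        refine ENNReal.ofReal_le_ofReal (Real.rpow_le_rpow_of_nonpos (by linarith) (by linarith) (by linarith))
      rw [← mul_assoc B]
      exact mul_le_mul' (hP p b hb') (mul_le_mul_left h6 _)
    refine le_trans (le_of_eq ?_) h3
    rw [setLIntegral_const, Measure.addHaar_closedBall volume p hR.le, hvE, hκ]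
    ring
  have hK : ENNReal.ofReal (2 ^ E₂ / v₁) * ENNReal.ofReal (R' ^ (-(Module.finrank ℝ V : ℝ))) * κ = 1 := by
    rw [hκ, ← ENNReal.ofReal_mul (by positivity), ← ENNReal.ofReal_mul (by positivity), ← ENNReal.ofReal_mul (by positivity),
      ← ENNReal.ofReal_mul (by positivity)]
    have : 2 ^ E₂ / v₁ * R' ^ (-(Module.finrank ℝ V : ℝ)) * (2 ^ (-E₂) * (R' ^ Module.finrank ℝ V * v₁)) = 1 := by
      rw [Real.rpow_neg (x := 2) (by norm_num) E₂, Real.rpow_neg hR.le, Real.rpow_natCast]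
      have p1 : (0 : ℝ) < 2 ^ E₂ := by positivity
      have p3 : (0 : ℝ) < R' ^ Module.finrank ℝ V := by positivity
      field_simp
    rw [this, ENNReal.ofReal_one]
  have hmeas2 : Measurable fun p : V => ∫⁻ b, Γ b * (wv E₂ R' (p - b) * x p) := by
    have : Measurable fun p : V × V => Γ p.2 * (wv E₂ R' (p.1 - p.2) * x p.1) :=
      (hΓm.comp measurable_snd).mul (((dz_measurable_wv E₂ R').comp (measurable_fst.sub measurable_snd)).mul (hx.comp measurable_fst))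
    exact this.lintegral_prod_right'
  rw [s1]
  calc ∫⁻ p, x p * Γ p = (ENNReal.ofReal (2 ^ E₂ / v₁) * ENNReal.ofReal (R' ^ (-(Module.finrank ℝ V : ℝ))) * κ) * ∫⁻ p, x p * Γ p := by rw [hK, one_mul]
    _ = ENNReal.ofReal (2 ^ E₂ / v₁) * (ENNReal.ofReal (R' ^ (-(Module.finrank ℝ V : ℝ))) * ∫⁻ p, κ * (x p * Γ p)) := by
        have hm3 : Measurable fun p : V => x p * Γ p := hx.mul hΓm
        rw [lintegral_const_mul _ hm3]; ring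
    _ ≤ ENNReal.ofReal (2 ^ E₂ / v₁) * (ENNReal.ofReal (R' ^ (-(Module.finrank ℝ V : ℝ))) * ∫⁻ p, B * ∫⁻ b, Γ b * (wv E₂ R' (p - b) * x p)) :=
        mul_le_mul_right (mul_le_mul_right (lintegral_mono s2) _) _
    _ = _ := by rw [lintegral_const_mul _ hmeas2]; ring

/-! ## the input from `RSL` -/

theorem dzm_wv_wr_le {E R : ℝ} (hE : 0 ≤ E) (hR : 0 < R) (u : V × ℝ) : wr E R u.2 * wv E R u.1 ≤ wt E R u := by
  unfold wr wv wt
  have h1 : 0 ≤ ‖u.1‖ / R := by positivity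
  have h2 : 0 ≤ |u.2| / R := by positivity
  have h3 : 0 ≤ ‖u‖ / R := by positivity
  rw [← ENNReal.ofReal_mul (by positivity), ← Real.mul_rpow (by linarith) (by linarith)]
  refine ENNReal.ofReal_le_ofReal (Real.rpow_le_rpow_of_nonpos (by linarith) ?_ (by linarith))
  have h4 : ‖u‖ / R ≤ ‖u.1‖ / R + |u.2| / R := by
    rw [← add_div]
    refine div_le_div_of_nonneg_right ?_ hR.le
    rw [Prod.norm_def, Real.norm_eq_abs]
    exact max_le (by linarith [abs_nonneg u.2]) (by linarith [norm_nonneg u.1])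
  nlinarith [mul_nonneg h2 h1]
/-- **LEAF L-DZ-M4** (~100 l.).   `wv E₂ r² (x - a.1) * wr E₂ r² (t - a.2) ≤ wt E₂ r² ((x,t) - a)`  (`(1+A)(1+B) ≥ 1 + max A B`);   `wr (E₂ q/2) = (wr E₂)^(q/2)`; move the time weight into the power `q/2`. -/
theorem dz_Xs_le_rsg {q E₁ E₂ r : ℝ} (hq : 0 < q) (hE₂ : 0 ≤ E₂) (hr : 0 < r) (H : V × ℝ → ℂ) (a : V × ℝ) :
    ENNReal.ofReal r⁻¹ * ∫⁻ t : ℝ, wr (E₂ * q / 2) (r ^ 2) (t - a.2) * Xs q E₁ E₂ r H (a.1, t) ^ (q / 2) ≤ rsg q r (fun z => wt E₂ (r ^ 2) (z - a)) (wt E₁ r) H := by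
  have hr2 : 0 < r ^ 2 := by positivity
  have hs : 0 ≤ q / 2 := by positivity
  unfold rsg
  refine mul_le_mul_right (lintegral_mono fun t => ?_) _
  have e1 : wr (E₂ * q / 2) (r ^ 2) (t - a.2) = wr E₂ (r ^ 2) (t - a.2) ^ (q / 2) := by
    unfold wr
    rw [dzm_ofReal_rpow (dzm_base_ge hr2 (abs_nonneg _)) _ _ hs]
    congr 2
    ring
  rw [e1, ← ENNReal.mul_rpow_of_nonneg _ _ hs]
  refine ENNReal.rpow_le_rpow ?_ hs
  unfold Xs
  have hne : wr E₂ (r ^ 2) (t - a.2) ≠ ⊤ := by unfold wr; exact ENNReal.ofReal_ne_top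
  rw [mul_left_comm, ← lintegral_const_mul' _ _ hne]
  refine mul_le_mul_right (lintegral_mono fun x => ?_) _
  have h := dzm_wv_wr_le hE₂ hr2 ((x, t) - a)
  rw [← mul_assoc]
  exact mul_le_mul_left h _

/-! ## the mass inequality -/

/-! ### helpers of `dz_mass` (prefix `dzm_ms_`) -/

theorem dzm_ms_alg1 {x X m : ℝ≥0∞} {a p : ℝ} (hp : p = 1 + a) (hx0 : x ≠ 0) (hxt : x ≠ ⊤) (hX0 : X ≠ 0) (hmt : m ≠ ⊤) :
    (x * m / X) ^ (-a) * x ^ p = x * (X ^ a * m ^ (-a)) := by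
  have hXi : X⁻¹ ≠ ⊤ := ENNReal.inv_ne_top.2 hX0
  rw [div_eq_mul_inv, ENNReal.mul_rpow_of_ne_top (ENNReal.mul_ne_top hxt hmt) hXi, ENNReal.mul_rpow_of_ne_top hxt hmt,
    ENNReal.inv_rpow, ENNReal.rpow_neg X a, inv_inv, hp, ENNReal.rpow_add _ _ hx0 hxt, ENNReal.rpow_one]
  have h1 : x ^ (-a) * x ^ a = 1 := by
    rw [← ENNReal.rpow_add _ _ hx0 hxt, neg_add_cancel, ENNReal.rpow_zero]
  calc x ^ (-a) * m ^ (-a) * X ^ a * (x * x ^ a) = (x ^ (-a) * x ^ a) * (x * (X ^ a * m ^ (-a))) := by ring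
    _ = x * (X ^ a * m ^ (-a)) := by rw [h1, one_mul]

theorem dzm_ms_alg2 {X m : ℝ≥0∞} {a p : ℝ} (hp : p = 1 + a) (hX0 : X ≠ 0) (hXt : X ≠ ⊤) :
    X ^ a * m ^ (-a) * X = m ^ (-a) * X ^ p := by
  rw [hp, ENNReal.rpow_add _ _ hX0 hXt, ENNReal.rpow_one]
  ring

theorem dzm_ms_alg3 {m : ℝ≥0∞} {a p : ℝ} (hp : p = 1 + a) (hm0 : m ≠ 0) (hmt : m ≠ ⊤) : m ^ (-a) * m ^ p = m := by
  rw [← ENNReal.rpow_add _ _ hm0 hmt, hp]
  have : -a + (1 + a) = 1 := by ring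
  rw [this, ENNReal.rpow_one]

theorem dzm_ms_inv_le {u v c : ℝ≥0∞} (hc0 : c ≠ 0) (hct : c ≠ ⊤) (h : u ≤ c * v) : v⁻¹ ≤ c * u⁻¹ := by
  have h1 : (c * v)⁻¹ ≤ u⁻¹ := ENNReal.inv_le_inv.2 h
  rw [ENNReal.mul_inv (Or.inl hc0) (Or.inl hct)] at h1
  calc v⁻¹ = c * (c⁻¹ * v⁻¹) := by rw [← mul_assoc, ENNReal.mul_inv_cancel hc0 hct, one_mul]
    _ ≤ c * u⁻¹ := mul_le_mul' le_rfl h1

theorem dzm_ms_const (K₁ K₂ K₃ b : ℝ) :
    ENNReal.ofReal K₁ * ENNReal.ofReal K₂ * ENNReal.ofReal K₃ * ENNReal.ofReal b ≤ ENNReal.ofReal (max K₁ 0 * max K₂ 0 * max K₃ 0 * b) := by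
  have h1 : (0 : ℝ) ≤ max K₁ 0 := le_max_right _ _
  have h2 : (0 : ℝ) ≤ max K₂ 0 := le_max_right _ _
  have h3 : (0 : ℝ) ≤ max K₃ 0 := le_max_right _ _
  rw [ENNReal.ofReal_mul (mul_nonneg (mul_nonneg h1 h2) h3), ENNReal.ofReal_mul (mul_nonneg h1 h2), ENNReal.ofReal_mul h1]
  exact mul_le_mul' (mul_le_mul' (mul_le_mul' (ENNReal.ofReal_le_ofReal (le_max_left _ _)) (ENNReal.ofReal_le_ofReal (le_max_left _ _)))
    (ENNReal.ofReal_le_ofReal (le_max_left _ _))) le_rfl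

/-- slow variation of `X^a m^(-a)` -/
theorem dzm_ms_slow {X X' m m' : ℝ≥0∞} {a c₁ c₂ : ℝ} (ha : 0 ≤ a) (hc₁ : 0 < c₁) (hc₂ : 0 < c₂) (hX : X' ≤ ENNReal.ofReal c₁ * X)
    (hm : m ≤ ENNReal.ofReal c₂ * m') : X' ^ a * m' ^ (-a) ≤ ENNReal.ofReal (c₁ ^ a * c₂ ^ a) * (X ^ a * m ^ (-a)) := by
  have h1 : X' ^ a ≤ ENNReal.ofReal (c₁ ^ a) * X ^ a := by
    rw [← ENNReal.ofReal_rpow_of_nonneg hc₁.le ha, ← ENNReal.mul_rpow_of_nonneg _ _ ha]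
    exact ENNReal.rpow_le_rpow hX ha
  have h2 : m ^ a ≤ ENNReal.ofReal (c₂ ^ a) * m' ^ a := by
    rw [← ENNReal.ofReal_rpow_of_nonneg hc₂.le ha, ← ENNReal.mul_rpow_of_nonneg _ _ ha]
    exact ENNReal.rpow_le_rpow hm ha
  have hc : 0 < c₂ ^ a := Real.rpow_pos_of_pos hc₂ _
  have h3 : m' ^ (-a) ≤ ENNReal.ofReal (c₂ ^ a) * m ^ (-a) := by
    rw [ENNReal.rpow_neg, ENNReal.rpow_neg]
    exact dzm_ms_inv_le (ENNReal.ofReal_pos.2 hc).ne' ENNReal.ofReal_ne_top h2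
  calc X' ^ a * m' ^ (-a) ≤ (ENNReal.ofReal (c₁ ^ a) * X ^ a) * (ENNReal.ofReal (c₂ ^ a) * m ^ (-a)) := mul_le_mul' h1 h3
    _ = ENNReal.ofReal (c₁ ^ a * c₂ ^ a) * (X ^ a * m ^ (-a)) := by
      rw [ENNReal.ofReal_mul (Real.rpow_pos_of_pos hc₁ _).le]
      ring

/-- steps (3), (4) of `dz_mass`, abstractly -/
theorem dzm_ms_core {a p : ℝ} (hp : p = 1 + a) (x X I : V × ℝ → ℝ≥0∞) (m : V → ℝ≥0∞) (W : ℝ → ℝ≥0∞)
    (cK c1 cR C₃ A' : ℝ≥0∞) (hcK : cK ≠ ⊤) (hc1 : c1 ≠ ⊤) (hcR : cR ≠ ⊤) (hC₃ : C₃ ≠ ⊤)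
    (hx : Measurable x) (hXm : Measurable X) (hm : Measurable m) (hW : Measurable W) (hWt : ∀ t, W t ≠ ⊤)
    (hX0 : ∀ z, X z ≠ 0 ∧ X z ≠ ⊤) (hm0 : ∀ b, m b ≠ 0 ∧ m b ≠ ⊤) (hXI : ∀ z, X z = cK * I z)
    (h3 : ∀ t, ∫⁻ q, x (q, t) * (X (q, t) ^ a * m q ^ (-a)) ≤ C₃ * (cR * ∫⁻ b, (X (b, t) ^ a * m b ^ (-a)) * I (b, t)))
    (hA : ∀ b, c1 * ∫⁻ t, W t * X (b, t) ^ p ≤ A' * m b ^ p) :
    c1 * cK * ∫⁻ w : V × ℝ, W w.2 * (x w * (X w ^ a * m w.1 ^ (-a))) ≤ C₃ * A' * (cR * ∫⁻ b, m b) := by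
  have hG : Measurable fun w : V × ℝ => X w ^ a * m w.1 ^ (-a) :=
    (hXm.pow_const a).mul ((hm.comp measurable_fst).pow_const _)
  have hma : ∀ b, m b ^ (-a) ≠ ⊤ := fun b => ENNReal.rpow_ne_top_of_ne_zero (hm0 b).1 (hm0 b).2
  have e1 : ∫⁻ w : V × ℝ, W w.2 * (x w * (X w ^ a * m w.1 ^ (-a)))
      = ∫⁻ t, W t * ∫⁻ q, x (q, t) * (X (q, t) ^ a * m q ^ (-a)) := by
    rw [Measure.volume_eq_prod, lintegral_prod_symm (fun w : V × ℝ => W w.2 * (x w * (X w ^ a * m w.1 ^ (-a))))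
      (((hW.comp measurable_snd).mul (hx.mul hG)).aemeasurable)]
    refine lintegral_congr fun t => ?_
    rw [lintegral_const_mul' _ _ (hWt t)]
  have e2 : ∀ t, cK * ∫⁻ q, x (q, t) * (X (q, t) ^ a * m q ^ (-a)) ≤ C₃ * cR * ∫⁻ b, m b ^ (-a) * X (b, t) ^ p := by
    intro t
    calc cK * ∫⁻ q, x (q, t) * (X (q, t) ^ a * m q ^ (-a))
        ≤ cK * (C₃ * (cR * ∫⁻ b, (X (b, t) ^ a * m b ^ (-a)) * I (b, t))) := mul_le_mul' le_rfl (h3 t)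
      _ = C₃ * cR * (cK * ∫⁻ b, (X (b, t) ^ a * m b ^ (-a)) * I (b, t)) := by ring
      _ = C₃ * cR * ∫⁻ b, m b ^ (-a) * X (b, t) ^ p := by
        rw [← lintegral_const_mul' _ _ hcK]
        congr 1
        refine lintegral_congr fun b => ?_
        calc cK * (X (b, t) ^ a * m b ^ (-a) * I (b, t)) = X (b, t) ^ a * m b ^ (-a) * (cK * I (b, t)) := by ring
          _ = X (b, t) ^ a * m b ^ (-a) * X (b, t) := by rw [← hXI]
          _ = m b ^ (-a) * X (b, t) ^ p := dzm_ms_alg2 hp (hX0 _).1 (hX0 _).2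
  have hsw : Measurable (Function.uncurry fun (t : ℝ) (b : V) => W t * (m b ^ (-a) * X (b, t) ^ p)) := by
    refine (hW.comp measurable_fst).mul (((hm.comp measurable_snd).pow_const _).mul ?_)
    exact (hXm.comp (measurable_snd.prodMk measurable_fst)).pow_const _
  rw [e1]
  calc c1 * cK * ∫⁻ t, W t * ∫⁻ q, x (q, t) * (X (q, t) ^ a * m q ^ (-a))
      = c1 * ∫⁻ t, W t * (cK * ∫⁻ q, x (q, t) * (X (q, t) ^ a * m q ^ (-a))) := by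
        rw [mul_assoc, ← lintegral_const_mul' _ _ hcK]
        congr 1
        refine lintegral_congr fun t => ?_
        ring
    _ ≤ c1 * ∫⁻ t, W t * (C₃ * cR * ∫⁻ b, m b ^ (-a) * X (b, t) ^ p) :=
        mul_le_mul' le_rfl (lintegral_mono fun t => mul_le_mul' le_rfl (e2 t))
    _ = C₃ * cR * (c1 * ∫⁻ t, ∫⁻ b, W t * (m b ^ (-a) * X (b, t) ^ p)) := by
        have h5 : ∀ t, W t * (C₃ * cR * ∫⁻ b, m b ^ (-a) * X (b, t) ^ p) = C₃ * cR * ∫⁻ b, W t * (m b ^ (-a) * X (b, t) ^ p) := by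
          intro t
          rw [lintegral_const_mul' _ _ (hWt t)]
          ring
        rw [lintegral_congr h5, lintegral_const_mul' _ _ (ENNReal.mul_ne_top hC₃ hcR)]
        ring
    _ = C₃ * cR * (c1 * ∫⁻ b, ∫⁻ t, W t * (m b ^ (-a) * X (b, t) ^ p)) := by
        rw [lintegral_lintegral_swap hsw.aemeasurable]
    _ = C₃ * cR * ∫⁻ b, m b ^ (-a) * (c1 * ∫⁻ t, W t * X (b, t) ^ p) := by
        rw [← lintegral_const_mul' _ _ hc1]
        congr 1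
        refine lintegral_congr fun b => ?_
        have h6 : ∀ t, W t * (m b ^ (-a) * X (b, t) ^ p) = m b ^ (-a) * (W t * X (b, t) ^ p) := fun t => by ring
        rw [lintegral_congr h6, lintegral_const_mul' _ _ (hma b)]
        ring
    _ ≤ C₃ * cR * ∫⁻ b, m b ^ (-a) * (A' * m b ^ p) :=
        mul_le_mul' le_rfl (lintegral_mono fun b => mul_le_mul' le_rfl (hA b))
    _ = C₃ * cR * ∫⁻ b, A' * m b := by
        congr 1
        refine lintegral_congr fun b => ?_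
        calc m b ^ (-a) * (A' * m b ^ p) = A' * (m b ^ (-a) * m b ^ p) := by ring
          _ = A' * m b := by rw [dzm_ms_alg3 hp (hm0 b).1 (hm0 b).2]
    _ = C₃ * cR * (A' * ∫⁻ b, m b) := by rw [lintegral_const_mul _ hm]
    _ = C₃ * A' * (cR * ∫⁻ b, m b) := by ring

/-- **LEAF L-DZ-M5: THE MASS INEQUALITY** (~350 l.;  GLUE of M0-M3).    `q = qq V`, `φ = ‖H‖ₑ^q`, `Γ z = wr E_t r² (z.2 - t₀) * ys z ^(-(2/k))`, `E_Γ = E_t + 2/k (4E₁/q + E + E₂)` (`dz_ys_peetre`, `dz_gam_peetre` with `R = r²`).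
(1) `dz_smooth1`, `dz_smooth2`:   `LHS ≤ K r^(-d) ∫ Γ w xs w ^(q/2) dw`   (`∫ φ y wt E₁ r (y - w) dy = xs w ^(q/2)`).
(2) pointwise (`0 < xs, Xs, m < ⊤`, `q/2 - 2/k = 1`: `dz_qq`):   `xs^(q/2) ys^(-(2/k)) = xs (Xs/m)^(2/k)`.
(3) `lintegral_prod`;  for fixed `t`: `dz_smooth3` with `R' = r²`, `x p = xs (p,t)`, `Γ₂ p = (Xs (p,t)/m p)^(2/k)`, `B = 2^((2/k)(E₂ + E))` (`dz_Xs_peetre`, `hm`):   `r^(-k) ∫ xs Γ₂ ≤ K r^(-2k) ∫ Γ₂ b Xs (b,t) db`,   `Γ₂ Xs = Xs^(q/2) m^(-(2/k))`.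
(4) Tonelli in `(t, b)`, the hypothesis `hA`, `m^(-(2/k)) m^(q/2) = m`. -/
theorem dz_mass (hk : 1 ≤ Module.finrank ℝ V) (E E₁ E₂ E_t E₀ : ℝ) (hE : 0 ≤ E) (hE₁ : (dd V : ℝ) < E₁) (hE₂ : (Module.finrank ℝ V : ℝ) < E₂) (hEt : 0 ≤ E_t)
    (hE₀ : E_t + 2 / (Module.finrank ℝ V : ℝ) * (4 * E₁ / qq V + E + E₂) + (dd V : ℝ) < E₀) : ∃ K : ℝ, ∀ (r t₀ : ℝ) (H : V × ℝ → ℂ) (B : ℝ) (m : V → ℝ≥0∞) (A' : ℝ≥0∞),
    1 ≤ r → Continuous H → (∀ z, ‖H z‖ ≤ B) → (∃ z, H z ≠ 0) → Measurable m → (∀ b, 0 < m b ∧ m b < ⊤) → (∀ b b', m (b + b') ≤ ENNReal.ofReal ((1 + ‖b'‖ / r ^ 2) ^ E) * m b) →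
    (∀ b, ENNReal.ofReal r⁻¹ * ∫⁻ t : ℝ, wr E_t (r ^ 2) (t - t₀) * Xs (qq V) E₁ E₂ r H (b, t) ^ (qq V / 2) ≤ A' * m b ^ (qq V / 2)) →
    ENNReal.ofReal (r ^ (-(Module.finrank ℝ V : ℝ))) * ∫⁻ z, wr E_t (r ^ 2) (z.2 - t₀) * (lqw (qq V) (pwt E₀ r 1) H z * ys (qq V) E₁ E₂ r H m z ^ (-(2 / (Module.finrank ℝ V : ℝ))))
      ≤ ENNReal.ofReal K * A' * (ENNReal.ofReal ((r ^ 2) ^ (-(Module.finrank ℝ V : ℝ))) * ∫⁻ b, m b) := by
  obtain ⟨hq2, -, -, hqa, -⟩ := dz_qq (V := V) hk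
  have hk' : (1 : ℝ) ≤ (Module.finrank ℝ V : ℝ) := by exact_mod_cast hk
  have hq0 : 0 < qq V := by linarith
  have ha0 : 0 ≤ 2 / (Module.finrank ℝ V : ℝ) := by positivity
  have hd0 : (0 : ℝ) ≤ (dd V : ℝ) := Nat.cast_nonneg _
  have hE₁0 : 0 ≤ E₁ := hd0.trans hE₁.le
  have hE₂0 : 0 ≤ E₂ := (Nat.cast_nonneg _).trans hE₂.le
  have hEy : 0 ≤ 4 * E₁ / qq V + E + E₂ := by positivity
  have hEΓ : 0 ≤ E_t + 2 / (Module.finrank ℝ V : ℝ) * (4 * E₁ / qq V + E + E₂) := by positivity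
  obtain ⟨K₁, h1⟩ := dz_smooth1 (V := V) E₀ (E_t + 2 / (Module.finrank ℝ V : ℝ) * (4 * E₁ / qq V + E + E₂)) hEΓ hE₀
  obtain ⟨K₂, h2⟩ := dz_smooth2 (V := V) E₁ (E_t + 2 / (Module.finrank ℝ V : ℝ) * (4 * E₁ / qq V + E + E₂)) hEΓ hE₁0
  obtain ⟨K₃, h3⟩ := dz_smooth3 (V := V) E₂ hE₂0
  refine ⟨max K₁ 0 * max K₂ 0 * max K₃ 0 * (((2 : ℝ) ^ E₂) ^ (2 / (Module.finrank ℝ V : ℝ)) * ((2 : ℝ) ^ E) ^ (2 / (Module.finrank ℝ V : ℝ))), ?_⟩
  intro r t₀ H B m A' hr hc hB h0 hm hmpos hmv hA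
  have hr0 : 0 < r := by linarith
  have hr2 : 0 < r ^ 2 := by positivity
  have hHm : Measurable H := hc.measurable
  have hxm := dz_measurable_xs (qq V) E₁ r hHm
  have hXm := dz_measurable_Xs (qq V) E₁ E₂ r hHm
  have hym := dz_measurable_ys (qq V) E₁ E₂ r hHm hm
  have hxp := dz_xs_pos_fin hq0 hE₁ hr0 hc hB h0
  have hXp := dz_Xs_pos_fin hq0 hE₁ hE₂ hr0 hc hB h0
  have hyv := dz_ys_peetre hq0 hE₁0 hE₂0 hE hr H hmv
  have hrr : r ≤ r ^ 2 := by nlinarith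
  have hΓv := dz_gam_peetre (t₀ := t₀) hEt hEy ha0 hr0 hrr hyv
  have hWm : Measurable fun t : ℝ => wr E_t (r ^ 2) (t - t₀) := (dz_measurable_wr E_t (r ^ 2)).comp (measurable_id.sub_const t₀)
  have hφ : Measurable fun y : V × ℝ => ‖H y‖ₑ ^ qq V := hHm.enorm.pow_const _
  have hΓm : Measurable fun z : V × ℝ => wr E_t (r ^ 2) (z.2 - t₀) * ys (qq V) E₁ E₂ r H m z ^ (-(2 / (Module.finrank ℝ V : ℝ))) :=
    ((dz_measurable_wr E_t (r ^ 2)).comp (measurable_snd.sub_const t₀)).mul (hym.pow_const _)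
  have hs1 := h1 r (fun y => ‖H y‖ₑ ^ qq V) (fun z => wr E_t (r ^ 2) (z.2 - t₀) * ys (qq V) E₁ E₂ r H m z ^ (-(2 / (Module.finrank ℝ V : ℝ)))) hr hφ hΓm hΓv
  have hs2 := h2 r (fun y => ‖H y‖ₑ ^ qq V) (fun z => wr E_t (r ^ 2) (z.2 - t₀) * ys (qq V) E₁ E₂ r H m z ^ (-(2 / (Module.finrank ℝ V : ℝ)))) hr0 hφ hΓm hΓv
  -- the core
  have hslow : ∀ t : ℝ, ∀ p b : V, ‖p - b‖ ≤ r ^ 2 →
      Xs (qq V) E₁ E₂ r H (p, t) ^ (2 / (Module.finrank ℝ V : ℝ)) * m p ^ (-(2 / (Module.finrank ℝ V : ℝ)))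
        ≤ ENNReal.ofReal (((2 : ℝ) ^ E₂) ^ (2 / (Module.finrank ℝ V : ℝ)) * ((2 : ℝ) ^ E) ^ (2 / (Module.finrank ℝ V : ℝ))) *
          (Xs (qq V) E₁ E₂ r H (b, t) ^ (2 / (Module.finrank ℝ V : ℝ)) * m b ^ (-(2 / (Module.finrank ℝ V : ℝ)))) := by
    intro t p b hpb
    have hle : 1 + ‖p - b‖ / r ^ 2 ≤ 2 := by
      have : ‖p - b‖ / r ^ 2 ≤ 1 := (div_le_one hr2).2 hpb
      linarith
    have hge : 0 ≤ 1 + ‖p - b‖ / r ^ 2 := by positivity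
    refine dzm_ms_slow ha0 (by positivity) (by positivity) ?_ ?_
    · have h5 := dz_Xs_peetre hq0 hE₁0 hE₂0 hr0 H (b, t) (p - b, 0)
      have e5 : ((b, t) : V × ℝ) + (p - b, 0) = (p, t) := by
        rw [Prod.mk_add_mk, add_sub_cancel, add_zero]
      rw [e5] at h5
      refine h5.trans (mul_le_mul' (ENNReal.ofReal_le_ofReal ?_) le_rfl)
      simp only [abs_zero, zero_div, add_zero, Real.one_rpow, mul_one]
      exact Real.rpow_le_rpow hge hle hE₂0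
    · have h5 := hmv p (b - p)
      rw [add_sub_cancel] at h5
      refine h5.trans (mul_le_mul' (ENNReal.ofReal_le_ofReal ?_) le_rfl)
      rw [norm_sub_rev]
      exact Real.rpow_le_rpow hge hle hE
  have hcore := dzm_ms_core (V := V) hqa (xs (qq V) E₁ r H) (Xs (qq V) E₁ E₂ r H)
    (fun z => ∫⁻ x : V, wv E₂ (r ^ 2) (x - z.1) * xs (qq V) E₁ r H (x, z.2)) m (fun t => wr E_t (r ^ 2) (t - t₀))
    (ENNReal.ofReal (r ^ (-(Module.finrank ℝ V : ℝ)))) (ENNReal.ofReal r⁻¹) (ENNReal.ofReal ((r ^ 2) ^ (-(Module.finrank ℝ V : ℝ))))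
    (ENNReal.ofReal K₃ * ENNReal.ofReal (((2 : ℝ) ^ E₂) ^ (2 / (Module.finrank ℝ V : ℝ)) * ((2 : ℝ) ^ E) ^ (2 / (Module.finrank ℝ V : ℝ)))) A'
    ENNReal.ofReal_ne_top ENNReal.ofReal_ne_top ENNReal.ofReal_ne_top (ENNReal.mul_ne_top ENNReal.ofReal_ne_top ENNReal.ofReal_ne_top)
    hxm hXm hm hWm (fun t => ENNReal.ofReal_ne_top) (fun z => ⟨(hXp z).1.ne', (hXp z).2.ne⟩) (fun b => ⟨(hmpos b).1.ne', (hmpos b).2.ne⟩)
    (fun z => rfl)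
    (fun t => h3 (r ^ 2) _ (fun p => xs (qq V) E₁ r H (p, t))
      (fun p => Xs (qq V) E₁ E₂ r H (p, t) ^ (2 / (Module.finrank ℝ V : ℝ)) * m p ^ (-(2 / (Module.finrank ℝ V : ℝ)))) hr2
      (hxm.comp measurable_prodMk_right)
      (((hXm.comp measurable_prodMk_right).pow_const _).mul (hm.pow_const _)) (hslow t)) hA
  have hcD : ENNReal.ofReal (r ^ (-(dd V : ℝ))) = ENNReal.ofReal r⁻¹ * ENNReal.ofReal (r ^ (-(Module.finrank ℝ V : ℝ))) := by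
    rw [← ENNReal.ofReal_mul (by positivity)]
    congr 1
    have : -(dd V : ℝ) = -1 + -(Module.finrank ℝ V : ℝ) := by
      unfold dd
      push_cast
      ring
    rw [this, Real.rpow_add hr0, Real.rpow_neg_one]
  have hpt : ∀ w : V × ℝ, (wr E_t (r ^ 2) (w.2 - t₀) * ys (qq V) E₁ E₂ r H m w ^ (-(2 / (Module.finrank ℝ V : ℝ)))) * ∫⁻ y, ‖H y‖ₑ ^ qq V * wt E₁ r (y - w)
      = wr E_t (r ^ 2) (w.2 - t₀) * (xs (qq V) E₁ r H w * (Xs (qq V) E₁ E₂ r H w ^ (2 / (Module.finrank ℝ V : ℝ)) * m w.1 ^ (-(2 / (Module.finrank ℝ V : ℝ))))) := by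
    intro w
    have e6 : ∫⁻ y, ‖H y‖ₑ ^ qq V * wt E₁ r (y - w) = xs (qq V) E₁ r H w ^ (qq V / 2) := by
      unfold xs lqw
      rw [← ENNReal.rpow_mul]
      have : 2 / qq V * (qq V / 2) = 1 := by field_simp
      rw [this, ENNReal.rpow_one]
    rw [e6, mul_assoc]
    congr 1
    exact dzm_ms_alg1 hqa (hxp w).1.ne' (hxp w).2.ne (hXp w).1.ne' (hmpos w.1).2.ne
  calc ENNReal.ofReal (r ^ (-(Module.finrank ℝ V : ℝ))) * ∫⁻ z, wr E_t (r ^ 2) (z.2 - t₀) * (lqw (qq V) (pwt E₀ r 1) H z * ys (qq V) E₁ E₂ r H m z ^ (-(2 / (Module.finrank ℝ V : ℝ))))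
      = ENNReal.ofReal (r ^ (-(Module.finrank ℝ V : ℝ))) * ∫⁻ z, (wr E_t (r ^ 2) (z.2 - t₀) * ys (qq V) E₁ E₂ r H m z ^ (-(2 / (Module.finrank ℝ V : ℝ)))) * ∫⁻ y, ‖H y‖ₑ ^ qq V * pwt E₀ r 1 (y - z) := by
        congr 1
        refine lintegral_congr fun z => ?_
        unfold lqw
        ring
    _ ≤ ENNReal.ofReal K₁ * ∫⁻ y, ‖H y‖ₑ ^ qq V * (wr E_t (r ^ 2) (y.2 - t₀) * ys (qq V) E₁ E₂ r H m y ^ (-(2 / (Module.finrank ℝ V : ℝ)))) := hs1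
    _ ≤ ENNReal.ofReal K₁ * (ENNReal.ofReal K₂ * (ENNReal.ofReal (r ^ (-(dd V : ℝ))) * ∫⁻ w, (wr E_t (r ^ 2) (w.2 - t₀) * ys (qq V) E₁ E₂ r H m w ^ (-(2 / (Module.finrank ℝ V : ℝ)))) * ∫⁻ y, ‖H y‖ₑ ^ qq V * wt E₁ r (y - w))) :=
        mul_le_mul' le_rfl hs2
    _ = ENNReal.ofReal K₁ * (ENNReal.ofReal K₂ * (ENNReal.ofReal r⁻¹ * ENNReal.ofReal (r ^ (-(Module.finrank ℝ V : ℝ))) * ∫⁻ w : V × ℝ, wr E_t (r ^ 2) (w.2 - t₀) * (xs (qq V) E₁ r H w * (Xs (qq V) E₁ E₂ r H w ^ (2 / (Module.finrank ℝ V : ℝ)) * m w.1 ^ (-(2 / (Module.finrank ℝ V : ℝ))))))) := by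
        rw [hcD, lintegral_congr hpt]
    _ ≤ ENNReal.ofReal K₁ * (ENNReal.ofReal K₂ * (ENNReal.ofReal K₃ * ENNReal.ofReal (((2 : ℝ) ^ E₂) ^ (2 / (Module.finrank ℝ V : ℝ)) * ((2 : ℝ) ^ E) ^ (2 / (Module.finrank ℝ V : ℝ))) * A' * (ENNReal.ofReal ((r ^ 2) ^ (-(Module.finrank ℝ V : ℝ))) * ∫⁻ b, m b))) :=
        mul_le_mul' le_rfl (mul_le_mul' le_rfl hcore)
    _ = (ENNReal.ofReal K₁ * ENNReal.ofReal K₂ * ENNReal.ofReal K₃ * ENNReal.ofReal (((2 : ℝ) ^ E₂) ^ (2 / (Module.finrank ℝ V : ℝ)) * ((2 : ℝ) ^ E) ^ (2 / (Module.finrank ℝ V : ℝ)))) * A' * (ENNReal.ofReal ((r ^ 2) ^ (-(Module.finrank ℝ V : ℝ))) * ∫⁻ b, m b) := by ring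
    _ ≤ ENNReal.ofReal (max K₁ 0 * max K₂ 0 * max K₃ 0 * (((2 : ℝ) ^ E₂) ^ (2 / (Module.finrank ℝ V : ℝ)) * ((2 : ℝ) ^ E) ^ (2 / (Module.finrank ℝ V : ℝ)))) * A' * (ENNReal.ofReal ((r ^ 2) ^ (-(Module.finrank ℝ V : ℝ))) * ∫⁻ b, m b) := by
        refine mul_le_mul' (mul_le_mul' ?_ le_rfl) le_rfl
        exact dzm_ms_const K₁ K₂ K₃ _

/-- the integral of a polynomial weight on a finite dimensional space -/
theorem dzm_lint_scale {W : Type} [NormedAddCommGroup W] [NormedSpace ℝ W] [FiniteDimensional ℝ W] [MeasurableSpace W] [BorelSpace W] (μ : Measure W) [μ.IsAddHaarMeasure]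
    {E : ℝ} (hE : (Module.finrank ℝ W : ℝ) < E) :
    ∃ c : ℝ, 0 < c ∧ ∀ R : ℝ, 0 < R → ∀ a : W, ∫⁻ y : W, ENNReal.ofReal ((1 + ‖y - a‖ / R) ^ (-E)) ∂μ = ENNReal.ofReal (c * R ^ (Module.finrank ℝ W : ℝ)) := by
  have hint : Integrable (fun y : W => (1 + ‖y‖) ^ (-E)) μ := integrable_one_add_norm hE
  have hpos : ∀ y : W, 0 < (1 + ‖y‖) ^ (-E) := fun y => Real.rpow_pos_of_pos (by positivity) _
  refine ⟨∫ y : W, (1 + ‖y‖) ^ (-E) ∂μ, ?_, fun R hR a => ?_⟩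
  · rw [integral_pos_iff_support_of_nonneg (fun y => (hpos y).le) hint]
    have : Function.support (fun y : W => (1 + ‖y‖) ^ (-E)) = univ := by
      ext y
      simp [(hpos y).ne']
    rw [this]
    exact Measure.measure_univ_pos.2 (NeZero.ne _)
  · rw [lintegral_sub_right_eq_self (fun y : W => ENNReal.ofReal ((1 + ‖y‖ / R) ^ (-E))) a]
    have e1 : ∀ y : W, (1 + ‖y‖ / R) ^ (-E) = (fun y : W => (1 + ‖y‖) ^ (-E)) (R⁻¹ • y) := by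
      intro y
      simp only
      rw [norm_smul, norm_inv, Real.norm_of_nonneg hR.le, inv_mul_eq_div]
    have hint' : Integrable (fun y : W => (1 + ‖y‖ / R) ^ (-E)) μ := by
      simp_rw [e1]
      exact hint.comp_smul (inv_ne_zero hR.ne')
    rw [← ofReal_integral_eq_lintegral_ofReal hint' (Filter.Eventually.of_forall fun y => by positivity)]
    congr 1
    simp_rw [e1]
    rw [Measure.integral_comp_inv_smul_of_nonneg μ (fun y : W => (1 + ‖y‖) ^ (-E)) hR.le, smul_eq_mul, ← Real.rpow_natCast, mul_comm]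

omit [InnerProductSpace ℝ V] [FiniteDimensional ℝ V] [MeasurableSpace V] [BorelSpace V] in
/-- the space-time weight is dominated by a product weight -/
theorem dzm_wt_le_prod {E a R : ℝ} (ha : 0 ≤ a) (haE : a ≤ E) (hR : 0 < R) (w : V × ℝ) : wt E R w ≤ wv a R w.1 * wr (E - a) R w.2 := by
  unfold wt wv wr
  rw [← ENNReal.ofReal_mul (by positivity)]
  refine ENNReal.ofReal_le_ofReal ?_
  have h0 : 0 < 1 + ‖w‖ / R := by positivity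
  have h1 : 0 < 1 + ‖w.1‖ / R := by positivity
  have h2 : 0 < 1 + |w.2| / R := by positivity
  have e : (1 + ‖w‖ / R) ^ (-E) = (1 + ‖w‖ / R) ^ (-a) * (1 + ‖w‖ / R) ^ (-(E - a)) := by
    rw [← Real.rpow_add h0]
    congr 1
    ring
  rw [e]
  refine mul_le_mul ?_ ?_ (by positivity) (by positivity)
  · refine Real.rpow_le_rpow_of_nonpos h1 ?_ (by linarith)
    have := norm_fst_le w
    gcongr
  · refine Real.rpow_le_rpow_of_nonpos h2 ?_ (by linarith)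
    have : |w.2| ≤ ‖w‖ := norm_snd_le w
    gcongr

/-- **LEAF L-DZ-M6: the total mass** (~200 l.).    Tonelli:  `R'^(-k) ∫ lm E R' g (b,t₀) db = R'⁻¹ ∫ |ext g y|² (R'^(-k) ∫ wt E R' (y - (b,t₀)) db) dy`;
`wt E R' w ≤ wv (k+1) R' w.1 * wr (E-k-1) R' w.2`,  `R'^(-k) ∫ wv (k+1) R' = c`;   `lintegral_prod`, `dz_planch` at every time,  `R'⁻¹ ∫ wr (E-k-1) R' (t - t₀) dt = ∫ (1+|s|)^(-(E-k-1)) ds < ⊤`  (`E - k - 1 > 1`). -/
theorem dz_mass_total (E : ℝ) (hE : (Module.finrank ℝ V : ℝ) + 2 < E) : ∃ K : ℝ, ∀ (R' t₀ : ℝ) (g : V → ℂ), 0 < R' → Integrable g → MR.l2 g < ⊤ →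
    ENNReal.ofReal (R' ^ (-(Module.finrank ℝ V : ℝ))) * ∫⁻ b : V, MR.lm E R' g (b, t₀) ≤ ENNReal.ofReal K * MR.l2 g := by
  obtain ⟨c, hc, hpl⟩ := dz_planch (V := V)
  obtain ⟨c₁, hc₁, h1⟩ := dzm_lint_scale (volume : Measure V) (E := (Module.finrank ℝ V : ℝ) + 1) (by linarith)
  obtain ⟨c₂, hc₂, h2⟩ := dzm_lint_scale (volume : Measure ℝ) (E := E - ((Module.finrank ℝ V : ℝ) + 1)) (by
    rw [Module.finrank_self]
    push_cast
    linarith)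
  refine ⟨c₁ * c₂ * c, ?_⟩
  intro R' t₀ g hR hg hl2
  have hk0 : (0 : ℝ) ≤ (Module.finrank ℝ V : ℝ) := Nat.cast_nonneg _
  obtain ⟨F, hFdef⟩ : ∃ F : V × ℝ → ℝ≥0∞, F = fun y => ‖MR.ext g y‖ₑ ^ (2 : ℝ) := ⟨_, rfl⟩
  have hF : Measurable F := by
    rw [hFdef]
    exact ((MR.ext_continuous hg).measurable.enorm).pow_const _
  have hwr : Measurable fun t : ℝ => wr (E - ((Module.finrank ℝ V : ℝ) + 1)) R' (t - t₀) := by
    unfold wr
    fun_prop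
  -- step 1, 2: Tonelli
  have s1 : ∫⁻ b : V, MR.lm E R' g (b, t₀) = ENNReal.ofReal R'⁻¹ * ∫⁻ y : V × ℝ, ∫⁻ b : V, F y * wt E R' (y - (b, t₀)) := by
    unfold MR.lm
    rw [lintegral_const_mul' _ _ ENNReal.ofReal_ne_top, lintegral_lintegral_swap]
    · rw [hFdef]
    · refine Measurable.aemeasurable ?_
      have m1 : Measurable fun p : V × (V × ℝ) => ‖MR.ext g p.2‖ₑ ^ (2 : ℝ) := by
        rw [hFdef] at hF
        exact hF.comp measurable_snd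
      have m2 : Measurable fun p : V × (V × ℝ) => wt E R' (p.2 - (p.1, t₀)) :=
        (measurable_wt E R').comp (measurable_snd.sub (measurable_fst.prodMk measurable_const))
      exact m1.mul m2
  -- step 3: the inner integral
  have s3 : ∀ y : V × ℝ, ∫⁻ b : V, F y * wt E R' (y - (b, t₀)) ≤
      ENNReal.ofReal (c₁ * R' ^ (Module.finrank ℝ V : ℝ)) * (F y * wr (E - ((Module.finrank ℝ V : ℝ) + 1)) R' (y.2 - t₀)) := by
    intro y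
    have m2 : Measurable fun b : V => wt E R' (y - (b, t₀)) :=
      (measurable_wt E R').comp (measurable_const.sub (measurable_id.prodMk measurable_const))
    rw [lintegral_const_mul _ m2]
    have h3 : ∫⁻ b : V, wt E R' (y - (b, t₀)) ≤ ∫⁻ b : V, ENNReal.ofReal ((1 + ‖b - y.1‖ / R') ^ (-((Module.finrank ℝ V : ℝ) + 1))) *
        wr (E - ((Module.finrank ℝ V : ℝ) + 1)) R' (y.2 - t₀) := by
      refine lintegral_mono fun b => ?_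
      have h4 := dzm_wt_le_prod (E := E) (a := (Module.finrank ℝ V : ℝ) + 1) (by linarith) (by linarith) hR (y - (b, t₀))
      refine h4.trans (le_of_eq ?_)
      unfold wv
      rw [Prod.fst_sub, Prod.snd_sub, norm_sub_rev]
    rw [lintegral_mul_const' _ _ (by unfold wr; exact ENNReal.ofReal_ne_top), h1 R' hR y.1] at h3
    calc F y * ∫⁻ b : V, wt E R' (y - (b, t₀))
        ≤ F y * (ENNReal.ofReal (c₁ * R' ^ (Module.finrank ℝ V : ℝ)) * wr (E - ((Module.finrank ℝ V : ℝ) + 1)) R' (y.2 - t₀)) := mul_le_mul_right h3 _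
      _ = _ := by ring
  -- step 4: Plancherel at every time
  have s4 : ∫⁻ y : V × ℝ, F y * wr (E - ((Module.finrank ℝ V : ℝ) + 1)) R' (y.2 - t₀) ≤ ENNReal.ofReal c * MR.l2 g * ENNReal.ofReal (c₂ * R') := by
    have hm4 : Measurable fun y : V × ℝ => F y * wr (E - ((Module.finrank ℝ V : ℝ) + 1)) R' (y.2 - t₀) := hF.mul (hwr.comp measurable_snd)
    rw [Measure.volume_eq_prod, lintegral_prod_symm _ hm4.aemeasurable]
    have h5 : ∀ t : ℝ, ∫⁻ x : V, F (x, t) * wr (E - ((Module.finrank ℝ V : ℝ) + 1)) R' (t - t₀) ≤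
        ENNReal.ofReal c * MR.l2 g * wr (E - ((Module.finrank ℝ V : ℝ) + 1)) R' (t - t₀) := by
      intro t
      rw [lintegral_mul_const' _ _ (by unfold wr; exact ENNReal.ofReal_ne_top)]
      refine mul_le_mul_left ?_ _
      rw [hFdef]
      exact hpl g hg hl2 t
    refine (lintegral_mono h5).trans (le_of_eq ?_)
    rw [lintegral_const_mul _ hwr]
    congr 1
    have h6 := h2 R' hR t₀
    rw [Module.finrank_self, Nat.cast_one, Real.rpow_one] at h6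
    rw [← h6]
    rfl
  rw [s1]
  calc ENNReal.ofReal (R' ^ (-(Module.finrank ℝ V : ℝ))) * (ENNReal.ofReal R'⁻¹ * ∫⁻ y : V × ℝ, ∫⁻ b : V, F y * wt E R' (y - (b, t₀)))
      ≤ ENNReal.ofReal (R' ^ (-(Module.finrank ℝ V : ℝ))) * (ENNReal.ofReal R'⁻¹ *
          ∫⁻ y : V × ℝ, ENNReal.ofReal (c₁ * R' ^ (Module.finrank ℝ V : ℝ)) * (F y * wr (E - ((Module.finrank ℝ V : ℝ) + 1)) R' (y.2 - t₀))) := by
        gcongr with y
        exact s3 y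
    _ = ENNReal.ofReal (R' ^ (-(Module.finrank ℝ V : ℝ))) * (ENNReal.ofReal R'⁻¹ * (ENNReal.ofReal (c₁ * R' ^ (Module.finrank ℝ V : ℝ)) *
          ∫⁻ y : V × ℝ, F y * wr (E - ((Module.finrank ℝ V : ℝ) + 1)) R' (y.2 - t₀))) := by
        rw [lintegral_const_mul' _ _ ENNReal.ofReal_ne_top]
    _ ≤ ENNReal.ofReal (R' ^ (-(Module.finrank ℝ V : ℝ))) * (ENNReal.ofReal R'⁻¹ * (ENNReal.ofReal (c₁ * R' ^ (Module.finrank ℝ V : ℝ)) *
          (ENNReal.ofReal c * MR.l2 g * ENNReal.ofReal (c₂ * R')))) := by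
        gcongr
    _ = (ENNReal.ofReal (R' ^ (-(Module.finrank ℝ V : ℝ))) * ENNReal.ofReal R'⁻¹ * ENNReal.ofReal (c₁ * R' ^ (Module.finrank ℝ V : ℝ)) * ENNReal.ofReal c *
          ENNReal.ofReal (c₂ * R')) * MR.l2 g := by ring
    _ = ENNReal.ofReal (c₁ * c₂ * c) * MR.l2 g := by
        congr 1
        rw [← ENNReal.ofReal_mul (by positivity), ← ENNReal.ofReal_mul (by positivity), ← ENNReal.ofReal_mul (by positivity),
          ← ENNReal.ofReal_mul (by positivity)]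
        congr 1
        rw [Real.rpow_neg hR.le]
        have : R' ^ (Module.finrank ℝ V : ℝ) ≠ 0 := (Real.rpow_pos_of_pos hR _).ne'
        field_simp

/-- **LEAF L-DZ-M7: the `ys`-mass of a ball of radius `C₃ r²` in one slab** (~120 l.).   For `‖x - b₀‖ ≤ C₃ r²`:  `m x ≤ (1+C₃)^E m b₀`, `Xs (b₀,t) ≤ (1+C₃)^E₂ Xs (x,t)` (`dz_Xs_peetre`), so `ys (x,t) ≤ (1+C₃)^(E+E₂) xs (x,t) m b₀ / Xs (b₀,t)`;
`r^(-k) ∫_{ball} xs (x,t) dx ≤ (1+C₃)^E₂ Xs (b₀,t)` (`wv E₂ r² (x - b₀) ≥ (1+C₃)^(-E₂)` on the ball);   `a / a ≤ 1` (`ENNReal.div_self_le_one`). -/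
theorem dz_ys_box {q E₁ E₂ E r C₃ : ℝ} (hq : 0 < q) (hE₁ : 0 ≤ E₁) (hE₂ : 0 ≤ E₂) (hE : 0 ≤ E) (hr : 0 < r) (hC₃ : 0 ≤ C₃) {H : V × ℝ → ℂ} (hH : Measurable H) {m : V → ℝ≥0∞}
    (hm : ∀ b b', m (b + b') ≤ ENNReal.ofReal ((1 + ‖b'‖ / r ^ 2) ^ E) * m b) (b₀ : V) (t : ℝ) :
    ENNReal.ofReal (r ^ (-(Module.finrank ℝ V : ℝ))) * ∫⁻ x in closedBall b₀ (C₃ * r ^ 2), ys q E₁ E₂ r H m (x, t) ≤ ENNReal.ofReal ((1 + C₃) ^ (E + 2 * E₂)) * m b₀ := by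
  have hr2 : 0 < r ^ 2 := by positivity
  have hC1 : 0 < 1 + C₃ := by linarith
  obtain ⟨c₁, hc₁⟩ : ∃ c₁ : ℝ, c₁ = (1 + C₃) ^ E := ⟨_, rfl⟩
  obtain ⟨c₂, hc₂⟩ : ∃ c₂ : ℝ, c₂ = (1 + C₃) ^ E₂ := ⟨_, rfl⟩
  have hc₁0 : 0 < c₁ := by
    rw [hc₁]
    exact Real.rpow_pos_of_pos hC1 _
  have hc₂0 : 0 < c₂ := by
    rw [hc₂]
    exact Real.rpow_pos_of_pos hC1 _
  have hxm : Measurable fun x : V => xs q E₁ r H (x, t) := (dz_measurable_xs q E₁ r hH).comp measurable_prodMk_right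
  obtain ⟨X₀, hX₀⟩ : ∃ X₀ : ℝ≥0∞, X₀ = Xs q E₁ E₂ r H (b₀, t) := ⟨_, rfl⟩
  have hdist : ∀ x ∈ closedBall b₀ (C₃ * r ^ 2), ‖x - b₀‖ / r ^ 2 ≤ C₃ := by
    intro x hx
    rw [mem_closedBall, dist_eq_norm] at hx
    rwa [div_le_iff₀ hr2]
  have hpt : ∀ x ∈ closedBall b₀ (C₃ * r ^ 2), ys q E₁ E₂ r H m (x, t) ≤ (ENNReal.ofReal c₁ * ENNReal.ofReal c₂ * m b₀ * X₀⁻¹) * xs q E₁ r H (x, t) := by
    intro x hx
    have hd := hdist x hx
    have h1 : m x ≤ ENNReal.ofReal c₁ * m b₀ := by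
      have h := hm b₀ (x - b₀)
      rw [add_sub_cancel] at h
      refine h.trans (mul_le_mul_left (ENNReal.ofReal_le_ofReal ?_) _)
      rw [hc₁]
      exact Real.rpow_le_rpow (by positivity) (by linarith) hE
    have h2 : X₀ ≤ ENNReal.ofReal c₂ * Xs q E₁ E₂ r H (x, t) := by
      have h := dz_Xs_peetre (E₂ := E₂) hq hE₁ hE₂ hr H (x, t) (b₀ - x, 0)
      have e : ((x, t) : V × ℝ) + (b₀ - x, 0) = (b₀, t) := by
        ext <;> simp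
      rw [e, ← hX₀] at h
      refine h.trans (mul_le_mul_left (ENNReal.ofReal_le_ofReal ?_) _)
      simp only [abs_zero, zero_div, add_zero, Real.one_rpow, mul_one]
      rw [hc₂, norm_sub_rev]
      exact Real.rpow_le_rpow (by positivity) (by linarith) hE₂
    have h3 : (Xs q E₁ E₂ r H (x, t))⁻¹ ≤ ENNReal.ofReal c₂ * X₀⁻¹ := by
      have h4 := ENNReal.inv_le_inv.2 h2
      rw [ENNReal.mul_inv (Or.inl (ENNReal.ofReal_pos.2 hc₂0).ne') (Or.inl ENNReal.ofReal_ne_top)] at h4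
      calc (Xs q E₁ E₂ r H (x, t))⁻¹ = ENNReal.ofReal c₂ * ((ENNReal.ofReal c₂)⁻¹ * (Xs q E₁ E₂ r H (x, t))⁻¹) := by
            rw [← mul_assoc, ENNReal.mul_inv_cancel (ENNReal.ofReal_pos.2 hc₂0).ne' ENNReal.ofReal_ne_top, one_mul]
        _ ≤ ENNReal.ofReal c₂ * X₀⁻¹ := mul_le_mul_right h4 _
    unfold ys
    rw [div_eq_mul_inv]
    calc xs q E₁ r H (x, t) * m x * (Xs q E₁ E₂ r H (x, t))⁻¹
        ≤ xs q E₁ r H (x, t) * (ENNReal.ofReal c₁ * m b₀) * (ENNReal.ofReal c₂ * X₀⁻¹) := by gcongr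
      _ = _ := by ring
  have hball : ENNReal.ofReal (r ^ (-(Module.finrank ℝ V : ℝ))) * ∫⁻ x in closedBall b₀ (C₃ * r ^ 2), xs q E₁ r H (x, t) ≤ ENNReal.ofReal c₂ * X₀ := by
    have e : ENNReal.ofReal c₂ * X₀ = ENNReal.ofReal (r ^ (-(Module.finrank ℝ V : ℝ))) *
        ∫⁻ x : V, ENNReal.ofReal c₂ * (wv E₂ (r ^ 2) (x - b₀) * xs q E₁ r H (x, t)) := by
      rw [lintegral_const_mul' _ _ ENNReal.ofReal_ne_top, hX₀]
      unfold Xs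
      ring
    rw [e]
    refine mul_le_mul_right ?_ _
    refine le_trans (setLIntegral_mono' measurableSet_closedBall fun x hx => ?_) (setLIntegral_le_lintegral _ _)
    have hd := hdist x hx
    have h5 : 1 ≤ ENNReal.ofReal c₂ * wv E₂ (r ^ 2) (x - b₀) := by
      unfold wv
      rw [← ENNReal.ofReal_mul hc₂0.le, ← ENNReal.ofReal_one]
      refine ENNReal.ofReal_le_ofReal ?_
      have hb : 0 < 1 + ‖x - b₀‖ / r ^ 2 := by positivity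
      rw [Real.rpow_neg hb.le, ← div_eq_mul_inv, le_div_iff₀ (Real.rpow_pos_of_pos hb _), one_mul, hc₂]
      exact Real.rpow_le_rpow hb.le (by linarith) hE₂
    calc xs q E₁ r H (x, t) = 1 * xs q E₁ r H (x, t) := (one_mul _).symm
      _ ≤ (ENNReal.ofReal c₂ * wv E₂ (r ^ 2) (x - b₀)) * xs q E₁ r H (x, t) := mul_le_mul_left h5 _
      _ = _ := mul_assoc _ _ _
  have hcc : ENNReal.ofReal ((1 + C₃) ^ (E + 2 * E₂)) = ENNReal.ofReal c₁ * ENNReal.ofReal c₂ * ENNReal.ofReal c₂ := by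
    rw [← ENNReal.ofReal_mul hc₁0.le, ← ENNReal.ofReal_mul (by positivity), hc₁, hc₂, ← Real.rpow_add hC1, ← Real.rpow_add hC1]
    congr 2
    ring
  calc ENNReal.ofReal (r ^ (-(Module.finrank ℝ V : ℝ))) * ∫⁻ x in closedBall b₀ (C₃ * r ^ 2), ys q E₁ E₂ r H m (x, t)
      ≤ ENNReal.ofReal (r ^ (-(Module.finrank ℝ V : ℝ))) *
          ∫⁻ x in closedBall b₀ (C₃ * r ^ 2), (ENNReal.ofReal c₁ * ENNReal.ofReal c₂ * m b₀ * X₀⁻¹) * xs q E₁ r H (x, t) :=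
        mul_le_mul_right (setLIntegral_mono' measurableSet_closedBall hpt) _
    _ = (ENNReal.ofReal c₁ * ENNReal.ofReal c₂ * m b₀ * X₀⁻¹) *
          (ENNReal.ofReal (r ^ (-(Module.finrank ℝ V : ℝ))) * ∫⁻ x in closedBall b₀ (C₃ * r ^ 2), xs q E₁ r H (x, t)) := by
        rw [lintegral_const_mul _ hxm]
        ring
    _ ≤ (ENNReal.ofReal c₁ * ENNReal.ofReal c₂ * m b₀ * X₀⁻¹) * (ENNReal.ofReal c₂ * X₀) := mul_le_mul_right hball _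
    _ = (ENNReal.ofReal c₁ * ENNReal.ofReal c₂ * ENNReal.ofReal c₂ * m b₀) * (X₀⁻¹ * X₀) := by ring
    _ ≤ (ENNReal.ofReal c₁ * ENNReal.ofReal c₂ * ENNReal.ofReal c₂ * m b₀) * 1 := mul_le_mul_right (ENNReal.inv_mul_le_one _) _
    _ = _ := by rw [mul_one, hcc]

end Claimed.Agent.DZ
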