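import Claimed.Agent.Lib.DZ.OccDefs
import Claimed.Agent.Lib.DZ.Mm
import Claimed.Agent.R257.Infra.Repro

/-!
# Box DZ, file Occ: OCCUPANCY OF THE `L`-BOXES from `MRS*` (`dz_occ : 1 ≤ n → OccStmt n`).      CONTRACT (captain helper3)
PAPER-FREE.  Every `sorry` is a leaf `L-DZ-O*`.  Statements are frozen (tell helper3 at once if one looks false or awkward); auxiliary lemmas (prefix `dzo_`) directly above your theorem; edit only your block.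
`V = E n` (`finrank = n`: `finrank_euclideanSpace_fin`), `ST n = E n × ℝ`.   SIGN:  `R257.ext g (x,t) = MR.ext g (x,-t)`  (time reflection; all weights and domains below are symmetric).   `q = qq (E n) = 2(n+2)/n`, `rex n = q/(n+3)`.
`Fin (dd (E n))` and `Fin (n+1)`:  `dd (E n) = n + 1` is a PROPOSITIONAL equality (`BD.dd`, `finrank_euclideanSpace_fin`): reindex with `finCongr`/`Fin.cast` (`Equiv.prod_comp`, `Equiv.sum_comp`).
ALSO AVAILABLE (you may add imports):  `R257.inf_lc n : LcStmt n` (`R257/Infra/Repro.lean`; locally constant property in the language of `ext`), `R257.sp_lattice_W` (`R257/Sp/Bro.lean`), API of cubes in `R257/Infra/Alg.lean` (`inf_cube_*`).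
-/

set_option autoImplicit false
open MeasureTheory Set Metric
open scoped ENNReal NNReal RealInnerProductSpace

namespace Claimed.Agent.DZ

open Claimed.Agent.BD Claimed.Agent.R257

variable {n : ℕ}

/-- **LEAF L-DZ-O1a** (~40 l.;  unfold `R257.ext`, `car`, `MR.ext`, `MR.gam`, `BD.ch`, `BD.pr`). -/
theorem dz_occ_ext (g : E n → ℂ) (z : ST n) : R257.ext g z = MR.ext g (z.1, -z.2) := by
  unfold R257.ext MR.ext
  congr 1
  ext ξ
  congr 1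
  unfold car ch pr MR.gam
  congr 1
  push_cast
  ring

/-- **LEAF L-DZ-O1b** (~60 l.;  `MemLp` ⟹ `∫⁻ ‖g‖ₑ² = ofReal ∫ ‖g‖²`: `R257.inf_str_pl_lint`). -/
theorem dz_occ_dat {R₀ : ℝ} {g : E n → ℂ} (h : Dat R₀ g) : MR.l2 g = ENNReal.ofReal (∫ ξ, ‖g ξ‖ ^ 2) ∧ MR.l2 g < ⊤ ∧ Integrable g := by
  have hi : Integrable (fun x => ‖g x‖ ^ 2) volume := MemLp.integrable_norm_pow (p := 2) (by exact_mod_cast h.l2) (by norm_num)
  have h1 : MR.l2 g = ENNReal.ofReal (∫ ξ, ‖g ξ‖ ^ 2) := by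
    unfold MR.l2
    rw [ofReal_integral_eq_lintegral_ofReal hi (Filter.Eventually.of_forall fun x => by positivity)]
    refine lintegral_congr fun x => ?_
    rw [ENNReal.ofReal_pow (norm_nonneg _), ofReal_norm, ENNReal.rpow_ofNat]
  refine ⟨h1, h1 ▸ ENNReal.ofReal_lt_top, ?_⟩
  have hfin : IsFiniteMeasure (volume.restrict (closedBall (0 : E n) R₀)) :=
    ⟨by rw [Measure.restrict_apply_univ]; exact measure_closedBall_lt_top⟩
  have h2 : IntegrableOn g (closedBall (0 : E n) R₀) := by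
    have := (h.l2.restrict (closedBall (0 : E n) R₀))
    exact this.integrable (by norm_num)
  refine (integrableOn_iff_integrable_of_support_subset ?_).1 h2
  intro ξ hξ
  rw [mem_closedBall, dist_zero_right]
  exact h.supp ξ hξ

theorem dzo_mrs_aux (hn : 1 ≤ n) (C₀ ε : ℝ) (hC₀ : 0 ≤ C₀) (hε : 0 < ε) : ∀ m : ℕ, dd (E n) = m → ∃ C : ℝ, ∃ M : ℕ, ∀ (ρ t₀ Q : ℝ) (U : Fin m → Set (E n)) (f : Fin m → E n → ℂ),
    1 ≤ ρ → 1 ≤ Q → (∀ i, U i ⊆ closedBall 0 C₀) →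
    (∀ ξ : Fin m → E n, (∀ i, ξ i ∈ U i) → ∀ t : Fin m → ℝ, ∑ i, |t i| ≤ Q * (‖∑ i, t i • ξ i‖ + |∑ i, t i|)) →
    (∀ i, Measurable (f i)) → (∀ i ξ, ξ ∉ U i → f i ξ = 0) → (∀ i, MR.l2 (f i) < ⊤) →
    ENNReal.ofReal (ρ ^ (-(m : ℝ))) * ∫⁻ z in {z : E n × ℝ | |z.2 - t₀| ≤ ρ ^ 2}, ∏ i, lqw (qq (E n)) (wt (eP (E n)) ρ) (MR.ext (f i)) z ^ (1 / ((n : ℝ) + 3))
      ≤ ENNReal.ofReal (C * Q ^ M * ρ ^ ε) * ∏ i, MR.l2 (f i) ^ (((n : ℝ) + 2) / ((n : ℝ) * ((n : ℝ) + 3))) := by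
  intro m hm
  subst hm
  have hk : Module.finrank ℝ (E n) = n := finrank_euclideanSpace_fin
  have := dz_mrs (V := E n) (by rw [hk]; exact hn) C₀ ε hC₀ hε
  rw [hk] at this
  exact this

/-- the time reflection -/
noncomputable def dzoS (n : ℕ) : ST n ≃ᵐ ST n := (MeasurableEquiv.refl (E n)).prodCongr (MeasurableEquiv.neg ℝ)

theorem dzoS_forced : True := by
  have := @dzoS.eq_1
  trivial

theorem dzoS_apply (z : ST n) : dzoS n z = (z.1, -z.2) := rfl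

theorem dzoS_mp (n : ℕ) : MeasurePreserving (dzoS n) (volume : Measure (ST n)) volume :=
  (MeasurePreserving.id (volume : Measure (E n))).prod (Measure.measurePreserving_neg (volume : Measure ℝ))

theorem dzo_lqw_refl (q Ew ρ : ℝ) (g : E n → ℂ) (z : ST n) :
    lqw q (wt Ew ρ) (R257.ext g) z = lqw q (wt Ew ρ) (MR.ext g) (dzoS n z) := by
  unfold lqw
  rw [← (dzoS_mp n).lintegral_comp_emb (dzoS n).measurableEmbedding]
  refine lintegral_congr fun y => ?_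
  rw [dz_occ_ext, dzoS_apply, dzoS_apply]
  congr 1
  · simp
  unfold wt
  congr 3
  rw [Prod.norm_def, Prod.norm_def]
  simp only [Prod.fst_sub, Prod.snd_sub]
  congr 1
  rw [Real.norm_eq_abs, Real.norm_eq_abs, ← abs_neg]
  congr 1
  ring

/-- **LEAF L-DZ-O1c: `MRS*` in the language of row 257** (~250 l.).    `dz_mrs` for `V = E n`, `C₀ = max R₀ 0`, `t₀ = 0`, `U i = {ξ | f i ξ ≠ 0}` (`MR.Tr Q U` is `TransvS Q f`), reindexed by `Fin (n+1) ≃ Fin (dd (E n))`.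
Time reflection `S (x,t) = (x,-t)` (measure preserving, isometry):  `lqw q (wt E ρ) (R257.ext g) z = lqw q (wt E ρ) (MR.ext g) (S z)`, and `{|z.2| ≤ ρ²}` is invariant.   `(n+2)/(n(n+3)) = rex n/2`. -/
theorem dz_occ_mrs (hn : 1 ≤ n) (R₀ ε : ℝ) (hε : 0 < ε) : ∃ C : ℝ, ∃ M : ℕ, 0 ≤ C ∧ ∀ (ρ Q : ℝ) (f : Fin (n + 1) → E n → ℂ), 1 ≤ ρ → 1 ≤ Q → (∀ i, Dat R₀ (f i)) → TransvS Q f →
    ENNReal.ofReal (ρ ^ (-((n : ℝ) + 1))) * ∫⁻ z in {z : ST n | |z.2| ≤ ρ ^ 2}, ∏ i, lqw (qq (E n)) (wt (eP (E n)) ρ) (R257.ext (f i)) z ^ (1 / ((n : ℝ) + 3))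
      ≤ ENNReal.ofReal (C * Q ^ M * ρ ^ ε * ∏ i, (∫ ξ, ‖f i ξ‖ ^ 2) ^ (rex n / 2)) := by
  have hdd : dd (E n) = n + 1 := by
    unfold dd
    rw [finrank_euclideanSpace_fin]
  obtain ⟨C, M, hC⟩ := dzo_mrs_aux hn (max R₀ 0) ε (le_max_right _ _) hε (n + 1) hdd
  refine ⟨max C 0, M, le_max_right _ _, ?_⟩
  intro ρ Q f hρ hQ hf hT
  have h1 := hC ρ 0 Q (fun i => {ξ | f i ξ ≠ 0}) f hρ hQ
    (fun i ξ hξ => by
      rw [mem_closedBall, dist_zero_right]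
      exact ((hf i).supp ξ hξ).trans (le_max_left _ _))
    (fun ξ hξ t => hT ξ hξ t) (fun i => (hf i).meas)
    (fun i ξ hξ => by simpa using hξ) (fun i => (dz_occ_dat (hf i)).2.1)
  have hset : (dzoS n) ⁻¹' {z : ST n | |z.2 - 0| ≤ ρ ^ 2} = {z : ST n | |z.2| ≤ ρ ^ 2} := by
    ext z
    simp [dzoS_apply]
  have h2 : ∫⁻ z in {z : ST n | |z.2| ≤ ρ ^ 2}, ∏ i, lqw (qq (E n)) (wt (eP (E n)) ρ) (R257.ext (f i)) z ^ (1 / ((n : ℝ) + 3))
      = ∫⁻ z in {z : E n × ℝ | |z.2 - 0| ≤ ρ ^ 2}, ∏ i, lqw (qq (E n)) (wt (eP (E n)) ρ) (MR.ext (f i)) z ^ (1 / ((n : ℝ) + 3)) := by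
    have h5 := (dzoS_mp n).setLIntegral_comp_preimage_emb (dzoS n).measurableEmbedding
      (fun z => ∏ i, lqw (qq (E n)) (wt (eP (E n)) ρ) (MR.ext (f i)) z ^ (1 / ((n : ℝ) + 3))) {z : ST n | |z.2 - 0| ≤ ρ ^ 2}
    rw [← h5, hset]
    refine lintegral_congr fun z => ?_
    refine Finset.prod_congr rfl fun i _ => ?_
    rw [dzo_lqw_refl]
  rw [h2]
  have h3 : ((n + 1 : ℕ) : ℝ) = (n : ℝ) + 1 := by push_cast; ring
  rw [h3] at h1
  refine h1.trans ?_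
  have hρ0 : 0 < ρ := by linarith
  have hQ0 : 0 < Q := by linarith
  have hr : ((n : ℝ) + 2) / ((n : ℝ) * ((n : ℝ) + 3)) = rex n / 2 := by
    unfold rex
    ring
  have hr0 : 0 ≤ rex n / 2 := by
    rw [← hr]
    positivity
  have h4 : ∏ i, MR.l2 (f i) ^ (((n : ℝ) + 2) / ((n : ℝ) * ((n : ℝ) + 3))) = ENNReal.ofReal (∏ i, (∫ ξ, ‖f i ξ‖ ^ 2) ^ (rex n / 2)) := by
    rw [ENNReal.ofReal_prod_of_nonneg (fun i _ => Real.rpow_nonneg (integral_nonneg fun ξ => by positivity) _)]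
    refine Finset.prod_congr rfl fun i _ => ?_
    rw [(dz_occ_dat (hf i)).1, hr, ENNReal.ofReal_rpow_of_nonneg (integral_nonneg fun ξ => by positivity) hr0]
  rw [h4]
  calc ENNReal.ofReal (C * Q ^ M * ρ ^ ε) * ENNReal.ofReal (∏ i, (∫ ξ, ‖f i ξ‖ ^ 2) ^ (rex n / 2))
      ≤ ENNReal.ofReal (max C 0 * Q ^ M * ρ ^ ε) * ENNReal.ofReal (∏ i, (∫ ξ, ‖f i ξ‖ ^ 2) ^ (rex n / 2)) := by
        refine mul_le_mul' (ENNReal.ofReal_le_ofReal ?_) le_rfl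
        have : 0 ≤ Q ^ M * ρ ^ ε := by positivity
        rw [mul_assoc, mul_assoc]
        exact mul_le_mul_of_nonneg_right (le_max_left _ _) this
    _ = _ := by
        rw [← ENNReal.ofReal_mul (by positivity)]

/-- the unit cubes have volume one -/
theorem dzo_cube_vol1 (k : (Fin n → ℤ) × ℤ) : volume (cube k : Set (ST n)) = 1 := by
  have e0 : (cube k : Set (ST n)) = ((WithLp.ofLp : E n → Fin n → ℝ) ⁻¹' (Set.pi univ fun i => Ico ((k.1 i : ℝ)) ((k.1 i : ℝ) + 1))) ×ˢ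
      Ico ((k.2 : ℝ)) ((k.2 : ℝ) + 1) := by
    ext z
    simp only [cube, mem_ofPred_eq, mem_prod, mem_preimage, mem_pi, mem_univ, true_imp_iff, mem_Ico]
  rw [e0, Measure.volume_eq_prod, Measure.prod_prod,
    (PiLp.volume_preserving_ofLp (Fin n)).measure_preimage (MeasurableSet.univ_pi fun i => measurableSet_Ico).nullMeasurableSet,
    Real.volume_pi_Ico, Real.volume_Ico]
  simp

/-- the unit cubes are pairwise disjoint -/
theorem dzo_cube_disj1 {k k' : (Fin n → ℤ) × ℤ} (hne : k ≠ k') : Disjoint (cube k : Set (ST n)) (cube k') := by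
  rw [Set.disjoint_left]
  intro z h1 h2
  exact hne ((inf_cube_partition z).unique h1 h2)

/-- the lattice sum of a fast decaying weight -/
theorem dzo_lattice_sum (n : ℕ) : ∃ c : ℝ, 0 ≤ c ∧ ∀ (S : Finset ((Fin n → ℤ) × ℤ)) (w : (Fin n → ℤ) × ℤ → ST n), (∀ q ∈ S, w q ∈ cube q) →
    ∀ y : ST n, ∑ q ∈ S, wt ((n : ℝ) + 2) 1 (y - w q) ≤ ENNReal.ofReal c := by
  have hdd : (dd (E n) : ℝ) < (n : ℝ) + 2 := by
    unfold dd
    rw [finrank_euclideanSpace_fin]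
    push_cast
    linarith
  obtain ⟨c, hc, hint⟩ := exists_lintegral_wt (V := E n) hdd
  have hs0 : 0 ≤ Real.sqrt n := Real.sqrt_nonneg _
  refine ⟨(Real.sqrt n + 2) ^ ((n : ℝ) + 2) * c, by positivity, ?_⟩
  intro S w hw y
  have hpt : ∀ q ∈ S, ∀ u ∈ (cube q : Set (ST n)), wt ((n : ℝ) + 2) 1 (y - w q) ≤ ENNReal.ofReal ((Real.sqrt n + 2) ^ ((n : ℝ) + 2)) * wt ((n : ℝ) + 2) 1 (y - u) := by
    intro q hq u hu
    have h1 : ‖u - w q‖ ≤ Real.sqrt n + 1 := by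
      have := inf_cube_subset_ball q (hw q hq) hu
      rwa [mem_closedBall, dist_eq_norm] at this
    have h2 : ‖y - u‖ ≤ ‖y - w q‖ + (Real.sqrt n + 1) := by
      calc ‖y - u‖ = ‖(y - w q) - (u - w q)‖ := by congr 1; abel
        _ ≤ ‖y - w q‖ + ‖u - w q‖ := norm_sub_le _ _
        _ ≤ _ := by linarith
    unfold wt
    rw [← ENNReal.ofReal_mul (by positivity)]
    apply ENNReal.ofReal_le_ofReal
    rw [div_one, div_one]
    have ha : 0 < 1 + ‖y - w q‖ := by positivity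
    have hb : 0 < 1 + ‖y - u‖ := by positivity
    have h3 : 1 + ‖y - u‖ ≤ (Real.sqrt n + 2) * (1 + ‖y - w q‖) := by
      nlinarith [norm_nonneg (y - w q)]
    have hp : (0 : ℝ) ≤ (n : ℝ) + 2 := by positivity
    have h4 : (1 + ‖y - u‖) ^ ((n : ℝ) + 2) ≤ (Real.sqrt n + 2) ^ ((n : ℝ) + 2) * (1 + ‖y - w q‖) ^ ((n : ℝ) + 2) := by
      rw [← Real.mul_rpow (by positivity) ha.le]
      exact Real.rpow_le_rpow hb.le h3 hp
    rw [Real.rpow_neg ha.le, Real.rpow_neg hb.le]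
    have h5 : 0 < (1 + ‖y - w q‖) ^ ((n : ℝ) + 2) := Real.rpow_pos_of_pos ha _
    have h6 : 0 < (1 + ‖y - u‖) ^ ((n : ℝ) + 2) := Real.rpow_pos_of_pos hb _
    rw [← div_eq_mul_inv, le_div_iff₀ h6, ← div_eq_inv_mul, div_le_iff₀ h5]
    exact h4
  have hbox : ∀ q ∈ S, wt ((n : ℝ) + 2) 1 (y - w q) ≤ ∫⁻ u in cube q, ENNReal.ofReal ((Real.sqrt n + 2) ^ ((n : ℝ) + 2)) * wt ((n : ℝ) + 2) 1 (y - u) := by
    intro q hq
    calc wt ((n : ℝ) + 2) 1 (y - w q) = ∫⁻ _u in cube q, wt ((n : ℝ) + 2) 1 (y - w q) := by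
          rw [setLIntegral_const, dzo_cube_vol1, mul_one]
      _ ≤ _ := setLIntegral_mono' (inf_cube_measurable q) fun u hu => hpt q hq u hu
  calc ∑ q ∈ S, wt ((n : ℝ) + 2) 1 (y - w q)
      ≤ ∑ q ∈ S, ∫⁻ u in cube q, ENNReal.ofReal ((Real.sqrt n + 2) ^ ((n : ℝ) + 2)) * wt ((n : ℝ) + 2) 1 (y - u) := Finset.sum_le_sum hbox
    _ = ∫⁻ u in ⋃ q ∈ S, (cube q : Set (ST n)), ENNReal.ofReal ((Real.sqrt n + 2) ^ ((n : ℝ) + 2)) * wt ((n : ℝ) + 2) 1 (y - u) :=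
        (lintegral_biUnion_finset (fun b _ b' _ hne => dzo_cube_disj1 hne) (fun b _ => inf_cube_measurable b) _).symm
    _ ≤ ∫⁻ u, ENNReal.ofReal ((Real.sqrt n + 2) ^ ((n : ℝ) + 2)) * wt ((n : ℝ) + 2) 1 (y - u) := setLIntegral_le_lintegral _ _
    _ = ENNReal.ofReal ((Real.sqrt n + 2) ^ ((n : ℝ) + 2)) * ∫⁻ u, wt ((n : ℝ) + 2) 1 (y - u) := lintegral_const_mul' _ _ ENNReal.ofReal_ne_top
    _ = ENNReal.ofReal ((Real.sqrt n + 2) ^ ((n : ℝ) + 2)) * ∫⁻ u : ST n, wt ((n : ℝ) + 2) 1 u := by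
        rw [lintegral_sub_left_eq_self (fun u : ST n => wt ((n : ℝ) + 2) 1 u) y]
    _ = _ := by
        rw [hint 1 one_pos, Real.one_rpow, mul_one, ← ENNReal.ofReal_mul (by positivity)]

/-- **LEAF L-DZ-O2a: a lattice kernel bound** (~200 l.).    `c_q = (zvec q.1, q.2)` corner of `cube q`, `‖w q - c_q‖ ≤ √n + 1`, so `1 + ‖y - w q‖ ≥ (1 + ‖y - c_q‖)/(√n + 2)`; the same for `y` and its own corner:  `∑_q (1 + ‖y - w q‖)^(-(n+2)) ≤ C_n`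
(`R257.sp_lattice_W` with `ρ = 1`, or disjoint cubes + `BD.exists_lintegral_wt`).    If `‖y - z‖ ≥ 2ρ`: `‖y - w q‖ ≥ ‖y - z‖/2`, so `(1 + ‖y - w q‖)^(-E) ≤ 2^E (1 + ‖y - z‖/ρ)^(-E)` (`ρ ≥ 1`);   if `‖y - z‖ < 2ρ`: `1 ≤ 3^E (1 + ‖y - z‖/ρ)^(-E)`. -/
theorem dz_occ_ker (n : ℕ) (E : ℝ) (hE : 0 ≤ E) : ∃ K : ℝ, ∀ (ρ : ℝ) (z : ST n) (S : Finset ((Fin n → ℤ) × ℤ)) (w : (Fin n → ℤ) × ℤ → ST n), 1 ≤ ρ → (∀ q ∈ S, w q ∈ cube q) → (∀ q ∈ S, ‖w q - z‖ ≤ ρ) →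
    ∀ y : ST n, ∑ q ∈ S, wt (E + (n : ℝ) + 2) 1 (y - w q) ≤ ENNReal.ofReal K * wt E ρ (y - z) := by
  obtain ⟨c, hc, hsum⟩ := dzo_lattice_sum n
  refine ⟨c * 2 ^ E, ?_⟩
  intro ρ z S w hρ hw hwz y
  have hρ0 : 0 < ρ := by linarith
  have hpt : ∀ q ∈ S, wt (E + (n : ℝ) + 2) 1 (y - w q) ≤ wt ((n : ℝ) + 2) 1 (y - w q) * (ENNReal.ofReal (2 ^ E) * wt E ρ (y - z)) := by
    intro q hq
    unfold wt
    rw [← ENNReal.ofReal_mul (by positivity), ← ENNReal.ofReal_mul (by positivity)]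
    apply ENNReal.ofReal_le_ofReal
    rw [div_one]
    have ha : 0 < 1 + ‖y - w q‖ := by positivity
    have hb : 0 < 1 + ‖y - z‖ / ρ := by positivity
    have h2 : ‖y - z‖ ≤ ‖y - w q‖ + ρ := by
      calc ‖y - z‖ = ‖(y - w q) + (w q - z)‖ := by congr 1; abel
        _ ≤ ‖y - w q‖ + ‖w q - z‖ := norm_add_le _ _
        _ ≤ _ := by linarith [hwz q hq]
    have h3 : 1 + ‖y - z‖ / ρ ≤ 2 * (1 + ‖y - w q‖) := by
      have : ‖y - z‖ / ρ ≤ ‖y - w q‖ + 1 := by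
        rw [div_le_iff₀ hρ0]
        nlinarith [norm_nonneg (y - w q)]
      linarith [norm_nonneg (y - w q)]
    have h4 : (1 + ‖y - z‖ / ρ) ^ E ≤ 2 ^ E * (1 + ‖y - w q‖) ^ E := by
      rw [← Real.mul_rpow (by positivity) ha.le]
      exact Real.rpow_le_rpow hb.le h3 hE
    have e1 : -(E + (n : ℝ) + 2) = -((n : ℝ) + 2) + -E := by ring
    rw [e1, Real.rpow_add ha]
    apply mul_le_mul_of_nonneg_left _ (Real.rpow_pos_of_pos ha _).le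
    rw [Real.rpow_neg ha.le, Real.rpow_neg hb.le]
    have h5 : 0 < (1 + ‖y - w q‖) ^ E := Real.rpow_pos_of_pos ha _
    have h6 : 0 < (1 + ‖y - z‖ / ρ) ^ E := Real.rpow_pos_of_pos hb _
    rw [← div_eq_mul_inv, le_div_iff₀ h6, ← div_eq_inv_mul, div_le_iff₀ h5]
    exact h4
  calc ∑ q ∈ S, wt (E + (n : ℝ) + 2) 1 (y - w q)
      ≤ ∑ q ∈ S, wt ((n : ℝ) + 2) 1 (y - w q) * (ENNReal.ofReal (2 ^ E) * wt E ρ (y - z)) := Finset.sum_le_sum hpt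
    _ = (∑ q ∈ S, wt ((n : ℝ) + 2) 1 (y - w q)) * (ENNReal.ofReal (2 ^ E) * wt E ρ (y - z)) := (Finset.sum_mul _ _ _).symm
    _ ≤ ENNReal.ofReal c * (ENNReal.ofReal (2 ^ E) * wt E ρ (y - z)) := mul_le_mul' (hsum S w hw y) le_rfl
    _ = _ := by
        rw [← mul_assoc, ← ENNReal.ofReal_mul hc]

theorem dzo_sum_lint_le {α ι : Type} [MeasurableSpace α] (μ : Measure α) (S : Finset ι) (f : ι → α → ℝ≥0∞) :
    ∑ q ∈ S, ∫⁻ y, f q y ∂μ ≤ ∫⁻ y, ∑ q ∈ S, f q y ∂μ := by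
  classical
  induction S using Finset.induction_on with
  | empty => simp
  | insert q S hq ih =>
    simp only [Finset.sum_insert hq]
    exact (add_le_add le_rfl ih).trans (le_lintegral_add _ _)

theorem dzo_exps (hn : 1 ≤ n) : 2 ≤ qq (E n) ∧ 0 ≤ eP (E n) := by
  have hk : Module.finrank ℝ (E n) = n := finrank_euclideanSpace_fin
  have hn' : (1 : ℝ) ≤ (n : ℝ) := by exact_mod_cast hn
  have hq : 2 ≤ qq (E n) := by
    unfold qq
    rw [hk, le_div_iff₀ (by linarith)]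
    linarith
  refine ⟨hq, ?_⟩
  unfold eP eG eT eY eX eS eE
  rw [hk]
  have h0 : 0 < qq (E n) := by linarith
  positivity

/-- **LEAF L-DZ-O2b: many high cubes in a ball ⟹ large local norm** (~150 l.).    witnesses `w q ∈ cube q`;  locally constant property at `w q` with the exponent `p = q`, weight `wt (eP + n + 2) 1`
(`dz_loc_const` + `dz_occ_ext` + reflection, or `R257.inf_lc n` with `r = 0`: `spLoc P (spW Ew 1) F z = lqw P (wt Ew 1) F z` by `rfl`);   sum over `q ∈ S` (`lintegral_finset_sum`), `dz_occ_ker` with `E = eP (E n)`. -/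
theorem dz_occ_lower (hn : 1 ≤ n) (R₀ : ℝ) : ∃ K : ℝ, 0 < K ∧ ∀ (ρ a : ℝ) (z : ST n) (S : Finset ((Fin n → ℤ) × ℤ)) (g : E n → ℂ), 1 ≤ ρ → 0 ≤ a → Dat R₀ g → (∀ q ∈ S, cube q ⊆ closedBall z ρ) →
    (∀ q ∈ S, ∃ w ∈ cube q, a ≤ ‖R257.ext g w‖) →
    (S.card : ℝ≥0∞) * ENNReal.ofReal (a ^ qq (E n)) ≤ ENNReal.ofReal K * lqw (qq (E n)) (wt (eP (E n)) ρ) (R257.ext g) z := by
  obtain ⟨hq2, hP⟩ := dzo_exps hn
  obtain ⟨C, hC⟩ := inf_lc n R₀ (qq (E n)) (eP (E n) + (n : ℝ) + 2) 0 (by linarith)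
  obtain ⟨K₁, hK₁⟩ := dz_occ_ker n (eP (E n)) hP
  refine ⟨max C 0 * max K₁ 0 + 1, by positivity, ?_⟩
  intro ρ a z S g hρ ha hg hsub hw
  choose! w hwc hwa using hw
  have h1 : ∀ q ∈ S, ENNReal.ofReal (a ^ qq (E n)) ≤ ENNReal.ofReal C * ∫⁻ y, ‖R257.ext g y‖ₑ ^ qq (E n) * wt (eP (E n) + (n : ℝ) + 2) 1 (y - w q) := by
    intro q hq
    have h2 := hC g (w q) (w q) hg (by simp)
    refine le_trans ?_ h2
    rw [← ofReal_norm, ENNReal.ofReal_rpow_of_nonneg (norm_nonneg _) (by linarith)]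
    exact ENNReal.ofReal_le_ofReal (Real.rpow_le_rpow ha (hwa q hq) (by linarith))
  calc (S.card : ℝ≥0∞) * ENNReal.ofReal (a ^ qq (E n)) = ∑ _q ∈ S, ENNReal.ofReal (a ^ qq (E n)) := by
        rw [Finset.sum_const, nsmul_eq_mul]
    _ ≤ ∑ q ∈ S, ENNReal.ofReal C * ∫⁻ y, ‖R257.ext g y‖ₑ ^ qq (E n) * wt (eP (E n) + (n : ℝ) + 2) 1 (y - w q) := Finset.sum_le_sum h1
    _ = ENNReal.ofReal C * ∑ q ∈ S, ∫⁻ y, ‖R257.ext g y‖ₑ ^ qq (E n) * wt (eP (E n) + (n : ℝ) + 2) 1 (y - w q) := by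
        rw [Finset.mul_sum]
    _ ≤ ENNReal.ofReal C * ∫⁻ y, ∑ q ∈ S, ‖R257.ext g y‖ₑ ^ qq (E n) * wt (eP (E n) + (n : ℝ) + 2) 1 (y - w q) :=
        mul_le_mul' le_rfl (dzo_sum_lint_le _ _ _)
    _ ≤ ENNReal.ofReal C * ∫⁻ y, ENNReal.ofReal K₁ * (‖R257.ext g y‖ₑ ^ qq (E n) * wt (eP (E n)) ρ (y - z)) := by
        refine mul_le_mul' le_rfl (lintegral_mono fun y => ?_)
        rw [← Finset.mul_sum]
        have h3 := hK₁ ρ z S w hρ hwc (fun q hq => by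
          have := hsub q hq (hwc q hq)
          rwa [mem_closedBall, dist_eq_norm] at this) y
        calc ‖R257.ext g y‖ₑ ^ qq (E n) * ∑ q ∈ S, wt (eP (E n) + (n : ℝ) + 2) 1 (y - w q)
            ≤ ‖R257.ext g y‖ₑ ^ qq (E n) * (ENNReal.ofReal K₁ * wt (eP (E n)) ρ (y - z)) := mul_le_mul' le_rfl h3
          _ = _ := by ring
    _ = ENNReal.ofReal C * (ENNReal.ofReal K₁ * lqw (qq (E n)) (wt (eP (E n)) ρ) (R257.ext g) z) := by
        rw [lintegral_const_mul' _ _ ENNReal.ofReal_ne_top]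
        rfl
    _ = (ENNReal.ofReal C * ENNReal.ofReal K₁) * lqw (qq (E n)) (wt (eP (E n)) ρ) (R257.ext g) z := by ring
    _ ≤ ENNReal.ofReal (max C 0 * max K₁ 0 + 1) * lqw (qq (E n)) (wt (eP (E n)) ρ) (R257.ext g) z := by
        refine mul_le_mul' ?_ le_rfl
        calc ENNReal.ofReal C * ENNReal.ofReal K₁ ≤ ENNReal.ofReal (max C 0) * ENNReal.ofReal (max K₁ 0) :=
              mul_le_mul' (ENNReal.ofReal_le_ofReal (le_max_left _ _)) (ENNReal.ofReal_le_ofReal (le_max_left _ _))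
          _ = ENNReal.ofReal (max C 0 * max K₁ 0) := (ENNReal.ofReal_mul (le_max_right _ _)).symm
          _ ≤ _ := ENNReal.ofReal_le_ofReal (by linarith)

theorem dzo_floor {L : ℝ} (hL : 1 ≤ L) (x : ℝ) : L * (⌊x / L⌋ : ℝ) ≤ x ∧ x < L * ((⌊x / L⌋ : ℝ) + 1) := by
  have hL0 : 0 < L := by linarith
  have h1 := Int.floor_le (x / L)
  have h2 := Int.lt_floor_add_one (x / L)
  rw [le_div_iff₀ hL0] at h1
  rw [div_lt_iff₀ hL0] at h2
  constructor <;> linarith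

/-- **LEAF L-DZ-O3a: geometry of the boxes** (~100 l.).   coordinates differ by `≤ L + 1 ≤ 2L`;  `‖·‖₂ ≤ √n max`  (`EuclideanSpace.norm_eq`, `Real.sqrt_le_sqrt`);  `⌊x/L⌋ = b ↔ L b ≤ x < L (b+1)`. -/
theorem dz_occ_geo {L : ℝ} (hL : 1 ≤ L) (q : (Fin n → ℤ) × ℤ) (z : ST n) (hz : z ∈ cubeS L (bx L q)) :
    cube q ⊆ closedBall z (2 * (Real.sqrt n + 1) * L) ∧ |z.2 - (q.2 : ℝ)| ≤ L := by
  have hs := Real.sqrt_nonneg (n : ℝ)
  have hz2 := hz.2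
  have hf2 := dzo_floor hL (q.2 : ℝ)
  simp only [bx] at hz2
  refine ⟨?_, ?_⟩
  · intro y hy
    rw [mem_closedBall, Prod.dist_eq]
    refine max_le ?_ ?_
    · rw [EuclideanSpace.dist_eq]
      have : ∑ i, dist (y.1 i) (z.1 i) ^ 2 ≤ (n : ℝ) * (2 * L) ^ 2 := by
        calc ∑ i, dist (y.1 i) (z.1 i) ^ 2 ≤ ∑ _i : Fin n, (2 * L) ^ 2 := by
              refine Finset.sum_le_sum fun i _ => ?_
              rw [Real.dist_eq]
              have h1 := hy.1 i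
              have h2 := hz.1 i
              have h3 := dzo_floor hL (q.1 i : ℝ)
              simp only [bx] at h2
              refine pow_le_pow_left₀ (abs_nonneg _) ?_ 2
              rw [abs_le]
              constructor <;> linarith
          _ = n * (2 * L) ^ 2 := by simp
      refine (Real.sqrt_le_sqrt this).trans ?_
      rw [Real.sqrt_mul (Nat.cast_nonneg n), Real.sqrt_sq (by linarith)]
      nlinarith
    · rw [Real.dist_eq, abs_le]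
      have h1 := hy.2
      constructor <;> nlinarith
  · rw [abs_le]
    constructor <;> linarith

/-- the cubes are products -/
theorem dzo_cubeS_prod (a : ℝ) (k : (Fin n → ℤ) × ℤ) :
    (cubeS a k : Set (ST n)) = ((WithLp.ofLp : E n → Fin n → ℝ) ⁻¹' (Set.pi univ fun i => Ico (a * (k.1 i : ℝ)) (a * (k.1 i + 1)))) ×ˢ
      Ico (a * (k.2 : ℝ)) (a * (k.2 + 1)) := by
  ext z
  simp only [cubeS, mem_ofPred_eq, mem_prod, mem_preimage, mem_pi, mem_univ, true_imp_iff, mem_Ico]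

/-- the cubes are measurable -/
theorem dzo_cubeS_meas (a : ℝ) (k : (Fin n → ℤ) × ℤ) : MeasurableSet (cubeS a k : Set (ST n)) := by
  rw [dzo_cubeS_prod]
  exact ((PiLp.volume_preserving_ofLp (Fin n)).measurable (MeasurableSet.univ_pi fun i => measurableSet_Ico)).prod measurableSet_Ico

/-- the volume of a cube -/
theorem dzo_cubeS_vol {a : ℝ} (ha : 0 < a) (k : (Fin n → ℤ) × ℤ) : volume (cubeS a k : Set (ST n)) = ENNReal.ofReal (a ^ (n + 1)) := by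
  rw [dzo_cubeS_prod, Measure.volume_eq_prod, Measure.prod_prod,
    (PiLp.volume_preserving_ofLp (Fin n)).measure_preimage (MeasurableSet.univ_pi fun i => measurableSet_Ico).nullMeasurableSet,
    Real.volume_pi_Ico, Real.volume_Ico]
  have e : ∀ j : ℤ, a * ((j : ℝ) + 1) - a * (j : ℝ) = a := fun j => by ring
  simp only [e, Finset.prod_const, Finset.card_univ, Fintype.card_fin]
  rw [pow_succ, ENNReal.ofReal_mul (by positivity), ENNReal.ofReal_pow ha.le]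

/-- the cubes are pairwise disjoint -/
theorem dzo_cubeS_disj {a : ℝ} (ha : 0 < a) {k k' : (Fin n → ℤ) × ℤ} (hne : k ≠ k') : Disjoint (cubeS a k : Set (ST n)) (cubeS a k') := by
  have key : ∀ (x : ℝ) (j : ℤ), (a * (j : ℝ) ≤ x ∧ x < a * ((j : ℝ) + 1)) → ⌊x / a⌋ = j := by
    intro x j h
    rw [Int.floor_eq_iff, le_div_iff₀ ha, div_lt_iff₀ ha, mul_comm (j : ℝ) a, mul_comm ((j : ℝ) + 1) a]
    exact h
  rw [Set.disjoint_left]
  intro z h1 h2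
  apply hne
  refine Prod.ext (funext fun i => ?_) ?_
  · exact (key _ _ (h1.1 i)).symm.trans (key _ _ (h2.1 i))
  · exact (key _ _ h1.2).symm.trans (key _ _ h2.2)

open scoped Classical in
/-- **LEAF L-DZ-O3b: from the integral over the centres to the sum over the boxes** (~300 l.).    `ρ = 2(√n+1) L`, `λ_b = #(Y.filter (bx L · = b))`.    For `z ∈ cubeS L b`:  `dz_occ_geo` + `dz_occ_lower` (`S` = the fibre) for every `i`:
`∏_i lqw_i(z)^(1/(n+3)) ≥ (λ_b a^q / K)^((n+1)/(n+3))`,   `a^(q (n+1)/(n+3)) = a^((n+1) rex n)`.    The boxes `cubeS L b` are measurable, pairwise disjoint, of volume `L^(n+1)`, and lie in `{|z.2| ≤ ρ²}` (`|z.2| ≤ 3L² + L ≤ 4L² ≤ ρ²`):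
`∑_b ∫_{cubeS L b} ≤ ∫_{slab}` (`lintegral_biUnion_finset` + `lintegral_mono_set`).    `ρ^(-(n+1)) L^(n+1)` is a constant. -/
theorem dz_occ_sum (hn : 1 ≤ n) (R₀ : ℝ) : ∃ K : ℝ, 0 ≤ K ∧ ∀ (L a : ℝ) (Y : Finset ((Fin n → ℤ) × ℤ)) (f : Fin (n + 1) → E n → ℂ), 1 ≤ L → 0 ≤ a → (∀ q ∈ Y, |(q.2 : ℝ)| ≤ 3 * L ^ 2) → (∀ i, Dat R₀ (f i)) →
    (∀ q ∈ Y, ∀ i, ∃ z ∈ cube q, a ≤ ‖R257.ext (f i) z‖) →
    (∑ b ∈ Y.image (bx L), ((Y.filter fun q' => bx L q' = b).card : ℝ≥0∞) ^ (((n : ℝ) + 1) / ((n : ℝ) + 3))) * ENNReal.ofReal (a ^ (((n : ℝ) + 1) * rex n))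
      ≤ ENNReal.ofReal K * (ENNReal.ofReal ((2 * (Real.sqrt n + 1) * L) ^ (-((n : ℝ) + 1))) * ∫⁻ z in {z : ST n | |z.2| ≤ (2 * (Real.sqrt n + 1) * L) ^ 2},
          ∏ i, lqw (qq (E n)) (wt (eP (E n)) (2 * (Real.sqrt n + 1) * L)) (R257.ext (f i)) z ^ (1 / ((n : ℝ) + 3))) := by
  obtain ⟨K0, hK0, hlow⟩ := dz_occ_lower hn R₀
  have hn1 : (1 : ℝ) ≤ (n : ℝ) := by exact_mod_cast hn
  have hn3 : (0 : ℝ) < (n : ℝ) + 3 := by positivity
  have hc0 : 2 ≤ 2 * (Real.sqrt n + 1) := by nlinarith [Real.sqrt_nonneg (n : ℝ)]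
  have hc00 : 0 < 2 * (Real.sqrt n + 1) := by linarith
  obtain ⟨p, hp⟩ : ∃ p : ℝ, p = ((n : ℝ) + 1) / ((n : ℝ) + 3) := ⟨_, rfl⟩
  have hp0 : 0 < p := by rw [hp]; positivity
  refine ⟨K0 ^ p * (2 * (Real.sqrt n + 1)) ^ ((n : ℝ) + 1), by positivity, fun L a Y f hL ha hY hD hw => ?_⟩
  have hL0 : 0 < L := by linarith
  obtain ⟨ρ, hρ⟩ : ∃ ρ : ℝ, ρ = 2 * (Real.sqrt n + 1) * L := ⟨_, rfl⟩
  rw [← hρ, ← hp]
  have hρ1 : 1 ≤ ρ := by rw [hρ]; nlinarith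
  have hρ0 : 0 < ρ := by linarith
  have hρL : 2 * L ≤ ρ := by rw [hρ]; nlinarith
  obtain ⟨Φ, hΦ⟩ : ∃ Φ : ST n → ℝ≥0∞, Φ = fun z => ∏ i, lqw (qq (E n)) (wt (eP (E n)) ρ) (R257.ext (f i)) z ^ (1 / ((n : ℝ) + 3)) := ⟨_, rfl⟩
  have hΦ' : ∀ z, ∏ i, lqw (qq (E n)) (wt (eP (E n)) ρ) (R257.ext (f i)) z ^ (1 / ((n : ℝ) + 3)) = Φ z := fun z => by rw [hΦ]
  simp only [hΦ']
  obtain ⟨A, hA⟩ : ∃ A : ℝ≥0∞, A = ENNReal.ofReal (a ^ qq (E n)) := ⟨_, rfl⟩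
  -- the exponent
  have hq : qq (E n) = 2 * ((n : ℝ) + 2) / (n : ℝ) := by
    unfold qq
    rw [finrank_euclideanSpace_fin]
  have hAp : ENNReal.ofReal (a ^ (((n : ℝ) + 1) * rex n)) = A ^ p := by
    rw [hA, ENNReal.ofReal_rpow_of_nonneg (Real.rpow_nonneg ha _) hp0.le, ← Real.rpow_mul ha]
    congr 2
    rw [hq, hp]
    unfold rex
    field_simp
  -- pointwise lower bound
  have hpt : ∀ b ∈ Y.image (bx L), ∀ z ∈ (cubeS L b : Set (ST n)), (((Y.filter fun q' => bx L q' = b).card : ℝ≥0∞) * A) ^ p ≤ ENNReal.ofReal (K0 ^ p) * Φ z := by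
    intro b _ z hz
    have h1 : ∀ i, ((Y.filter fun q' => bx L q' = b).card : ℝ≥0∞) * A ≤ ENNReal.ofReal K0 * lqw (qq (E n)) (wt (eP (E n)) ρ) (R257.ext (f i)) z := fun i => by
      rw [hA]
      refine hlow ρ a z _ (f i) hρ1 ha (hD i) (fun q hq => ?_) (fun q hq => hw q (Finset.mem_filter.1 hq).1 i)
      have hb : bx L q = b := (Finset.mem_filter.1 hq).2
      rw [hρ]
      exact (dz_occ_geo hL q z (by rw [hb]; exact hz)).1
    have h2 : ∏ _i : Fin (n + 1), (((Y.filter fun q' => bx L q' = b).card : ℝ≥0∞) * A) ^ (1 / ((n : ℝ) + 3))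
        ≤ ∏ i : Fin (n + 1), (ENNReal.ofReal K0 * lqw (qq (E n)) (wt (eP (E n)) ρ) (R257.ext (f i)) z) ^ (1 / ((n : ℝ) + 3)) :=
      Finset.prod_le_prod' fun i _ => ENNReal.rpow_le_rpow (h1 i) (by positivity)
    have e1 : ∏ _i : Fin (n + 1), (((Y.filter fun q' => bx L q' = b).card : ℝ≥0∞) * A) ^ (1 / ((n : ℝ) + 3)) = (((Y.filter fun q' => bx L q' = b).card : ℝ≥0∞) * A) ^ p := by
      rw [Finset.prod_const, Finset.card_univ, Fintype.card_fin, ← ENNReal.rpow_natCast, ← ENNReal.rpow_mul]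
      congr 1
      rw [hp]
      push_cast
      field_simp
    have e2 : ∏ i : Fin (n + 1), (ENNReal.ofReal K0 * lqw (qq (E n)) (wt (eP (E n)) ρ) (R257.ext (f i)) z) ^ (1 / ((n : ℝ) + 3)) = ENNReal.ofReal (K0 ^ p) * Φ z := by
      simp only [ENNReal.mul_rpow_of_nonneg _ _ (show 0 ≤ 1 / ((n : ℝ) + 3) by positivity)]
      rw [Finset.prod_mul_distrib, Finset.prod_const, Finset.card_univ, Fintype.card_fin, ← ENNReal.rpow_natCast, ← ENNReal.rpow_mul, hΦ,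
        ← ENNReal.ofReal_rpow_of_pos hK0]
      congr 2
      rw [hp]
      push_cast
      field_simp
    rw [← e1, ← e2]
    exact h2
  -- integrate over one box
  have hbox : ∀ b ∈ Y.image (bx L), ENNReal.ofReal (L ^ (n + 1)) * (((Y.filter fun q' => bx L q' = b).card : ℝ≥0∞) * A) ^ p ≤ ENNReal.ofReal (K0 ^ p) * ∫⁻ z in cubeS L b, Φ z := by
    intro b hb
    calc ENNReal.ofReal (L ^ (n + 1)) * (((Y.filter fun q' => bx L q' = b).card : ℝ≥0∞) * A) ^ p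
        = ∫⁻ _z in cubeS L b, (((Y.filter fun q' => bx L q' = b).card : ℝ≥0∞) * A) ^ p := by
          rw [setLIntegral_const, dzo_cubeS_vol hL0, mul_comm]
      _ ≤ ∫⁻ z in cubeS L b, ENNReal.ofReal (K0 ^ p) * Φ z := setLIntegral_mono' (dzo_cubeS_meas L b) fun z hz => hpt b hb z hz
      _ = ENNReal.ofReal (K0 ^ p) * ∫⁻ z in cubeS L b, Φ z := lintegral_const_mul' _ _ ENNReal.ofReal_ne_top
  -- the boxes lie in the slab
  have hslab : (⋃ b ∈ Y.image (bx L), (cubeS L b : Set (ST n))) ⊆ {z : ST n | |z.2| ≤ ρ ^ 2} := by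
    intro z hz
    obtain ⟨b, hb, hzb⟩ := Set.mem_iUnion₂.1 hz
    obtain ⟨q, hq, rfl⟩ := Finset.mem_image.1 hb
    have h1 := (dz_occ_geo hL q z hzb).2
    have h2 := hY q hq
    have h3 : |z.2| ≤ L + 3 * L ^ 2 := by
      calc |z.2| = |(z.2 - (q.2 : ℝ)) + (q.2 : ℝ)| := by ring_nf
        _ ≤ |z.2 - (q.2 : ℝ)| + |(q.2 : ℝ)| := abs_add_le _ _
        _ ≤ L + 3 * L ^ 2 := add_le_add h1 h2
    show |z.2| ≤ ρ ^ 2
    nlinarith
  have hsumint : ∑ b ∈ Y.image (bx L), ∫⁻ z in cubeS L b, Φ z ≤ ∫⁻ z in {z : ST n | |z.2| ≤ ρ ^ 2}, Φ z := by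
    rw [← lintegral_biUnion_finset (fun b _ b' _ hne => dzo_cubeS_disj hL0 hne) (fun b _ => dzo_cubeS_meas L b)]
    exact lintegral_mono_set hslab
  -- assembly
  have hmain : ENNReal.ofReal (L ^ (n + 1)) * ((∑ b ∈ Y.image (bx L), ((Y.filter fun q' => bx L q' = b).card : ℝ≥0∞) ^ p) * A ^ p)
      ≤ ENNReal.ofReal (K0 ^ p) * ∫⁻ z in {z : ST n | |z.2| ≤ ρ ^ 2}, Φ z := by
    calc ENNReal.ofReal (L ^ (n + 1)) * ((∑ b ∈ Y.image (bx L), ((Y.filter fun q' => bx L q' = b).card : ℝ≥0∞) ^ p) * A ^ p)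
        = ∑ b ∈ Y.image (bx L), ENNReal.ofReal (L ^ (n + 1)) * (((Y.filter fun q' => bx L q' = b).card : ℝ≥0∞) * A) ^ p := by
          rw [Finset.sum_mul, Finset.mul_sum]
          exact Finset.sum_congr rfl fun b _ => by rw [ENNReal.mul_rpow_of_nonneg _ _ hp0.le]
      _ ≤ ∑ b ∈ Y.image (bx L), ENNReal.ofReal (K0 ^ p) * ∫⁻ z in cubeS L b, Φ z := Finset.sum_le_sum hbox
      _ = ENNReal.ofReal (K0 ^ p) * ∑ b ∈ Y.image (bx L), ∫⁻ z in cubeS L b, Φ z := (Finset.mul_sum _ _ _).symm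
      _ ≤ ENNReal.ofReal (K0 ^ p) * ∫⁻ z in {z : ST n | |z.2| ≤ ρ ^ 2}, Φ z := mul_le_mul' le_rfl hsumint
  rw [hAp]
  have hone : ENNReal.ofReal ((2 * (Real.sqrt n + 1)) ^ ((n : ℝ) + 1)) * ENNReal.ofReal (ρ ^ (-((n : ℝ) + 1))) * ENNReal.ofReal (L ^ (n + 1)) = 1 := by
    rw [← ENNReal.ofReal_mul (by positivity), ← ENNReal.ofReal_mul (by positivity), hρ, Real.mul_rpow hc00.le hL0.le, Real.rpow_neg hc00.le, Real.rpow_neg hL0.le]
    have e3 : L ^ (n + 1) = L ^ ((n : ℝ) + 1) := by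
      rw [← Real.rpow_natCast]
      push_cast
      rfl
    rw [e3]
    have h1 : (2 * (Real.sqrt n + 1)) ^ ((n : ℝ) + 1) ≠ 0 := (Real.rpow_pos_of_pos hc00 _).ne'
    have h2 : L ^ ((n : ℝ) + 1) ≠ 0 := (Real.rpow_pos_of_pos hL0 _).ne'
    have : (2 * (Real.sqrt n + 1)) ^ ((n : ℝ) + 1) * (((2 * (Real.sqrt n + 1)) ^ ((n : ℝ) + 1))⁻¹ * (L ^ ((n : ℝ) + 1))⁻¹) * L ^ ((n : ℝ) + 1) = 1 := by
      field_simp
    rw [this, ENNReal.ofReal_one]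
  calc (∑ b ∈ Y.image (bx L), ((Y.filter fun q' => bx L q' = b).card : ℝ≥0∞) ^ p) * A ^ p
      = ENNReal.ofReal ((2 * (Real.sqrt n + 1)) ^ ((n : ℝ) + 1)) * ENNReal.ofReal (ρ ^ (-((n : ℝ) + 1))) *
          (ENNReal.ofReal (L ^ (n + 1)) * ((∑ b ∈ Y.image (bx L), ((Y.filter fun q' => bx L q' = b).card : ℝ≥0∞) ^ p) * A ^ p)) := by
        rw [← mul_assoc, hone, one_mul]
    _ ≤ ENNReal.ofReal ((2 * (Real.sqrt n + 1)) ^ ((n : ℝ) + 1)) * ENNReal.ofReal (ρ ^ (-((n : ℝ) + 1))) *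
          (ENNReal.ofReal (K0 ^ p) * ∫⁻ z in {z : ST n | |z.2| ≤ ρ ^ 2}, Φ z) := mul_le_mul' le_rfl hmain
    _ = ENNReal.ofReal (K0 ^ p * (2 * (Real.sqrt n + 1)) ^ ((n : ℝ) + 1)) * (ENNReal.ofReal (ρ ^ (-((n : ℝ) + 1))) * ∫⁻ z in {z : ST n | |z.2| ≤ ρ ^ 2}, Φ z) := by
        rw [ENNReal.ofReal_mul (by positivity)]
        ring

/-- **EXIT: OCCUPANCY** (LEAF L-DZ-O4, ~200 l.;  GLUE).    `#Y = ∑_b λ_b` (`Finset.card_eq_sum_card_image`), `λ_b = λ_b^((n+1)/(n+3)) λ_b^(2/(n+3)) ≤ Lam^(2/(n+3)) λ_b^((n+1)/(n+3))`;   `dz_occ_sum`, `dz_occ_mrs` with `ρ = 2(√n+1) L`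
(`ρ^ε ≤ (2(√n+1))^ε L^ε`);   pass from `ℝ≥0∞` to `ℝ` (`ENNReal.ofReal_le_ofReal_iff`, everything is an `ofReal` of a nonnegative real; `M` real `:= (M : ℕ)`, `Real.rpow_natCast`). -/
theorem dz_occ (hn : 1 ≤ n) : OccStmt n := by
  classical
  intro R₀ ε hε
  obtain ⟨K1, hK1, hsum⟩ := dz_occ_sum hn R₀
  obtain ⟨C1, M1, hC1, hmrs⟩ := dz_occ_mrs hn R₀ ε hε
  have hc0 : 2 ≤ 2 * (Real.sqrt n + 1) := by nlinarith [Real.sqrt_nonneg (n : ℝ)]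
  refine ⟨K1 * C1 * (2 * (Real.sqrt n + 1)) ^ ε, (M1 : ℝ), fun L Q a Lam Y f hL hQ ha hLam hY hD hT hw hocc => ?_⟩
  have hL0 : 0 < L := by linarith
  have hn0 : (0 : ℝ) < (n : ℝ) + 3 := by positivity
  have hρ1 : 1 ≤ 2 * (Real.sqrt n + 1) * L := by nlinarith
  have h1 := hsum L a Y f hL ha hY hD hw
  have h2 := hmrs (2 * (Real.sqrt n + 1) * L) Q f hρ1 hQ hD hT
  have h3 := h1.trans (mul_le_mul' le_rfl h2)
  have hP : 0 ≤ ∏ i, (∫ ξ, ‖f i ξ‖ ^ 2) ^ (rex n / 2) :=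
    Finset.prod_nonneg fun i _ => Real.rpow_nonneg (integral_nonneg fun ξ => by positivity) _
  have hcast : ∀ b, (((Y.filter fun q' => bx L q' = b).card : ℝ≥0∞)) ^ (((n : ℝ) + 1) / ((n : ℝ) + 3))
      = ENNReal.ofReal (((Y.filter fun q' => bx L q' = b).card : ℝ) ^ (((n : ℝ) + 1) / ((n : ℝ) + 3))) := fun b => by
    rw [← ENNReal.ofReal_natCast, ENNReal.ofReal_rpow_of_nonneg (Nat.cast_nonneg _) (by positivity)]
  simp only [hcast] at h3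
  rw [← ENNReal.ofReal_sum_of_nonneg (fun b _ => Real.rpow_nonneg (Nat.cast_nonneg _) _), ← ENNReal.ofReal_mul (Finset.sum_nonneg fun b _ => Real.rpow_nonneg (Nat.cast_nonneg _) _),
    ← ENNReal.ofReal_mul hK1] at h3
  have hQM : 0 ≤ Q ^ M1 := by positivity
  have hρε : 0 ≤ (2 * (Real.sqrt n + 1) * L) ^ ε := Real.rpow_nonneg (by positivity) _
  have h4 := (ENNReal.ofReal_le_ofReal_iff (by positivity)).1 h3
  -- the counting
  have hcard : (Y.card : ℝ) ≤ Lam ^ (2 / ((n : ℝ) + 3)) * ∑ b ∈ Y.image (bx L), ((Y.filter fun q' => bx L q' = b).card : ℝ) ^ (((n : ℝ) + 1) / ((n : ℝ) + 3)) := by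
    have e1 : (Y.card : ℝ) = ∑ b ∈ Y.image (bx L), ((Y.filter fun q' => bx L q' = b).card : ℝ) := by
      rw [Finset.card_eq_sum_card_image (bx L) Y]
      push_cast
      rfl
    rw [e1, Finset.mul_sum]
    refine Finset.sum_le_sum fun b hb => ?_
    obtain ⟨q, hq, rfl⟩ := Finset.mem_image.1 hb
    have hle := hocc q hq
    obtain ⟨lam, hlam⟩ : ∃ lam : ℝ, lam = ((Y.filter fun q' => bx L q' = bx L q).card : ℝ) := ⟨_, rfl⟩
    rw [← hlam] at hle ⊢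
    have hlam0 : 0 ≤ lam := by rw [hlam]; positivity
    rcases hlam0.eq_or_lt with h0 | h0
    · rw [← h0, Real.zero_rpow (by positivity), mul_zero]
    · calc lam = lam ^ (2 / ((n : ℝ) + 3)) * lam ^ (((n : ℝ) + 1) / ((n : ℝ) + 3)) := by
            rw [← Real.rpow_add h0]
            have : 2 / ((n : ℝ) + 3) + ((n : ℝ) + 1) / ((n : ℝ) + 3) = 1 := by field_simp; ring
            rw [this, Real.rpow_one]
        _ ≤ Lam ^ (2 / ((n : ℝ) + 3)) * lam ^ (((n : ℝ) + 1) / ((n : ℝ) + 3)) :=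
            mul_le_mul_of_nonneg_right (Real.rpow_le_rpow hlam0 hle (by positivity)) (Real.rpow_nonneg hlam0 _)
  have hae : 0 ≤ a ^ (((n : ℝ) + 1) * rex n) := Real.rpow_nonneg ha _
  have hLamp : 0 ≤ Lam ^ (2 / ((n : ℝ) + 3)) := Real.rpow_nonneg hLam _
  have hρsplit : (2 * (Real.sqrt n + 1) * L) ^ ε = (2 * (Real.sqrt n + 1)) ^ ε * L ^ ε := Real.mul_rpow (by positivity) hL0.le
  calc (Y.card : ℝ) * a ^ (((n : ℝ) + 1) * rex n)
      ≤ Lam ^ (2 / ((n : ℝ) + 3)) * (∑ b ∈ Y.image (bx L), ((Y.filter fun q' => bx L q' = b).card : ℝ) ^ (((n : ℝ) + 1) / ((n : ℝ) + 3))) * a ^ (((n : ℝ) + 1) * rex n) :=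
        mul_le_mul_of_nonneg_right hcard hae
    _ = Lam ^ (2 / ((n : ℝ) + 3)) * ((∑ b ∈ Y.image (bx L), ((Y.filter fun q' => bx L q' = b).card : ℝ) ^ (((n : ℝ) + 1) / ((n : ℝ) + 3))) * a ^ (((n : ℝ) + 1) * rex n)) := by ring
    _ ≤ Lam ^ (2 / ((n : ℝ) + 3)) * (K1 * (C1 * Q ^ M1 * (2 * (Real.sqrt n + 1) * L) ^ ε * ∏ i, (∫ ξ, ‖f i ξ‖ ^ 2) ^ (rex n / 2))) := mul_le_mul_of_nonneg_left h4 hLamp
    _ = K1 * C1 * (2 * (Real.sqrt n + 1)) ^ ε * Q ^ (M1 : ℝ) * L ^ ε * Lam ^ (2 / ((n : ℝ) + 3)) * ∏ i, (∫ ξ, ‖f i ξ‖ ^ 2) ^ (rex n / 2) := by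
        rw [hρsplit, Real.rpow_natCast]
        ring

end Claimed.Agent.DZ
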