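import Claimed.Agent.R257.Sp.Defs

/-!
# Box DZ, part 3: OCCUPANCY OF THE `L`-BOXES (H transverse.tex l.161-172; replaces the refined fractal estimate d:refined / Du-Zhang Prop. 3.1).     DEFINITION OF THE EXIT     (captain helper3; shape agreed with helper195, TR-TUBES)
Language of `R257/Infra/Defs` (`E n`, `ST n`, `ext`, `Dat`, `cube`) and `R257/Sp/Defs` (`TransvS`).
-/

set_option autoImplicit false

namespace Claimed.Agent.DZ

open Claimed.Agent.R257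

/-- the `L`-box of a unit cube. -/
noncomputable def bx {n : ℕ} (L : ℝ) (q : (Fin n → ℤ) × ℤ) : (Fin n → ℤ) × ℤ := (fun i => ⌊(q.1 i : ℝ) / L⌋, ⌊(q.2 : ℝ) / L⌋)

/-- the exponent `r = 2(n+2)/(n(n+3))`. -/
noncomputable def rex (n : ℕ) : ℝ := 2 * ((n : ℝ) + 2) / ((n : ℝ) * ((n : ℝ) + 3))

open scoped Classical in
/-- **OCCUPANCY**:  if `n + 1` transverse exact fields are all `≥ a` somewhere on every unit cube of `Y` (times `|t| ≤ 3L²`) and every `L`-box holds at most `Lam` cubes of `Y`, then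
`#Y a^((n+1) r) ≤ C Q^M L^ε Lam^(2/(n+3)) ∏_i ‖f_i‖₂^r`. -/
def OccStmt (n : ℕ) : Prop :=
  ∀ R₀ ε : ℝ, 0 < ε → ∃ C M : ℝ, ∀ (L Q a Lam : ℝ) (Y : Finset ((Fin n → ℤ) × ℤ)) (f : Fin (n + 1) → E n → ℂ),
    1 ≤ L → 1 ≤ Q → 0 ≤ a → 0 ≤ Lam → (∀ q ∈ Y, |(q.2 : ℝ)| ≤ 3 * L ^ 2) → (∀ i, Dat R₀ (f i)) → TransvS Q f →
    (∀ q ∈ Y, ∀ i, ∃ z ∈ cube q, a ≤ ‖ext (f i) z‖) →
    (∀ q ∈ Y, ((Y.filter fun q' => bx L q' = bx L q).card : ℝ) ≤ Lam) →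
    (Y.card : ℝ) * a ^ (((n : ℝ) + 1) * rex n) ≤ C * Q ^ M * L ^ ε * Lam ^ (2 / ((n : ℝ) + 3)) * ∏ i, (∫ ξ, ‖f i ξ‖ ^ 2) ^ (rex n / 2)

/-- Stores the on-demand equation lemmas of the definitions above in THIS module (rule 6 hygiene). -/
theorem dz_occdefs_forced : True := by
  have := @bx.eq_1
  have := @rex.eq_1
  have := @OccStmt.eq_1
  trivial

end Claimed.Agent.DZ
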